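import Mathlib

/-!
# R110.Absorb

`absorb`: if `0 ≤ v ≤ H` in a unital C*-algebra and `δ > 0`, then `r = (H+δ)^{-1/2} v^{1/2}` is a
contraction with `‖r* H r - v‖ ≤ δ`.
-/

set_option autoImplicit false

open scoped ComplexOrder

namespace Crest.Agent.R110

universe u

variable {E : Type u} [CStarAlgebra E] [PartialOrder E] [StarOrderedRing E]

/-- Absorption lemma. -/
theorem absorb {v H : E} (hv : 0 ≤ v) (hvH : v ≤ H) {δ : ℝ} (hδ : 0 < δ) :
    ∃ r : E, ‖r‖ ≤ 1 ∧ ‖star r * H * r - v‖ ≤ δ ∧ star r * H * r ≤ v := by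
  set G : E := H + algebraMap ℝ E δ with hG
  have hH : 0 ≤ H := hv.trans hvH
  have hd : 0 ≤ algebraMap ℝ E δ := algebraMap_nonneg E hδ.le
  have hGs : IsStrictlyPositive G := by
    refine IsStrictlyPositive.nonneg_add hH ?_
    exact (isStrictlyPositive_algebraMap hδ)
  set k : E := G ^ (-(1 / 2) : ℝ) with hk
  have hk0 : 0 ≤ k := CFC.rpow_nonneg
  have hksa : star k = k := (IsSelfAdjoint.of_nonneg hk0).star_eq
  have hkGk : k * G * k = 1 := CFC.conjugate_rpow_neg_one_half G
  set w : E := CFC.sqrt v with hw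
  have hw0 : 0 ≤ w := CFC.sqrt_nonneg v
  have hwsa : star w = w := (IsSelfAdjoint.of_nonneg hw0).star_eq
  have hww : w * w = v := CFC.sqrt_mul_sqrt_self v hv
  -- `k` commutes with `G`, so `w k G k w = v`
  have hvG : v ≤ G := hvH.trans (by rw [hG]; exact le_add_of_nonneg_right hd)
  have hnorm : ‖k * w‖ ≤ 1 := by
    have h1 : ‖k * w‖ * ‖k * w‖ = ‖k * v * k‖ := by
      rw [← CStarRing.norm_self_mul_star, star_mul, hksa, hwsa]
      congr 1
      calc k * w * (w * k) = k * (w * w) * k := by noncomm_ring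
        _ = _ := by rw [hww]
    have h2 : k * v * k ≤ 1 := by
      rw [← hkGk]
      have := star_left_conjugate_le_conjugate hvG k
      rwa [hksa] at this
    have h3 : 0 ≤ k * v * k := by
      have := star_left_conjugate_nonneg hv k
      rwa [hksa] at this
    have h4 : ‖k * v * k‖ ≤ 1 := (CStarAlgebra.norm_le_one_iff_of_nonneg _ h3).mpr h2
    nlinarith [norm_nonneg (k * w)]
  have hkey : star (k * w) * H * (k * w) = v - algebraMap ℝ E δ * (star (k * w) * (k * w)) := by
    have e1 : H = G - algebraMap ℝ E δ := by rw [hG]; abel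
    have hc : ∀ x : E, x * algebraMap ℝ E δ = algebraMap ℝ E δ * x := fun x =>
      (Algebra.commutes δ x).symm
    rw [star_mul, hksa, hwsa, e1]
    have e2 : w * k * (G - algebraMap ℝ E δ) * (k * w)
        = w * (k * G * k) * w - w * k * algebraMap ℝ E δ * (k * w) := by noncomm_ring
    rw [e2, hkGk, mul_one, hww, hc (w * k)]
    noncomm_ring
  refine ⟨k * w, hnorm, ?_, ?_⟩
  · rw [hkey]
    have e : v - algebraMap ℝ E δ * (star (k * w) * (k * w)) - v
        = - (δ • (star (k * w) * (k * w))) := by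
      rw [Algebra.smul_def]; abel
    rw [e, norm_neg, norm_smul, Real.norm_of_nonneg hδ.le]
    have : ‖star (k * w) * (k * w)‖ ≤ 1 := by
      rw [CStarRing.norm_star_mul_self]; nlinarith [norm_nonneg (k * w)]
    nlinarith
  · rw [hkey, ← Algebra.smul_def]
    exact sub_le_self _ (smul_nonneg hδ.le (star_mul_self_nonneg _))

end Crest.Agent.R110
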