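import Crest.Agent.R110.Defs
import Crest.Agent.R110.QuoPI

/-!
# R110.Compare : comparison (L1), row merging, renormalisation, extraction (L3)   (helper384)
-/

set_option autoImplicit false
set_option linter.unusedSectionVars false
set_option linter.style.haveILetI false

open scoped BigOperators

namespace Crest.Agent.R110

universe u

namespace Cmp

section sums

variable {E : Type u} [CStarAlgebra E]

/-- `∑_{i,j} x_i* (r_i* g r'_j) x_j ≈ ∑_i x_i* a x_i` if `r_i* g r'_j ≈ δ_{ij} a`. -/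
lemma double_sum_bound {n : ℕ} (x r r' : Fin n → E) (g a : E) {δ : ℝ}
    (hr : ∀ i j, ‖star (r i) * g * r' j - (if i = j then a else 0)‖ ≤ δ) :
    ‖star (∑ i, r i * x i) * g * (∑ j, r' j * x j) - ∑ i, star (x i) * a * x i‖ ≤
      δ * (∑ i, ‖x i‖) ^ 2 := by
  have e1 : star (∑ i, r i * x i) * g * (∑ j, r' j * x j) =
      ∑ i, ∑ j, star (x i) * (star (r i) * g * r' j) * x j := by
    rw [star_sum, Finset.sum_mul, Finset.sum_mul]
    refine Finset.sum_congr rfl (fun i _ => ?_)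
    rw [Finset.mul_sum]
    refine Finset.sum_congr rfl (fun j _ => ?_)
    rw [star_mul]; noncomm_ring
  have e2 : ∑ i, star (x i) * a * x i =
      ∑ i, ∑ j, star (x i) * (if i = j then a else 0) * x j := by
    refine Finset.sum_congr rfl (fun i _ => ?_)
    rw [Finset.sum_eq_single i]
    · simp
    · intro j _ hj; rw [if_neg (Ne.symm hj)]; simp
    · intro h; exact absurd (Finset.mem_univ _) h
  rw [e1, e2, ← Finset.sum_sub_distrib]
  have e3 : ∀ i : Fin n, ‖∑ j, star (x i) * (star (r i) * g * r' j) * x j -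
      ∑ j, star (x i) * (if i = j then a else 0) * x j‖ ≤ ∑ j, ‖x i‖ * δ * ‖x j‖ := by
    intro i
    rw [← Finset.sum_sub_distrib]
    refine (norm_sum_le _ _).trans (Finset.sum_le_sum (fun j _ => ?_))
    have e4 : star (x i) * (star (r i) * g * r' j) * x j -
        star (x i) * (if i = j then a else 0) * x j =
        star (x i) * (star (r i) * g * r' j - (if i = j then a else 0)) * x j := by noncomm_ring
    rw [e4]
    refine (norm_mul_le _ _).trans ?_
    refine mul_le_mul_of_nonneg_right ?_ (norm_nonneg _)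
    refine (norm_mul_le _ _).trans ?_
    rw [norm_star]
    exact mul_le_mul_of_nonneg_left (hr i j) (norm_nonneg _)
  refine (norm_sum_le _ _).trans ((Finset.sum_le_sum (fun i _ => e3 i)).trans (le_of_eq ?_))
  rw [sq, Finset.sum_mul_sum, Finset.mul_sum]
  refine Finset.sum_congr rfl (fun i _ => ?_)
  rw [Finset.mul_sum]
  refine Finset.sum_congr rfl (fun j _ => ?_)
  ring

end sums

/-! ### the function `ψ` -/

/-- `ψ x = ((x-κ)_+ / x)^{1/2}`. -/
noncomputable def psi (κ : ℝ) : ℝ → ℝ := fun x => Real.sqrt (cut κ x / max x κ)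

lemma cut_cont (κ : ℝ) : Continuous (cut κ) := by unfold cut; fun_prop

lemma cut_nonneg' (κ x : ℝ) : 0 ≤ cut κ x := le_max_left _ _

lemma cut_of_le {κ x : ℝ} (h : x ≤ κ) : cut κ x = 0 := max_eq_left (by linarith)

lemma cut_of_ge {κ x : ℝ} (h : κ ≤ x) : cut κ x = x - κ := max_eq_right (by linarith)

lemma psi_continuous {κ : ℝ} (hκ : 0 < κ) : Continuous (psi κ) := by
  unfold psi
  refine Real.continuous_sqrt.comp ((cut_cont κ).div (by fun_prop) (fun x => ?_))
  exact (lt_max_of_lt_right hκ).ne'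

lemma psi_sq {κ : ℝ} (hκ : 0 < κ) (x : ℝ) : psi κ x * psi κ x = cut κ x / max x κ :=
  Real.mul_self_sqrt (div_nonneg (cut_nonneg' _ _) (lt_max_of_lt_right hκ).le)

lemma psi_mul_mul {κ : ℝ} (hκ : 0 < κ) (x : ℝ) : psi κ x * x * psi κ x = cut κ x := by
  have : psi κ x * x * psi κ x = (psi κ x * psi κ x) * x := by ring
  rw [this, psi_sq hκ]
  rcases le_total x κ with h | h
  · rw [cut_of_le h]; simp
  · rw [max_eq_left h, div_mul_cancel₀]
    exact (hκ.trans_le h).ne'

lemma psi_sq_le {κ : ℝ} (hκ : 0 < κ) (x : ℝ) : psi κ x * psi κ x ≤ κ⁻¹ * cut κ x := by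
  rw [psi_sq hκ, div_eq_inv_mul]
  refine mul_le_mul_of_nonneg_right ?_ (cut_nonneg' _ _)
  exact inv_anti₀ hκ (le_max_right _ _)

lemma ramp_mul_psi {s κ : ℝ} (hs : s < κ) (x : ℝ) : ramp s κ x * psi κ x = psi κ x := by
  rcases le_total x κ with h | h
  · have : psi κ x = 0 := by unfold psi; rw [cut_of_le h]; simp
    rw [this]; simp
  · have : ramp s κ x = 1 := by
      unfold ramp
      have h1 : 1 ≤ (x - s) / (κ - s) := by
        rw [one_le_div (by linarith)]; linarith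
      rw [min_eq_left h1]; simp
    rw [this, one_mul]

lemma ramp_cont {s t : ℝ} (_h : s < t) : Continuous (ramp s t) := by
  unfold ramp; fun_prop

variable {E : Type u} [CStarAlgebra E] [PartialOrder E] [StarOrderedRing E]

lemma star_cfc (f : ℝ → ℝ) (a : E) : star (cfc f a) = cfc f a :=
  (cfc_predicate f a : IsSelfAdjoint _).star_eq

lemma cfc_mul_of {a : E} (_ha : IsSelfAdjoint a) {f g k : ℝ → ℝ} (hf : Continuous f)
    (hg : Continuous g) (h : ∀ x, f x * g x = k x) : cfc f a * cfc g a = cfc k a := by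
  rw [← cfc_mul f g a hf.continuousOn hg.continuousOn]
  exact cfc_congr (fun x _ => h x)

lemma cfc_sandwich {a : E} (ha : IsSelfAdjoint a) {f k : ℝ → ℝ} (hf : Continuous f)
    (h : ∀ x, f x * x * f x = k x) : cfc f a * a * cfc f a = cfc k a := by
  have e1 : cfc f a * a = cfc (fun x => f x * x) a := by
    have e2 := cfc_mul f (fun x => x) a hf.continuousOn continuousOn_id
    rw [cfc_id' ℝ a ha] at e2
    exact e2.symm
  rw [e1]
  exact cfc_mul_of ha (hf.mul continuous_id) hf h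

/-- Core of L1: two orthogonal comparison elements. -/
theorem compare_core {X z : E} {κ : ℝ} {ε : ℝ} (hε : 0 < ε)
    (hz : ∀ ε' : ℝ, 0 < ε' → ∃ (n : ℕ) (x : Fin n → E),
      ‖z - ∑ i, star (x i) * ct κ X * x i‖ ≤ ε')
    (hr : ∀ (m : ℕ) (δ : ℝ), 0 < δ → ∃ r : Fin m → E, ∀ i j,
      ‖star (r i) * ct κ X * r j - (if i = j then ct κ X else 0)‖ ≤ δ) :
    ∃ w₁ w₂ : E, ‖star w₁ * ct κ X * w₁ - z‖ ≤ ε ∧ ‖star w₂ * ct κ X * w₂ - z‖ ≤ ε ∧
      ‖star w₁ * ct κ X * w₂‖ ≤ ε := by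
  obtain ⟨n, x, hx⟩ := hz (ε / 2) (by positivity)
  set N : ℝ := (∑ i, ‖x i‖) ^ 2 + 1 with hN
  have hN0 : 0 < N := by positivity
  obtain ⟨r, hr⟩ := hr (n + n) (ε / (2 * N)) (by positivity)
  set g : E := ct κ X with hg
  have b11 := double_sum_bound x (fun i => r (Fin.castAdd n i)) (fun i => r (Fin.castAdd n i))
    g g (δ := ε / (2 * N)) (fun i j => by
      have h := hr (Fin.castAdd n i) (Fin.castAdd n j)
      by_cases hij : i = j
      · rw [if_pos hij]; rwa [if_pos (by rw [hij])] at h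
      · rw [if_neg hij]
        rwa [if_neg (fun hc => hij (Fin.castAdd_injective _ _ hc))] at h)
  have b22 := double_sum_bound x (fun i => r (Fin.natAdd n i)) (fun i => r (Fin.natAdd n i))
    g g (δ := ε / (2 * N)) (fun i j => by
      have h := hr (Fin.natAdd n i) (Fin.natAdd n j)
      by_cases hij : i = j
      · rw [if_pos hij]; rwa [if_pos (by rw [hij])] at h
      · rw [if_neg hij]
        rwa [if_neg (fun hc => hij (Fin.natAdd_injective _ _ hc))] at h)
  have b12 := double_sum_bound x (fun i => r (Fin.castAdd n i)) (fun i => r (Fin.natAdd n i))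
    g 0 (δ := ε / (2 * N)) (fun i j => by
      have h := hr (Fin.castAdd n i) (Fin.natAdd n j)
      rw [ite_self]
      rwa [if_neg (fun hc => by
        have h1 := congrArg Fin.val hc
        simp only [Fin.val_castAdd, Fin.val_natAdd] at h1
        omega)] at h)
  have hδ : ε / (2 * N) * (∑ i, ‖x i‖) ^ 2 ≤ ε / 2 := by
    rw [div_mul_eq_mul_div, div_le_div_iff₀ (by positivity) (by positivity)]
    have : (∑ i, ‖x i‖) ^ 2 ≤ N := by rw [hN]; linarith
    nlinarith
  have hz1 : ∀ a : E, ‖star a * g * a - ∑ i, star (x i) * g * x i‖ ≤ ε / 2 →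
      ‖star a * g * a - z‖ ≤ ε := by
    intro a ha
    calc ‖star a * g * a - z‖ = ‖(star a * g * a - ∑ i, star (x i) * g * x i) -
          (z - ∑ i, star (x i) * g * x i)‖ := by congr 1; abel
      _ ≤ _ := norm_sub_le _ _
      _ ≤ ε / 2 + ε / 2 := add_le_add ha hx
      _ = ε := by ring
  refine ⟨∑ i, r (Fin.castAdd n i) * x i, ∑ i, r (Fin.natAdd n i) * x i,
    hz1 _ (b11.trans hδ), hz1 _ (b22.trans hδ), ?_⟩
  have : ∑ i, star (x i) * (0 : E) * x i = 0 := by simp
  rw [this, sub_zero] at b12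
  exact (b12.trans hδ).trans (by linarith)

/-- norm bound for `ψ(X) w`. -/
lemma norm_psi_mul_sq_le {X : E} (hs : IsSelfAdjoint X) {κ : ℝ} (hκ : 0 < κ) (w : E) :
    ‖cfc (psi κ) X * w‖ ^ 2 ≤ κ⁻¹ * ‖star w * ct κ X * w‖ := by
  have hψ2 : cfc (psi κ) X * cfc (psi κ) X ≤ κ⁻¹ • ct κ X := by
    have e1 : cfc (psi κ) X * cfc (psi κ) X = cfc (fun x => psi κ x * psi κ x) X :=
      cfc_mul_of hs (psi_continuous hκ) (psi_continuous hκ) (fun x => rfl)
    rw [e1, ct, ← cfc_smul (κ⁻¹) (cut κ) X (cut_cont κ).continuousOn]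
    refine cfc_mono (fun x _ => ?_) ((psi_continuous hκ).mul (psi_continuous hκ)).continuousOn
      (continuous_const.mul (cut_cont κ)).continuousOn
    rw [smul_eq_mul]
    exact psi_sq_le hκ x
  have h1 : star (cfc (psi κ) X * w) * (cfc (psi κ) X * w) ≤ κ⁻¹ • (star w * ct κ X * w) := by
    have := star_left_conjugate_le_conjugate hψ2 w
    rw [star_mul, star_cfc]
    calc star w * cfc (psi κ) X * (cfc (psi κ) X * w)
        = star w * (cfc (psi κ) X * cfc (psi κ) X) * w := by noncomm_ring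
      _ ≤ star w * (κ⁻¹ • ct κ X) * w := this
      _ = κ⁻¹ • (star w * ct κ X * w) := by
          rw [mul_smul_comm, smul_mul_assoc]
  have h2 : ‖cfc (psi κ) X * w‖ ^ 2 ≤ ‖κ⁻¹ • (star w * ct κ X * w)‖ := by
    rw [sq, ← CStarRing.norm_star_mul_self]
    exact CStarAlgebra.norm_le_norm_of_nonneg_of_le (star_mul_self_nonneg _) h1
  rwa [norm_smul, Real.norm_of_nonneg (by positivity)] at h2

lemma psi_form {X : E} (hs : IsSelfAdjoint X) {κ : ℝ} (hκ : 0 < κ) (a b : E) :
    star (cfc (psi κ) X * a) * X * (cfc (psi κ) X * b) = star a * ct κ X * b := by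
  have hψh : cfc (psi κ) X * X * cfc (psi κ) X = ct κ X :=
    cfc_sandwich hs (psi_continuous hκ) (fun x => psi_mul_mul hκ x)
  rw [star_mul, star_cfc, ← hψh]; noncomm_ring


/-! ### private versions of interface lemmas (so that this file depends only on Cut, QuoPI) -/

lemma cfc_mem_aux {I : Set E} (hI : PIIdeal I) {a : E} (ha : IsSelfAdjoint a) (haI : a ∈ I)
    {f : ℝ → ℝ} (hf : Continuous f) {s : ℝ} (hs : 0 < s) (h0 : ∀ x, x ≤ s → f x = 0) :
    cfc f a ∈ I := by
  have hg : Continuous (fun x : ℝ => f x / max x s) :=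
    hf.div (by fun_prop) (fun x => (lt_max_of_lt_right hs).ne')
  have e : cfc f a = cfc (fun x : ℝ => f x / max x s) a * a := by
    have e2 := cfc_mul (fun x : ℝ => f x / max x s) (fun x => x) a hg.continuousOn continuousOn_id
    rw [cfc_id' ℝ a ha] at e2
    rw [← e2]
    refine cfc_congr (fun x _ => ?_)
    rcases le_total x s with h | h
    · simp [h0 x h]
    · simp only [max_eq_left h]
      rw [div_mul_cancel₀ _ (hs.trans_le h).ne']
  rw [e]
  exact hI.mul_left _ haI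

lemma le_of_ct_eq_zero_aux {a : E} (ha : IsSelfAdjoint a) {κ : ℝ} (h : ct κ a = 0) :
    a ≤ κ • (1 : E) := by
  have e1 : cfc (fun x : ℝ => κ + cut κ x) a = κ • (1 : E) := by
    rw [cfc_add a (fun _ : ℝ => κ) (cut κ) continuousOn_const (cut_cont κ).continuousOn,
      cfc_const κ a ha]
    have : cfc (cut κ) a = 0 := h
    rw [this, add_zero, Algebra.algebraMap_eq_smul_one]
  conv_lhs => rw [← cfc_id' ℝ a ha]
  rw [← e1]
  refine cfc_mono (fun x _ => ?_) continuousOn_id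
    (continuous_const.add (cut_cont κ)).continuousOn
  rcases le_total x κ with h | h
  · rw [cut_of_le h]; linarith
  · rw [cut_of_ge h]; linarith

lemma map_ct_aux {Q : Type u} [CStarAlgebra Q] (ρ : E →⋆ₐ[ℂ] Q) {a : E} (ha : IsSelfAdjoint a)
    (κ : ℝ) : ρ (ct κ a) = ct κ (ρ a) :=
  map_cfc_real ρ ha (cut_cont κ)

lemma kill_ct_iff_thr_aux {h : E} (hh : 0 ≤ h) {κ : ℝ} (hκ : 0 ≤ κ) (z : E) :
    Kill (ct κ h) z ↔ Thr h κ z := by
  constructor
  · intro hk Q _ ρ hρ
    exact hk Q ρ ((norm_map_le_iff hh hκ ρ).mp hρ)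
  · intro hk Q _ ρ hρ
    exact hk Q ρ ((norm_map_le_iff hh hκ ρ).mpr hρ)

end Cmp

section Compare

variable {E : Type u} [CStarAlgebra E] [PartialOrder E] [StarOrderedRing E]

/-- L1. -/
theorem comparison {I : Set E} (hI : PIIdeal I) {X : E} (hX : IsSelfAdjoint X) (hXI : X ∈ I)
    {κ : ℝ} (hκ : 0 < κ) {z : E} (hz : 0 ≤ z) (hk : Kill (ct κ X) z) {ε : ℝ} (hε : 0 < ε) :
    ∃ y₁ y₂ : E, ‖star y₁ * X * y₁ - z‖ < ε ∧ ‖star y₂ * X * y₂ - z‖ < ε ∧
      ‖star y₁ * X * y₂‖ < ε ∧ 0 ≤ star y₁ * X * y₁ ∧ 0 ≤ star y₂ * X * y₂ ∧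
      ‖y₁‖ ^ 2 ≤ (‖z‖ + ε) / κ ∧ ‖y₂‖ ^ 2 ≤ (‖z‖ + ε) / κ ∧
      (∀ s, s < κ → rp s κ X * y₁ = y₁ ∧ rp s κ X * y₂ = y₂) := by
  -- the element `ct κ X` is `q⋆q` with `q ∈ I`
  have hct0 : 0 ≤ ct κ X := cfc_nonneg (fun x _ => Cmp.cut_nonneg' κ x)
  set q : E := cfc (fun x => Real.sqrt (cut κ x)) X with hq
  have hqc : Continuous (fun x => Real.sqrt (cut κ x)) :=
    Real.continuous_sqrt.comp (Cmp.cut_cont κ)
  have hqI : q ∈ I := Cmp.cfc_mem_aux hI hX hXI hqc hκ (fun x hx => by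
    rw [Cmp.cut_of_le hx]; simp)
  have hqq : star q * q = ct κ X := by
    rw [hq, Cmp.star_cfc]
    exact Cmp.cfc_mul_of hX hqc hqc (fun x => Real.mul_self_sqrt (Cmp.cut_nonneg' κ x))
  obtain ⟨w₁, w₂, h1, h2, h3⟩ := Cmp.compare_core (z := z) (X := X) (κ := κ) (half_pos hε)
    (fun ε' hε' => by
      obtain ⟨n, x, hx⟩ := exists_sum_approx hct0 hz hk hε'
      exact ⟨n, x, by rwa [norm_sub_rev]⟩)
    (fun m δ hδ => by
      obtain ⟨r, hr⟩ := exists_copies (IsSelfAdjoint.star_mul_self q).star_eq (hI.pi q hqI) m δ hδ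
      rw [hqq] at hr
      exact ⟨r, fun i j => (hr i j).le⟩)
  have hnorm : ∀ w : E, ‖star w * ct κ X * w - z‖ ≤ ε / 2 →
      ‖cfc (Cmp.psi κ) X * w‖ ^ 2 ≤ (‖z‖ + ε) / κ := by
    intro w hw
    refine (Cmp.norm_psi_mul_sq_le hX hκ w).trans ?_
    rw [div_eq_inv_mul]
    refine mul_le_mul_of_nonneg_left ?_ (by positivity)
    calc ‖star w * ct κ X * w‖ = ‖z + (star w * ct κ X * w - z)‖ := by congr 1; abel
      _ ≤ ‖z‖ + ‖star w * ct κ X * w - z‖ := norm_add_le _ _
      _ ≤ ‖z‖ + ε := by linarith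
  have hpos : ∀ w : E, 0 ≤ star (cfc (Cmp.psi κ) X * w) * X * (cfc (Cmp.psi κ) X * w) := by
    intro w
    rw [Cmp.psi_form hX hκ]
    exact star_left_conjugate_nonneg hct0 w
  refine ⟨cfc (Cmp.psi κ) X * w₁, cfc (Cmp.psi κ) X * w₂, ?_, ?_, ?_, hpos _, hpos _,
    hnorm _ h1, hnorm _ h2, fun s hs => ?_⟩
  · rw [Cmp.psi_form hX hκ]; linarith
  · rw [Cmp.psi_form hX hκ]; linarith
  · rw [Cmp.psi_form hX hκ]; linarith
  · have e : rp s κ X * cfc (Cmp.psi κ) X = cfc (Cmp.psi κ) X :=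
      Cmp.cfc_mul_of hX (Cmp.ramp_cont hs) (Cmp.psi_continuous hκ) (Cmp.ramp_mul_psi hs)
    exact ⟨by rw [← mul_assoc, e], by rw [← mul_assoc, e]⟩

/-- row merging: `M = T_A T_A⋆ + T_B T_B⋆` (any `0 ≤ M ∈ I`). -/
theorem merge {I : Set E} (hI : PIIdeal I) {M : E} (hM : 0 ≤ M) (hMI : M ∈ I) {κ : ℝ} (hκ : 0 < κ)
    {z : E} (hz : 0 ≤ z) (hk : Thr M κ z) {ε : ℝ} (hε : 0 < ε) :
    ∃ T : E, ‖star T * T - z‖ < ε ∧ T * star T ≤ ((‖z‖ + ε) / κ) • M ∧
      (∀ p : E, p * M = M → p * T = T) := by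
  obtain ⟨y, _, h1, _, _, _, _, h6, _, _⟩ := comparison hI (IsSelfAdjoint.of_nonneg hM) hMI hκ hz
    ((Cmp.kill_ct_iff_thr_aux hM hκ.le z).mpr hk) hε
  set m : E := CFC.sqrt M with hm
  have hm0 : 0 ≤ m := CFC.sqrt_nonneg M
  have hms : star m = m := (IsSelfAdjoint.of_nonneg hm0).star_eq
  have hmm : m * m = M := CFC.sqrt_mul_sqrt_self M hM
  refine ⟨m * y, ?_, ?_, ?_⟩
  · rw [star_mul, hms]
    have : star y * m * (m * y) = star y * M * y := by rw [← hmm]; noncomm_ring
    rwa [this]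
  · rw [star_mul, hms]
    have e1 : y * star y ≤ algebraMap ℝ E (‖y‖ ^ 2) := by
      have h := IsSelfAdjoint.le_algebraMap_norm_self (IsSelfAdjoint.mul_star_self y)
      rwa [CStarRing.norm_self_mul_star, ← sq] at h
    have e2 := star_left_conjugate_le_conjugate e1 m
    rw [hms] at e2
    calc m * y * (star y * m) = m * (y * star y) * m := by noncomm_ring
      _ ≤ m * algebraMap ℝ E (‖y‖ ^ 2) * m := e2
      _ = (‖y‖ ^ 2) • M := by
          rw [← Algebra.commutes, mul_assoc, hmm, Algebra.smul_def]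
      _ ≤ ((‖z‖ + ε) / κ) • M := smul_le_smul_of_nonneg_right h6 hM
  · intro p hp
    have e : (p * m - m) * star (p * m - m) = 0 := by
      have : (p * m - m) * star (p * m - m)
          = (p * (m * m) - m * m) * star p - (p * (m * m) - m * m) := by
        rw [star_sub, star_mul, hms]; noncomm_ring
      rw [this, hmm, hp]; simp
    have e' := (CStarRing.mul_star_self_eq_zero_iff _).mp e
    rw [← mul_assoc, sub_eq_zero.mp e']

/-- renormalisation of a full element. -/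
theorem renorm {I : Set E} (hI : PIIdeal I) {T : E} (hT : T ∈ I) {κ : ℝ} (hκ : 0 < κ)
    {z : E} (hz : 0 ≤ z) (hk : Thr (star T * T) κ z) {ε : ℝ} (hε : 0 < ε) :
    ∃ y : E, ‖star (T * y) * (T * y) - z‖ < ε ∧ ‖y‖ ^ 2 ≤ (‖z‖ + ε) / κ := by
  obtain ⟨y, _, h1, _, _, _, _, h6, _, _⟩ := comparison hI (IsSelfAdjoint.star_mul_self T)
    (hI.mul_left (star T) hT) hκ hz
    ((Cmp.kill_ct_iff_thr_aux (star_mul_self_nonneg T) hκ.le z).mpr hk) hε
  refine ⟨y, ?_, h6⟩
  have : star (T * y) * (T * y) = star y * (star T * T) * y := by rw [star_mul]; noncomm_ring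
  rwa [this]

/-- L3, extraction in its consumer form ("one side is free"). -/
theorem extraction {I : Set E} (hI : PIIdeal I) {α d T v : E} (hα : IsSelfAdjoint α)
    (hαI : α ∈ I) (hv : 0 ≤ v) (hv1 : ‖v‖ ≤ 1) {θ θ' : ℝ} (hθ : 0 < θ) (hθ' : θ < θ')
    (harm : ∀ (Q : Type u) [CStarAlgebra Q] (ρ : E →⋆ₐ[ℂ] Q), ρ v ≠ 0 →
      ∃ s : Q, ρ α * s = s ∧ ‖star (ρ T) * star (ρ d) * s‖ < θ * ‖s‖)
    {ε : ℝ} (hε : 0 < ε) :
    ∃ y : E, ‖star (α * y) * (α * y) - v‖ < ε ∧ ‖star (α * y) * d * T‖ ≤ θ' := by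
  have hθ'0 : 0 < θ' := hθ.trans hθ'
  -- choice of constants
  obtain ⟨κ, hκ0, hκ1, hκ⟩ : ∃ κ : ℝ, 0 < κ ∧ κ < 1 ∧ (1 + κ) * θ ^ 2 ≤ (1 - κ) * θ' ^ 2 := by
    refine ⟨(θ' ^ 2 - θ ^ 2) / (θ' ^ 2 + θ ^ 2), ?_, ?_, ?_⟩
    · have : θ ^ 2 < θ' ^ 2 := by nlinarith
      exact div_pos (by linarith) (by positivity)
    · rw [div_lt_one (by positivity)]
      nlinarith [sq_pos_of_pos hθ]
    · have hne : θ' ^ 2 + θ ^ 2 ≠ 0 := by positivity
      have e1 : 1 + (θ' ^ 2 - θ ^ 2) / (θ' ^ 2 + θ ^ 2) = 2 * θ' ^ 2 / (θ' ^ 2 + θ ^ 2) := by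
        field_simp; ring
      have e2 : 1 - (θ' ^ 2 - θ ^ 2) / (θ' ^ 2 + θ ^ 2) = 2 * θ ^ 2 / (θ' ^ 2 + θ ^ 2) := by
        field_simp; ring
      rw [e1, e2]
      apply le_of_eq; ring
  set C : ℝ := (1 - κ) / θ ^ 2 with hC
  have hC0 : 0 < C := div_pos (by linarith) (by positivity)
  set D : E := star T * star d * α with hD
  have hDI : D ∈ I := hI.mul_left _ hαI
  set X : E := α * α - C • (star D * D) with hXdef
  have hXsa : IsSelfAdjoint X := by
    refine IsSelfAdjoint.sub ?_ ?_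
    · rw [IsSelfAdjoint, star_mul, hα.star_eq]
    · rw [IsSelfAdjoint, star_smul, star_trivial, star_mul, star_star]
  have hXI : X ∈ I := by
    have h1 : α * α ∈ I := hI.mul_left _ hαI
    have h2 : (-(C • star D)) * D ∈ I := hI.mul_left _ hDI
    have h3 : X = α * α + (-(C • star D)) * D := by
      rw [hXdef, neg_mul, smul_mul_assoc, sub_eq_add_neg]
    rw [h3]
    exact hI.add_mem h1 h2
  have hkill : Kill (ct κ X) v := by
    intro Q _ ρ hρ
    letI : PartialOrder Q := CStarAlgebra.spectralOrder Q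
    haveI : StarOrderedRing Q := CStarAlgebra.spectralOrderedRing Q
    by_contra hne
    obtain ⟨s, hs1, hs2⟩ := harm Q ρ hne
    have hs0 : 0 < ‖s‖ := by
      have h0 := (norm_nonneg _).trans_lt hs2
      exact (pos_iff_pos_of_mul_pos h0).mp hθ
    have hρX : ρ X ≤ κ • (1 : Q) := by
      refine Cmp.le_of_ct_eq_zero_aux (hXsa.map ρ) ?_
      rw [← Cmp.map_ct_aux ρ hXsa κ, hρ]
    have h1 := star_left_conjugate_le_conjugate hρX s
    have hαs : star s * ρ α = star s := by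
      have := congrArg star hs1
      rwa [star_mul, ← map_star, hα.star_eq] at this
    have h2 : star s * ρ X * s = star s * s -
        C • (star (star (ρ T) * star (ρ d) * s) * (star (ρ T) * star (ρ d) * s)) := by
      have e0 : ρ X = ρ α * ρ α - C • (star (star (ρ T) * star (ρ d) * ρ α) *
          (star (ρ T) * star (ρ d) * ρ α)) := by
        have hsm : ρ (C • (star D * D)) = C • ρ (star D * D) := by
          rw [← IsScalarTower.algebraMap_smul ℂ C (star D * D), map_smul,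
            IsScalarTower.algebraMap_smul ℂ C]
        rw [hXdef, map_sub, hsm, map_mul, map_mul, map_star, hD, map_mul, map_mul, map_star,
          map_star]
      rw [e0, mul_sub, sub_mul, mul_smul_comm, smul_mul_assoc]
      have e1 : star s * (ρ α * ρ α) * s = star s * s := by
        calc star s * (ρ α * ρ α) * s = (star s * ρ α) * (ρ α * s) := by noncomm_ring
          _ = star s * s := by rw [hαs, hs1]
      have e2 : star s * (star (star (ρ T) * star (ρ d) * ρ α) *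
          (star (ρ T) * star (ρ d) * ρ α)) * s =
          star (star (ρ T) * star (ρ d) * (ρ α * s)) * (star (ρ T) * star (ρ d) * (ρ α * s)) := by
        simp only [star_mul, star_star]; noncomm_ring
      rw [e1, e2, hs1]
    rw [h2] at h1
    have h3 : (1 - κ) • (star s * s) ≤
        C • (star (star (ρ T) * star (ρ d) * s) * (star (ρ T) * star (ρ d) * s)) := by
      have e3 : star s * κ • (1 : Q) * s = κ • (star s * s) := by
        rw [mul_smul_comm, mul_one, smul_mul_assoc]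
      rw [e3] at h1
      rw [sub_smul, one_smul, sub_le_iff_le_add]
      rw [sub_le_iff_le_add] at h1
      rwa [add_comm]
    have h4 := CStarAlgebra.norm_le_norm_of_nonneg_of_le
      (smul_nonneg (by linarith : (0 : ℝ) ≤ 1 - κ) (star_mul_self_nonneg s)) h3
    rw [norm_smul, norm_smul, CStarRing.norm_star_mul_self, CStarRing.norm_star_mul_self,
      Real.norm_of_nonneg (by linarith : (0 : ℝ) ≤ 1 - κ), Real.norm_of_nonneg hC0.le] at h4
    have h5 : ‖star (ρ T) * star (ρ d) * s‖ * ‖star (ρ T) * star (ρ d) * s‖ <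
        (θ * ‖s‖) * (θ * ‖s‖) :=
      mul_self_lt_mul_self (norm_nonneg _) hs2
    have h6 : C * (‖star (ρ T) * star (ρ d) * s‖ * ‖star (ρ T) * star (ρ d) * s‖) <
        C * ((θ * ‖s‖) * (θ * ‖s‖)) := by gcongr
    have h7 : C * ((θ * ‖s‖) * (θ * ‖s‖)) = (1 - κ) * (‖s‖ * ‖s‖) := by
      rw [hC]; field_simp
    linarith
  -- comparison
  set ε₁ : ℝ := min κ (ε / 2) with hε₁
  have hε₁0 : 0 < ε₁ := lt_min hκ0 (by positivity)
  obtain ⟨y, _, h1, _, _, h4, _, _, _, _⟩ := comparison hI hXsa hXI hκ0 hv hkill hε₁0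
  set v' : E := star y * X * y with hv'
  set H : E := star (α * y) * (α * y) with hH
  have hHv : H = v' + C • (star (D * y) * (D * y)) := by
    rw [hv', hXdef, hH, mul_sub, sub_mul, mul_smul_comm, smul_mul_assoc]
    have e1 : star (α * y) * (α * y) = star y * (α * α) * y := by
      rw [star_mul, hα.star_eq]; noncomm_ring
    have e2 : star (D * y) * (D * y) = star y * (star D * D) * y := by
      rw [star_mul]; noncomm_ring
    rw [e1, e2]; abel
  have hvH : v' ≤ H := by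
    rw [hHv]
    exact le_add_of_nonneg_right (smul_nonneg hC0.le (star_mul_self_nonneg _))
  obtain ⟨r, hr1, hr2, hr3⟩ := absorb h4 hvH (half_pos hε)
  refine ⟨y * r, ?_, ?_⟩
  · have e1 : star (α * (y * r)) * (α * (y * r)) = star r * H * r := by
      rw [hH]; simp only [star_mul]; noncomm_ring
    rw [e1]
    calc ‖star r * H * r - v‖ = ‖(star r * H * r - v') + (v' - v)‖ := by congr 1; abel
      _ ≤ ‖star r * H * r - v'‖ + ‖v' - v‖ := norm_add_le _ _
      _ < ε / 2 + ε / 2 := add_lt_add_of_le_of_lt hr2 (h1.trans_le (min_le_right _ _))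
      _ = ε := by ring
  · have e1 : star (star (α * (y * r)) * d * T) = D * y * r := by
      rw [hD]; simp only [star_mul, star_star, hα.star_eq]; noncomm_ring
    rw [← norm_star, e1]
    have h5 : C • (star (D * y * r) * (D * y * r)) ≤ v' := by
      have e2 : C • (star (D * y * r) * (D * y * r)) = star r * (H - v') * r := by
        rw [hHv, add_sub_cancel_left, mul_smul_comm, smul_mul_assoc]
        congr 1
        simp only [star_mul]; noncomm_ring
      rw [e2, mul_sub, sub_mul]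
      calc star r * H * r - star r * v' * r ≤ star r * H * r :=
            sub_le_self _ (star_left_conjugate_nonneg h4 r)
        _ ≤ v' := hr3
    have h6 := CStarAlgebra.norm_le_norm_of_nonneg_of_le
      (smul_nonneg hC0.le (star_mul_self_nonneg (D * y * r))) h5
    rw [norm_smul, CStarRing.norm_star_mul_self, Real.norm_of_nonneg hC0.le] at h6
    have h7 : ‖v'‖ ≤ 1 + κ := by
      calc ‖v'‖ = ‖v + (v' - v)‖ := by congr 1; abel
        _ ≤ ‖v‖ + ‖v' - v‖ := norm_add_le _ _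
        _ ≤ 1 + κ := add_le_add hv1 (h1.le.trans (min_le_left _ _))
    have h8 : C * (‖D * y * r‖ * ‖D * y * r‖) ≤ C * (θ' * θ') := by
      refine (h6.trans h7).trans ?_
      rw [hC, div_mul_eq_mul_div, le_div_iff₀ (by positivity)]
      calc (1 + κ) * θ ^ 2 ≤ (1 - κ) * θ' ^ 2 := hκ
        _ = (1 - κ) * (θ' * θ') := by ring
    have h9 := le_of_mul_le_mul_left h8 hC0
    exact abs_le_of_sq_le_sq' (by nlinarith) hθ'0.le |>.2

end Compare

end Crest.Agent.R110
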