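import Mathlib

/-!
# R110.Cut : cut-off calculus in C*-algebras

`ramp s t` is `0` on `(-∞,s]`, `1` on `[t,∞)` and linear between.  `cut k x = (x-k)_+`.
-/

set_option autoImplicit false

universe u

namespace Crest.Agent.R110

noncomputable section

/-- `0` on `(-∞,s]`, `1` on `[t,∞)`, linear between. -/
def ramp (s t : ℝ) : ℝ → ℝ := fun x => max 0 (min 1 ((x - s) / (t - s)))

/-- `(x - k)_+` -/
def cut (k : ℝ) : ℝ → ℝ := fun x => max 0 (x - k)

@[fun_prop, continuity]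
lemma cut_continuous (k : ℝ) : Continuous (cut k) := by
  unfold cut; fun_prop

lemma cut_nonneg (k x : ℝ) : 0 ≤ cut k x := le_max_left _ _

lemma cut_eq_zero {k x : ℝ} (hx : x ≤ k) : cut k x = 0 := by
  unfold cut; exact max_eq_left (by linarith)

lemma cut_eq_sub {k x : ℝ} (hx : k ≤ x) : cut k x = x - k := by
  unfold cut; exact max_eq_right (by linarith)

lemma cut_le_self {k x : ℝ} (hk : 0 ≤ k) (hx : 0 ≤ x) : cut k x ≤ x :=
  max_le hx (by linarith)

@[fun_prop, continuity]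
lemma ramp_continuous (s t : ℝ) : Continuous (ramp s t) := by
  unfold ramp; fun_prop

lemma ramp_nonneg (s t x : ℝ) : 0 ≤ ramp s t x := by
  unfold ramp; exact le_max_left _ _

lemma ramp_le_one (s t x : ℝ) : ramp s t x ≤ 1 := max_le zero_le_one (min_le_left _ _)

lemma ramp_eq_zero {s t x : ℝ} (hst : s < t) (hx : x ≤ s) : ramp s t x = 0 := by
  unfold ramp
  have : (x - s) / (t - s) ≤ 0 := div_nonpos_of_nonpos_of_nonneg (by linarith) (by linarith)
  exact max_eq_left ((min_le_right _ _).trans this)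

lemma ramp_eq_one {s t x : ℝ} (hst : s < t) (hx : t ≤ x) : ramp s t x = 1 := by
  unfold ramp
  have h0 : 0 < t - s := by linarith
  have : 1 ≤ (x - s) / (t - s) := by rw [le_div_iff₀ h0]; linarith
  rw [min_eq_left this]; exact max_eq_right zero_le_one

lemma ramp_mul_ramp {s t t' t'' : ℝ} (hst : s < t) (h : t ≤ t') (h' : t' < t'') (x : ℝ) :
    ramp s t x * ramp t' t'' x = ramp t' t'' x := by
  rcases le_total x t' with hx | hx
  · rw [ramp_eq_zero h' hx, mul_zero]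
  · rw [ramp_eq_one hst (h.trans hx), one_mul]

lemma ramp_mono_le {s t t' t'' : ℝ} (hst : s < t) (h : t ≤ t') (h' : t' < t'') (x : ℝ) :
    ramp t' t'' x ≤ ramp s t x := by
  rcases le_total x t' with hx | hx
  · rw [ramp_eq_zero h' hx]; exact ramp_nonneg _ _ _
  · rw [ramp_eq_one hst (h.trans hx)]; exact ramp_le_one _ _ _

variable {E : Type u} [CStarAlgebra E]

/-! ### Products and absorption -/

lemma cfc_mul_of {h : E} (_hh : IsSelfAdjoint h) {f g k : ℝ → ℝ} (hf : Continuous f)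
    (hg : Continuous g) (hfg : ∀ x ∈ spectrum ℝ h, f x * g x = k x) :
    cfc f h * cfc g h = cfc k h := by
  rw [← cfc_mul f g h hf.continuousOn hg.continuousOn]
  exact cfc_congr (fun x hx => hfg x hx)

lemma cfc_absorb {h : E} (hh : IsSelfAdjoint h) {f g : ℝ → ℝ} (hf : Continuous f)
    (hg : Continuous g) (hfg : ∀ x, f x * g x = g x) :
    cfc f h * cfc g h = cfc g h :=
  cfc_mul_of hh hf hg (fun x _ => hfg x)

lemma cfc_absorb' {h : E} (hh : IsSelfAdjoint h) {f g : ℝ → ℝ} (hf : Continuous f)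
    (hg : Continuous g) (hfg : ∀ x, f x * g x = g x) :
    cfc g h * cfc f h = cfc g h :=
  cfc_mul_of hh hg hf (fun x _ => by rw [mul_comm]; exact hfg x)

lemma cfc_self_mul {h : E} (hh : IsSelfAdjoint h) {f k : ℝ → ℝ} (hf : Continuous f)
    (hk : ∀ x ∈ spectrum ℝ h, x * f x = k x) : h * cfc f h = cfc k h := by
  have h1 : h * cfc f h = cfc (fun x : ℝ => x) h * cfc f h := by rw [cfc_id' ℝ h]
  rw [h1]
  exact cfc_mul_of hh continuous_id hf hk

lemma cfc_mul_self {h : E} (hh : IsSelfAdjoint h) {f k : ℝ → ℝ} (hf : Continuous f)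
    (hk : ∀ x ∈ spectrum ℝ h, f x * x = k x) : cfc f h * h = cfc k h := by
  have h1 : cfc f h * h = cfc f h * cfc (fun x : ℝ => x) h := by rw [cfc_id' ℝ h]
  rw [h1]
  exact cfc_mul_of hh hf continuous_id hk

lemma cfc_sandwich {h : E} (hh : IsSelfAdjoint h) {f k : ℝ → ℝ} (hf : Continuous f)
    (hk : ∀ x ∈ spectrum ℝ h, f x * x * f x = k x) : cfc f h * h * cfc f h = cfc k h := by
  rw [cfc_mul_self hh hf (k := fun x => f x * x) (fun _ _ => rfl)]
  exact cfc_mul_of hh (hf.mul continuous_id) hf hk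

lemma cfc_sa (f : ℝ → ℝ) (h : E) : IsSelfAdjoint (cfc f h) := cfc_predicate f h

lemma star_cfc' (f : ℝ → ℝ) (h : E) : star (cfc f h) = cfc f h := (cfc_sa f h).star_eq

/-! ### Norms -/

lemma norm_cfc_le_of {f : ℝ → ℝ} {h : E} {c : ℝ} (hc : 0 ≤ c) (hf : ∀ x ∈ spectrum ℝ h, |f x| ≤ c) :
    ‖cfc f h‖ ≤ c :=
  norm_cfc_le hc (fun x hx => by rw [Real.norm_eq_abs]; exact hf x hx)

lemma norm_cfc_ramp_le (s t : ℝ) (h : E) : ‖cfc (ramp s t) h‖ ≤ 1 :=
  norm_cfc_le_of zero_le_one (fun x _ => by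
    rw [abs_of_nonneg (ramp_nonneg _ _ _)]; exact ramp_le_one _ _ _)

lemma spectrum_abs_le {h : E} {x : ℝ} (hx : x ∈ spectrum ℝ h) (hh : IsSelfAdjoint h) : |x| ≤ ‖h‖ := by
  rcases subsingleton_or_nontrivial E with hE | hE
  · exfalso
    have : spectrum ℝ h = ∅ := spectrum.of_subsingleton h
    rw [this] at hx; exact hx
  · have := norm_apply_le_norm_cfc (fun x : ℝ => x) h hx (by fun_prop) hh
    rw [cfc_id' ℝ h] at this
    simpa using this

lemma norm_cfc_sub_le {f g : ℝ → ℝ} {h : E} (hf : Continuous f) (hg : Continuous g) {c : ℝ}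
    (hc : 0 ≤ c) (hfg : ∀ x ∈ spectrum ℝ h, |f x - g x| ≤ c) : ‖cfc f h - cfc g h‖ ≤ c := by
  rw [← cfc_sub f g h hf.continuousOn hg.continuousOn]
  exact norm_cfc_le_of hc hfg

lemma norm_self_sub_cfc_le {f : ℝ → ℝ} {h : E} (hh : IsSelfAdjoint h) (hf : Continuous f) {c : ℝ}
    (hc : 0 ≤ c) (hfg : ∀ x ∈ spectrum ℝ h, |x - f x| ≤ c) : ‖h - cfc f h‖ ≤ c := by
  have h1 : h - cfc f h = cfc (fun x : ℝ => x) h - cfc f h := by rw [cfc_id' ℝ h]
  rw [h1]
  exact norm_cfc_sub_le continuous_id hf hc hfg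

lemma norm_one_sub_cfc_le {f : ℝ → ℝ} {h : E} (hh : IsSelfAdjoint h) (hf : Continuous f) {c : ℝ}
    (hc : 0 ≤ c) (hfg : ∀ x ∈ spectrum ℝ h, |1 - f x| ≤ c) : ‖1 - cfc f h‖ ≤ c := by
  have h1 : 1 - cfc f h = cfc (fun _ : ℝ => (1 : ℝ)) h - cfc f h := by rw [cfc_const_one ℝ h]
  rw [h1]
  exact norm_cfc_sub_le continuous_const hf hc hfg

lemma one_sub_cfc {f : ℝ → ℝ} {h : E} (hh : IsSelfAdjoint h) (hf : Continuous f) :
    1 - cfc f h = cfc (fun x => 1 - f x) h := by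
  have h1 : 1 - cfc f h = cfc (fun _ : ℝ => (1 : ℝ)) h - cfc f h := by rw [cfc_const_one ℝ h]
  rw [h1, ← cfc_sub (fun _ : ℝ => (1 : ℝ)) f h (by fun_prop) hf.continuousOn]

/-! ### Star homomorphisms -/

lemma map_cfc' {Q : Type u} [CStarAlgebra Q] (π : E →⋆ₐ[ℂ] Q) {f : ℝ → ℝ} {h : E}
    (hh : IsSelfAdjoint h) (hf : Continuous f) : π (cfc f h) = cfc f (π h) := by
  have hπ : Continuous π := by
    refine AddMonoidHomClass.continuous_of_bound π 1 (fun x => ?_)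
    rw [one_mul]; exact NonUnitalStarAlgHom.norm_apply_le π x
  exact StarAlgHomClass.map_cfc π f h hf.continuousOn hπ hh (hh.map π)

lemma map_cut {Q : Type u} [CStarAlgebra Q] (π : E →⋆ₐ[ℂ] Q) {h : E}
    (hh : IsSelfAdjoint h) (k : ℝ) : π (cfc (cut k) h) = cfc (cut k) (π h) :=
  map_cfc' π hh (by fun_prop)

lemma map_ramp {Q : Type u} [CStarAlgebra Q] (π : E →⋆ₐ[ℂ] Q) {h : E}
    (hh : IsSelfAdjoint h) (s t : ℝ) : π (cfc (ramp s t) h) = cfc (ramp s t) (π h) :=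
  map_cfc' π hh (by fun_prop)

lemma norm_map_le {Q : Type u} [CStarAlgebra Q] (π : E →⋆ₐ[ℂ] Q) (x : E) : ‖π x‖ ≤ ‖x‖ :=
  NonUnitalStarAlgHom.norm_apply_le π x

/-! ### Approximate commutation -/

open Polynomial in
lemma poly_comm_bound (p : ℝ[X]) (R : ℝ) (hR : 0 ≤ R) :
    ∃ C D : ℝ, 0 ≤ C ∧ 0 ≤ D ∧ ∀ (E : Type u) [CStarAlgebra E] (x y a : E), ‖x‖ ≤ R → ‖y‖ ≤ R →
      ‖aeval x p * a - a * aeval y p‖ ≤ C * ‖x * a - a * y‖ ∧ ‖aeval x p * a‖ ≤ D * ‖a‖ := by
  induction p using Polynomial.induction_on with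
  | C c =>
    refine ⟨0, |c|, le_rfl, abs_nonneg c, ?_⟩
    intro E _ x y a _ _
    constructor
    · simp only [aeval_C]
      rw [Algebra.commutes, sub_self]; simp
    · rw [aeval_C, ← Algebra.smul_def, norm_smul, Real.norm_eq_abs]
  | add p q hp hq =>
    obtain ⟨C, D, hC, hD, h⟩ := hp
    obtain ⟨C', D', hC', hD', h'⟩ := hq
    refine ⟨C + C', D + D', by positivity, by positivity, ?_⟩
    intro E _ x y a hx hy
    obtain ⟨h1, h2⟩ := h E x y a hx hy
    obtain ⟨h1', h2'⟩ := h' E x y a hx hy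
    constructor
    · have e : aeval x (p + q) * a - a * aeval y (p + q) =
          (aeval x p * a - a * aeval y p) + (aeval x q * a - a * aeval y q) := by
        rw [map_add, map_add]; noncomm_ring
      rw [e]
      refine (norm_add_le _ _).trans ?_
      rw [add_mul]; exact add_le_add h1 h1'
    · rw [map_add, add_mul]
      refine (norm_add_le _ _).trans ?_
      rw [add_mul]; exact add_le_add h2 h2'
  | monomial n c hn =>
    obtain ⟨C', D, hC, hD, h⟩ := hn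
    refine ⟨D + C' * R, D * R, by positivity, by positivity, ?_⟩
    intro E _ x y a hx hy
    have ex : ∀ z : E, aeval z (C c * X ^ (n + 1)) = aeval z (C c * X ^ n) * z := by
      intro z
      rw [pow_succ, ← mul_assoc, map_mul, aeval_X]
    constructor
    · rw [ex x, ex y]
      have e : aeval x (C c * X ^ n) * x * a - a * (aeval y (C c * X ^ n) * y) =
          aeval x (C c * X ^ n) * (x * a - a * y) +
            (aeval x (C c * X ^ n) * a - a * aeval y (C c * X ^ n)) * y := by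
        noncomm_ring
      rw [e]
      refine (norm_add_le _ _).trans ?_
      have h1 := (h E x y (x * a - a * y) hx hy).2
      have h2 := (h E x y a hx hy).1
      have h3 : ‖(aeval x (C c * X ^ n) * a - a * aeval y (C c * X ^ n)) * y‖ ≤
          C' * ‖x * a - a * y‖ * R := by
        refine (norm_mul_le _ _).trans ?_
        exact mul_le_mul h2 hy (norm_nonneg _) (by positivity)
      nlinarith [h1, h3]
    · rw [ex x, mul_assoc]
      have h1 := (h E x y (x * a) hx hy).2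
      have h2 : ‖x * a‖ ≤ R * ‖a‖ :=
        (norm_mul_le _ _).trans (mul_le_mul_of_nonneg_right hx (norm_nonneg _))
      calc _ ≤ D * ‖x * a‖ := h1
        _ ≤ D * (R * ‖a‖) := by gcongr
        _ = D * R * ‖a‖ := by ring

/-- If `x a ≈ a y` then `f(x) a ≈ a f(y)`, uniformly over all C*-algebras. -/
theorem exists_comm_bound (f : ℝ → ℝ) (hf : Continuous f) (R M : ℝ) {ε : ℝ} (hε : 0 < ε) :
    ∃ δ > 0, ∀ (E : Type u) [CStarAlgebra E] (x y a : E), IsSelfAdjoint x → IsSelfAdjoint y →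
      ‖x‖ ≤ R → ‖y‖ ≤ R → ‖a‖ ≤ M → ‖x * a - a * y‖ ≤ δ → ‖cfc f x * a - a * cfc f y‖ ≤ ε := by
  classical
  set R' : ℝ := max R 0 with hR'
  have hR0 : 0 ≤ R' := le_max_right _ _
  set M' : ℝ := max M 0 + 1 with hM'
  have hM0 : 0 < M' := by have := le_max_right M 0; positivity
  obtain ⟨p, hp⟩ := exists_polynomial_near_of_continuousOn (-R') R' f hf.continuousOn
    (ε / (4 * M')) (by positivity)
  obtain ⟨C, D, hC, hD, h⟩ := poly_comm_bound.{u} p R' hR0
  refine ⟨ε / (2 * (C + 1)), by positivity, ?_⟩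
  intro E _ x y a hxs hys hx hy ha hxy
  have hx' : ‖x‖ ≤ R' := hx.trans (le_max_left _ _)
  have hy' : ‖y‖ ≤ R' := hy.trans (le_max_left _ _)
  have ha' : ‖a‖ ≤ M' := by
    have := le_max_left M 0
    linarith
  have hpc : Continuous (fun t : ℝ => p.eval t) := p.continuous
  have key : ∀ z : E, IsSelfAdjoint z → ‖z‖ ≤ R' → ‖cfc f z - Polynomial.aeval z p‖ ≤ ε / (4 * M') := by
    intro z hz hzR
    rw [← cfc_polynomial p z]
    refine norm_cfc_sub_le hf hpc (by positivity) ?_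
    intro t ht
    have := spectrum_abs_le ht hz
    rw [abs_sub_comm]
    exact (hp t (abs_le.mp (this.trans hzR))).le
  have e : cfc f x * a - a * cfc f y = (cfc f x - Polynomial.aeval x p) * a +
      (Polynomial.aeval x p * a - a * Polynomial.aeval y p) -
      a * (cfc f y - Polynomial.aeval y p) := by noncomm_ring
  rw [e]
  have h1 : ‖(cfc f x - Polynomial.aeval x p) * a‖ ≤ ε / (4 * M') * M' :=
    (norm_mul_le _ _).trans (mul_le_mul (key x hxs hx') ha' (norm_nonneg _) (by positivity))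
  have h2 : ‖a * (cfc f y - Polynomial.aeval y p)‖ ≤ M' * (ε / (4 * M')) :=
    (norm_mul_le _ _).trans (mul_le_mul ha' (key y hys hy') (norm_nonneg _) (by positivity))
  have h3 : ‖Polynomial.aeval x p * a - a * Polynomial.aeval y p‖ ≤ C * (ε / (2 * (C + 1))) :=
    ((h E x y a hx' hy').1).trans (mul_le_mul_of_nonneg_left hxy hC)
  have h4 : C * (ε / (2 * (C + 1))) ≤ ε / 2 := by
    rw [mul_div_assoc', div_le_div_iff₀ (by positivity) (by positivity)]
    nlinarith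
  have h5 : ε / (4 * M') * M' = ε / 4 := by field_simp
  have h6 : M' * (ε / (4 * M')) = ε / 4 := by field_simp
  calc _ ≤ ‖(cfc f x - Polynomial.aeval x p) * a‖ +
        ‖Polynomial.aeval x p * a - a * Polynomial.aeval y p‖ +
        ‖a * (cfc f y - Polynomial.aeval y p)‖ := by
        refine (norm_sub_le _ _).trans ?_
        gcongr
        exact norm_add_le _ _
    _ ≤ ε := by linarith

lemma norm_one_le' (E : Type u) [CStarAlgebra E] : ‖(1 : E)‖ ≤ 1 := by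
  rcases subsingleton_or_nontrivial E with hE | hE
  · rw [Subsingleton.elim (1 : E) 0]; simp
  · rw [CStarRing.norm_one]

/-- If `x a ≈ 0` and `f 0 = 0` then `f(x) a ≈ 0`. -/
theorem exists_annih_bound (f : ℝ → ℝ) (hf : Continuous f) (hf0 : f 0 = 0) (R M : ℝ) {ε : ℝ}
    (hε : 0 < ε) :
    ∃ δ > 0, ∀ (E : Type u) [CStarAlgebra E] (x a : E), IsSelfAdjoint x →
      ‖x‖ ≤ R → ‖a‖ ≤ M → ‖x * a‖ ≤ δ → ‖cfc f x * a‖ ≤ ε := by
  obtain ⟨δ, hδ, h⟩ := exists_comm_bound.{u} f hf (max R 0) M hε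
  refine ⟨δ, hδ, ?_⟩
  intro E _ x a hxs hx ha hxa
  have h0 : cfc f (0 : E) = 0 := by
    rw [cfc_apply_zero, hf0]; simp
  have := h E x 0 a hxs (IsSelfAdjoint.zero E) (hx.trans (le_max_left _ _))
    (by rw [norm_zero]; exact le_max_right _ _) ha (by simpa using hxa)
  rw [h0] at this
  simpa using this

/-- If `x a ≈ a` then `f(x) a ≈ f(1) a`. -/
theorem exists_fix_bound (f : ℝ → ℝ) (hf : Continuous f) (R M : ℝ) {ε : ℝ}
    (hε : 0 < ε) :
    ∃ δ > 0, ∀ (E : Type u) [CStarAlgebra E] (x a : E), IsSelfAdjoint x →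
      ‖x‖ ≤ R → ‖a‖ ≤ M → ‖x * a - a‖ ≤ δ → ‖cfc f x * a - f 1 • a‖ ≤ ε := by
  obtain ⟨δ, hδ, h⟩ := exists_comm_bound.{u} f hf (max R 1) M hε
  refine ⟨δ, hδ, ?_⟩
  intro E _ x a hxs hx ha hxa
  have h0 : cfc f (1 : E) = algebraMap ℝ E (f 1) := by
    rw [cfc_apply_one]
  have := h E x 1 a hxs (IsSelfAdjoint.one E) (hx.trans (le_max_left _ _))
    ((norm_one_le' E).trans (le_max_right _ _)) ha (by simpa using hxa)
  rw [h0, ← Algebra.commutes, ← Algebra.smul_def] at this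
  exact this

/-- If `x ≈ y` then `f(x) ≈ f(y)`. -/
theorem exists_cont_bound (f : ℝ → ℝ) (hf : Continuous f) (R : ℝ) {ε : ℝ}
    (hε : 0 < ε) :
    ∃ δ > 0, ∀ (E : Type u) [CStarAlgebra E] (x y : E), IsSelfAdjoint x → IsSelfAdjoint y →
      ‖x‖ ≤ R → ‖y‖ ≤ R → ‖x - y‖ ≤ δ → ‖cfc f x - cfc f y‖ ≤ ε := by
  obtain ⟨δ, hδ, h⟩ := exists_comm_bound.{u} f hf R 1 hε
  refine ⟨δ, hδ, ?_⟩
  intro E _ x y hxs hys hx hy hxy
  have := h E x y 1 hxs hys hx hy (norm_one_le' E) (by simpa using hxy)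
  simpa using this

/-! ### Inverse square roots on a window -/

/-- `1/√(max x κ)` -/
def isq (κ : ℝ) : ℝ → ℝ := fun x => 1 / Real.sqrt (max x κ)

lemma isq_continuous {κ : ℝ} (hκ : 0 < κ) : Continuous (isq κ) := by
  unfold isq
  refine continuous_const.div (by fun_prop) (fun x => ?_)
  have : 0 < max x κ := lt_max_of_lt_right hκ
  exact (Real.sqrt_pos.mpr this).ne'

lemma isq_nonneg (κ x : ℝ) : 0 ≤ isq κ x := by unfold isq; positivity

lemma isq_le {κ : ℝ} (hκ : 0 < κ) (x : ℝ) : isq κ x ≤ 1 / Real.sqrt κ := by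
  unfold isq
  exact one_div_le_one_div_of_le (Real.sqrt_pos.mpr hκ) (Real.sqrt_le_sqrt (le_max_right _ _))

lemma isq_mul_isq_mul {κ x : ℝ} (hκ : 0 < κ) (hx : κ ≤ x) : isq κ x * isq κ x * x = 1 := by
  unfold isq
  rw [max_eq_left hx]
  have hx0 : 0 < x := hκ.trans_le hx
  have h1 : Real.sqrt x * Real.sqrt x = x := Real.mul_self_sqrt hx0.le
  have h2 : Real.sqrt x ≠ 0 := (Real.sqrt_pos.mpr hx0).ne'
  rw [div_mul_div_comm, one_mul, h1, one_div, inv_mul_cancel₀ hx0.ne']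

/-- `((x-κ)_+/x)^{1/2}` -/
def psi (κ : ℝ) : ℝ → ℝ := fun x => Real.sqrt (cut κ x / max x κ)

lemma psi_continuous {κ : ℝ} (hκ : 0 < κ) : Continuous (psi κ) := by
  unfold psi
  refine Continuous.sqrt ?_
  refine Continuous.div (by fun_prop) (by fun_prop) (fun x => ?_)
  exact (lt_max_of_lt_right hκ).ne'

lemma psi_nonneg (κ x : ℝ) : 0 ≤ psi κ x := Real.sqrt_nonneg _

lemma psi_sq {κ : ℝ} (hκ : 0 < κ) (x : ℝ) : psi κ x * psi κ x = cut κ x / max x κ := by
  unfold psi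
  refine Real.mul_self_sqrt ?_
  have : 0 < max x κ := lt_max_of_lt_right hκ
  have h2 := cut_nonneg κ x
  positivity

lemma psi_mul_mul {κ : ℝ} (hκ : 0 < κ) (x : ℝ) : psi κ x * x * psi κ x = cut κ x := by
  have : psi κ x * x * psi κ x = psi κ x * psi κ x * x := by ring
  rw [this, psi_sq hκ]
  rcases le_total x κ with hx | hx
  · rw [cut_eq_zero hx]; simp
  · rw [max_eq_left hx]
    have : 0 < x := hκ.trans_le hx
    field_simp

lemma psi_sq_le {κ : ℝ} (hκ : 0 < κ) (x : ℝ) : psi κ x * psi κ x ≤ cut κ x / κ := by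
  rw [psi_sq hκ]
  exact div_le_div_of_nonneg_left (cut_nonneg _ _) hκ (le_max_right _ _)

lemma psi_le_one {κ : ℝ} (hκ : 0 < κ) (x : ℝ) : psi κ x ≤ 1 := by
  have hm : 0 < max x κ := lt_max_of_lt_right hκ
  have h1 : cut κ x / max x κ ≤ 1 := by
    rw [div_le_one hm]
    exact max_le hm.le (by linarith [le_max_left x κ])
  calc psi κ x ≤ Real.sqrt 1 := Real.sqrt_le_sqrt h1
    _ = 1 := Real.sqrt_one

/-! ### Square roots -/

lemma cfc_sqrt_mul_sqrt {h : E} (hh : IsSelfAdjoint h) {f : ℝ → ℝ} (hf : Continuous f)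
    (hf0 : ∀ x, 0 ≤ f x) :
    cfc (fun x => Real.sqrt (f x)) h * cfc (fun x => Real.sqrt (f x)) h = cfc f h :=
  cfc_mul_of hh (by fun_prop) (by fun_prop) (fun x _ => Real.mul_self_sqrt (hf0 x))

section order

variable [PartialOrder E] [StarOrderedRing E]

lemma spectrum_nonneg {h : E} (h0 : 0 ≤ h) {x : ℝ} (hx : x ∈ spectrum ℝ h) : 0 ≤ x :=
  spectrum_nonneg_of_nonneg h0 hx

lemma spectrum_le_norm {h : E} (h0 : 0 ≤ h) {x : ℝ} (hx : x ∈ spectrum ℝ h) : x ≤ ‖h‖ :=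
  (le_abs_self x).trans (spectrum_abs_le hx (IsSelfAdjoint.of_nonneg h0))

lemma cfc_nonneg_of (f : ℝ → ℝ) (h : E) (hf : ∀ x ∈ spectrum ℝ h, 0 ≤ f x) : 0 ≤ cfc f h :=
  cfc_nonneg hf

lemma cfc_ramp_nonneg (s t : ℝ) (h : E) : 0 ≤ cfc (ramp s t) h :=
  cfc_nonneg (fun _ _ => ramp_nonneg _ _ _)

lemma cfc_cut_nonneg (h : E) (k : ℝ) : 0 ≤ cfc (cut k) h :=
  cfc_nonneg (fun _ _ => cut_nonneg _ _)

lemma norm_cfc_le_of_nonneg {f : ℝ → ℝ} {h : E} (h0 : 0 ≤ h) {c : ℝ} (hc : 0 ≤ c)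
    (hf : ∀ x, 0 ≤ x → x ≤ ‖h‖ → |f x| ≤ c) : ‖cfc f h‖ ≤ c :=
  norm_cfc_le_of hc (fun x hx => hf x (spectrum_nonneg h0 hx) (spectrum_le_norm h0 hx))

/-- A function vanishing on `[0,k]` vanishes at `h` with `‖h‖ ≤ k`. -/
lemma cfc_eq_zero_of_norm_le {f : ℝ → ℝ} {h : E} (h0 : 0 ≤ h) {k : ℝ} (hk : ‖h‖ ≤ k)
    (hf : ∀ x, 0 ≤ x → x ≤ k → f x = 0) : cfc f h = 0 := by
  have := norm_cfc_le_of_nonneg h0 le_rfl (f := f) (c := 0)
    (fun x hx hx' => by rw [hf x hx (hx'.trans hk)]; simp)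
  exact norm_le_zero_iff.mp this

lemma cfc_cut_eq_zero_iff {h : E} (h0 : 0 ≤ h) {k : ℝ} (hk : 0 ≤ k) :
    cfc (cut k) h = 0 ↔ ‖h‖ ≤ k := by
  constructor
  · intro hp
    rcases subsingleton_or_nontrivial E with hE | hE
    · rw [Subsingleton.elim h 0, norm_zero]; exact hk
    · have := norm_apply_le_norm_cfc (cut k) h
        (CStarAlgebra.norm_mem_spectrum_of_nonneg h0) (by fun_prop) (IsSelfAdjoint.of_nonneg h0)
      rw [hp, norm_zero, norm_le_zero_iff] at this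
      have h2 : ‖h‖ - k ≤ 0 := by rw [← this]; exact le_max_right _ _
      linarith
  · intro hn
    exact cfc_eq_zero_of_norm_le h0 hn (fun _ _ hx => cut_eq_zero hx)

lemma cfc_ramp_eq_zero {h : E} (h0 : 0 ≤ h) {s t : ℝ} (hst : s < t) (hs : ‖h‖ ≤ s) :
    cfc (ramp s t) h = 0 :=
  cfc_eq_zero_of_norm_le h0 hs (fun _ _ hx => ramp_eq_zero hst hx)

/-- if `f ≥ 1` (or just `c ≤ f`) on `[t,∞)` and `‖f(h)‖ < c` then `‖h‖ < t`. -/
lemma norm_lt_of_norm_cfc_lt {f : ℝ → ℝ} (hf : Continuous f) {h : E} (h0 : 0 ≤ h) {t c : ℝ}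
    (ht : 0 < t) (hft : ∀ x, t ≤ x → c ≤ f x) (hn : ‖cfc f h‖ < c) : ‖h‖ < t := by
  by_contra hcon
  push Not at hcon
  rcases subsingleton_or_nontrivial E with hE | hE
  · rw [Subsingleton.elim h 0, norm_zero] at hcon; linarith
  · have := norm_apply_le_norm_cfc f h
      (CStarAlgebra.norm_mem_spectrum_of_nonneg h0) hf.continuousOn (IsSelfAdjoint.of_nonneg h0)
    have h2 := hft _ hcon
    rw [Real.norm_eq_abs] at this
    have h3 := le_abs_self (f ‖h‖)
    linarith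

lemma norm_lt_of_norm_ramp_lt {h : E} (h0 : 0 ≤ h) {s t : ℝ} (hst : s < t) (ht : 0 < t)
    (hn : ‖cfc (ramp s t) h‖ < 1) : ‖h‖ < t :=
  norm_lt_of_norm_cfc_lt (ramp_continuous s t) h0 ht
    (fun _ hx => (ramp_eq_one hst hx).ge) hn

lemma norm_self_sub_cut_le {h : E} (h0 : 0 ≤ h) {k : ℝ} (hk : 0 ≤ k) :
    ‖h - cfc (cut k) h‖ ≤ k := by
  refine norm_self_sub_cfc_le (IsSelfAdjoint.of_nonneg h0) (by fun_prop) hk ?_
  intro x hx
  have hx0 := spectrum_nonneg h0 hx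
  rcases le_total x k with h1 | h1
  · rw [cut_eq_zero h1, sub_zero, abs_of_nonneg hx0]; exact h1
  · rw [cut_eq_sub h1]
    rw [show x - (x - k) = k by ring, abs_of_nonneg hk]

lemma norm_cfc_cut_le {h : E} (h0 : 0 ≤ h) {k : ℝ} (hk : 0 ≤ k) : ‖cfc (cut k) h‖ ≤ ‖h‖ := by
  refine norm_cfc_le_of_nonneg h0 (norm_nonneg _) ?_
  intro x hx hx'
  rw [abs_of_nonneg (cut_nonneg _ _)]
  exact (cut_le_self hk hx).trans hx'

omit [PartialOrder E] [StarOrderedRing E] in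
/-- Window inverse: if `f` is supported in `[κ,∞)` then `(f·isq)(h) h (f·isq)(h) = (f²)(h)`. -/
lemma window_sandwich {h : E} (hh : IsSelfAdjoint h) {κ : ℝ} (hκ : 0 < κ) {f : ℝ → ℝ}
    (hf : Continuous f) (hf0 : ∀ x, x ≤ κ → f x = 0) :
    cfc (fun x => f x * isq κ x) h * h * cfc (fun x => f x * isq κ x) h =
      cfc (fun x => f x * f x) h := by
  refine cfc_sandwich hh (hf.mul (isq_continuous hκ)) ?_
  intro x _
  rcases le_total x κ with hx | hx
  · rw [hf0 x hx]; ring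
  · have := isq_mul_isq_mul hκ hx
    calc f x * isq κ x * x * (f x * isq κ x) = f x * f x * (isq κ x * isq κ x * x) := by ring
      _ = f x * f x := by rw [this, mul_one]

end order

end

end Crest.Agent.R110
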