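import Crest.Agent.R110.Cut

/-! Row 110 (S0145): pi ⟹ spi. FROZEN DEFINITIONS (captain helper137). Do not edit.
`ramp s t` and `cut κ` are defined in `Crest.Agent.R110.Cut` (helper417):
`ramp s t = fun x => max 0 (min 1 ((x - s) / (t - s)))`, `cut k = fun x => max 0 (x - k)`. -/

set_option autoImplicit false

universe u

namespace Crest.Agent.R110

/-- the cut-off element `f_{s,t}(a)`. -/
noncomputable def rp {E : Type u} [CStarAlgebra E] (s t : ℝ) (a : E) : E := cfc (ramp s t) a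

/-- `(a-κ)_+`. -/
noncomputable def ct {E : Type u} [CStarAlgebra E] (κ : ℝ) (a : E) : E := cfc (cut κ) a

/-- every unital star hom (same universe) killing `g` kills `z`. -/
def Kill {E : Type u} [CStarAlgebra E] (g z : E) : Prop :=
  ∀ (Q : Type u) [CStarAlgebra Q] (ρ : E →⋆ₐ[ℂ] Q), ρ g = 0 → ρ z = 0

/-- `‖ρ h‖ ≤ κ` implies `ρ z = 0`. -/
def Thr {E : Type u} [CStarAlgebra E] (h : E) (κ : ℝ) (z : E) : Prop :=
  ∀ (Q : Type u) [CStarAlgebra Q] (ρ : E →⋆ₐ[ℂ] Q), ‖ρ h‖ ≤ κ → ρ z = 0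

/-- `‖ρ h‖ ≤ κ` implies `‖ρ x‖ ≤ r`. -/
def Dom {E : Type u} [CStarAlgebra E] (h : E) (κ : ℝ) (x : E) (r : ℝ) : Prop :=
  ∀ (Q : Type u) [CStarAlgebra Q] (ρ : E →⋆ₐ[ℂ] Q), ‖ρ h‖ ≤ κ → ‖ρ x‖ ≤ r

/-- A (not necessarily closed) two-sided star ideal whose elements `x⋆x` are properly infinite. -/
structure PIIdeal {E : Type u} [CStarAlgebra E] (I : Set E) : Prop where
  zero_mem : (0 : E) ∈ I
  add_mem : ∀ {x y : E}, x ∈ I → y ∈ I → x + y ∈ I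
  mul_left : ∀ (w : E) {x : E}, x ∈ I → w * x ∈ I
  mul_right : ∀ (w : E) {x : E}, x ∈ I → x * w ∈ I
  star_mem : ∀ {x : E}, x ∈ I → star x ∈ I
  pi : ∀ x ∈ I, ∀ ε : ℝ, 0 < ε → ∃ r s : E,
    ‖star r * (star x * x) * r - star x * x‖ < ε ∧
    ‖star s * (star x * x) * s - star x * x‖ < ε ∧
    ‖star r * (star x * x) * s‖ < ε

/-- The image of a PI ideal under a surjective star hom is a PI ideal. -/
theorem PIIdeal.map {E B : Type u} [CStarAlgebra E] [CStarAlgebra B] {I : Set E}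
    (hI : PIIdeal I) (π : E →⋆ₐ[ℂ] B) (hπ : Function.Surjective π) : PIIdeal (π '' I) := by
  refine ⟨⟨0, hI.zero_mem, map_zero π⟩, ?_, ?_, ?_, ?_, ?_⟩
  · rintro _ _ ⟨x, hx, rfl⟩ ⟨y, hy, rfl⟩
    exact ⟨x + y, hI.add_mem hx hy, map_add π x y⟩
  · rintro w _ ⟨x, hx, rfl⟩
    obtain ⟨w, rfl⟩ := hπ w
    exact ⟨w * x, hI.mul_left w hx, map_mul π w x⟩
  · rintro w _ ⟨x, hx, rfl⟩
    obtain ⟨w, rfl⟩ := hπ w
    exact ⟨x * w, hI.mul_right w hx, map_mul π x w⟩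
  · rintro _ ⟨x, hx, rfl⟩
    exact ⟨star x, hI.star_mem hx, map_star π x⟩
  · rintro _ ⟨x, hx, rfl⟩ ε hε
    obtain ⟨r, s, h1, h2, h3⟩ := hI.pi x hx ε hε
    refine ⟨π r, π s, ?_, ?_, ?_⟩
    · refine lt_of_le_of_lt (le_of_eq_of_le ?_ (NonUnitalStarAlgHom.norm_apply_le π _)) h1
      simp only [map_sub, map_mul, map_star]
    · refine lt_of_le_of_lt (le_of_eq_of_le ?_ (NonUnitalStarAlgHom.norm_apply_le π _)) h2
      simp only [map_sub, map_mul, map_star]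
    · refine lt_of_le_of_lt (le_of_eq_of_le ?_ (NonUnitalStarAlgHom.norm_apply_le π _)) h3
      simp only [map_mul, map_star]

theorem norm_hom_le {E Q : Type u} [CStarAlgebra E] [CStarAlgebra Q] (ρ : E →⋆ₐ[ℂ] Q) (x : E) :
    ‖ρ x‖ ≤ ‖x‖ := NonUnitalStarAlgHom.norm_apply_le ρ x

end Crest.Agent.R110
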