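import Mathlib

/-!
# R110.Dip (helper741)

`exists_dip` : for `j` in a unital C*-algebra and `ε > 0` there is a positive contraction `k` with
`‖k * j‖ ≤ ε` which becomes `1` in every quotient killing `j`.
-/

set_option autoImplicit false

open scoped CStarAlgebra

namespace Crest.Agent.R110

universe u v

/-- `dip ε x = max 0 (1 - x / ε²)`. -/
noncomputable def dipFun (ε : ℝ) : ℝ → ℝ := fun x => max 0 (1 - x / ε ^ 2)

theorem dipFun_cont (ε : ℝ) : Continuous (dipFun ε) := by
  unfold dipFun
  fun_prop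

theorem exists_dip {E : Type u} [CStarAlgebra E] [PartialOrder E] [StarOrderedRing E]
    (j : E) {ε : ℝ} (hε : 0 < ε) :
    ∃ k : E, 0 ≤ k ∧ k ≤ 1 ∧ IsSelfAdjoint k ∧ ‖k‖ ≤ 1 ∧ ‖k * j‖ ≤ ε ∧
      ∀ (Q : Type v) [CStarAlgebra Q] (ρ : E →⋆ₐ[ℂ] Q), ρ j = 0 → ρ k = 1 := by
  have hsa : IsSelfAdjoint (j * star j) := IsSelfAdjoint.mul_star_self j
  have hnn : (0 : E) ≤ j * star j := mul_star_self_nonneg j
  have hspec : ∀ x ∈ spectrum ℝ (j * star j), 0 ≤ x := fun x hx => spectrum_nonneg_of_nonneg hnn hx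
  have hc : ContinuousOn (dipFun ε) (spectrum ℝ (j * star j)) := (dipFun_cont ε).continuousOn
  have hb : ∀ x, 0 ≤ dipFun ε x := fun x => le_max_left _ _
  have hb1 : ∀ x, 0 ≤ x → dipFun ε x ≤ 1 := by
    intro x hx
    unfold dipFun
    refine max_le (by norm_num) ?_
    have : 0 ≤ x / ε ^ 2 := by positivity
    linarith
  have hknn : 0 ≤ cfc (dipFun ε) (j * star j) := cfc_nonneg (fun x _ => hb x)
  have hksa : IsSelfAdjoint (cfc (dipFun ε) (j * star j)) := cfc_predicate _ _
  refine ⟨cfc (dipFun ε) (j * star j), hknn, ?_, hksa, ?_, ?_, ?_⟩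
  · exact cfc_le_one _ _ (fun x hx => hb1 x (hspec x hx))
  · refine norm_cfc_le zero_le_one ?_
    intro x hx
    rw [Real.norm_eq_abs, abs_of_nonneg (hb x)]
    exact hb1 x (hspec x hx)
  · set k := cfc (dipFun ε) (j * star j) with hk
    have h1 : ‖k * j‖ ^ 2 = ‖k * (j * star j) * k‖ := by
      rw [sq, ← CStarRing.norm_self_mul_star, star_mul, hksa.star_eq]
      congr 1
      simp only [mul_assoc]
    have h2 : k * (j * star j) * k
        = cfc (fun x => dipFun ε x * x * dipFun ε x) (j * star j) := by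
      rw [cfc_mul (fun x => dipFun ε x * x) (dipFun ε) (j * star j)
        (((dipFun_cont ε).mul continuous_id).continuousOn) hc,
        cfc_mul (dipFun ε) (fun x => x) (j * star j) hc (by fun_prop), cfc_id' ℝ (j * star j)]
    have h3 : ‖k * j‖ ^ 2 ≤ ε ^ 2 := by
      rw [h1, h2]
      refine norm_cfc_le (by positivity) ?_
      intro x hx
      have hx0 := hspec x hx
      rw [Real.norm_eq_abs, abs_of_nonneg (mul_nonneg (mul_nonneg (hb x) hx0) (hb x))]
      rcases le_or_gt (ε ^ 2) x with h | h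
      · have : dipFun ε x = 0 := by
          unfold dipFun
          refine max_eq_left ?_
          have : 1 ≤ x / ε ^ 2 := by
            rw [le_div_iff₀ (by positivity)]; linarith
          linarith
        rw [this]; simp; positivity
      · have h4 := hb1 x hx0
        have h5 := hb x
        calc dipFun ε x * x * dipFun ε x ≤ 1 * x * 1 := by gcongr
          _ ≤ ε ^ 2 := by linarith
    exact le_of_sq_le_sq h3 hε.le
  · intro Q _ ρ hρ
    have h1 : ρ (cfc (dipFun ε) (j * star j)) = cfc (dipFun ε) (ρ (j * star j)) := by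
      refine StarAlgHomClass.map_cfc ρ (dipFun ε) (j * star j) hc ?_ hsa ?_
      · exact map_continuous ρ
      · exact hsa.map ρ
    rw [h1, map_mul, hρ, zero_mul, cfc_apply_zero]
    simp [dipFun]

end Crest.Agent.R110
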