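import Crest.Agent.R110.Defs
import Crest.Prelude.Def_PurelyInfinite

/-! Row 110: iteration of Step 1 and S0145 (helper476). Complete; Step 1 enters
only as the hypothesis `Step1Prop` (verbatim the statement `step1` of the frozen interface). -/

set_option autoImplicit false

universe u

namespace Crest.Agent.R110.Fin476

/-! ### elementary facts on `ramp` -/

theorem rampc (s t : ℝ) : Continuous (ramp s t) := by
  unfold ramp; fun_prop

theorem ramp0 (s t x : ℝ) : 0 ≤ ramp s t x := le_max_left _ _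

theorem ramp1 (s t x : ℝ) : ramp s t x ≤ 1 := max_le zero_le_one (min_le_left _ _)

theorem rampz {s t x : ℝ} (hst : s < t) (hx : x ≤ s) : ramp s t x = 0 := by
  unfold ramp
  apply max_eq_left
  refine (min_le_right _ _).trans ?_
  exact div_nonpos_of_nonpos_of_nonneg (by linarith) (by linarith)

theorem rampo {s t x : ℝ} (hst : s < t) (hx : t ≤ x) : ramp s t x = 1 := by
  unfold ramp
  rw [min_eq_left, max_eq_right zero_le_one]
  rw [le_div_iff₀ (by linarith)]; linarith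

theorem ramp_mul {s t p q : ℝ} (hst : s < t) (htp : t ≤ p) (hpq : p < q) (x : ℝ) :
    ramp s t x * ramp p q x = ramp p q x := by
  rcases le_total x p with h | h
  · rw [rampz hpq h, mul_zero]
  · rw [rampo hst (htp.trans h), one_mul]

section iter

variable {E : Type u} [CStarAlgebra E]

theorem cfc_ramp_mul {s t p q : ℝ} (hst : s < t) (htp : t ≤ p) (hpq : p < q) (a : E) :
    cfc (ramp s t) a * cfc (ramp p q) a = cfc (ramp p q) a := by
  rw [← cfc_mul (ramp s t) (ramp p q) a (rampc _ _).continuousOn (rampc _ _).continuousOn]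
  exact cfc_congr fun x _ => ramp_mul hst htp hpq x

theorem norm_cfc_ramp_le (s t : ℝ) (a : E) : ‖cfc (ramp s t) a‖ ≤ 1 := by
  refine norm_cfc_le zero_le_one fun x _ => ?_
  rw [Real.norm_eq_abs, abs_of_nonneg (ramp0 _ _ _)]
  exact ramp1 _ _ _

/-- The conclusion of Step 1 (with constant `θ`) for a fixed pair `a, b`, at arbitrary levels. -/
def OneStep (θ : ℝ) (a b : E) : Prop :=
  ∀ d : E, ‖d‖ ≤ 1 → ∀ p q s t p' q' s' t' : ℝ, 0 < p → p < q → q < s → s < t →
    0 < p' → p' < q' → q' < s' → s' < t' → ∀ ε : ℝ, 0 < ε →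
    ∃ S T : E, cfc (ramp p q) a * S = S ∧ cfc (ramp p' q') b * T = T ∧
      ‖star S * S - cfc (ramp s t) a‖ ≤ ε ∧ ‖star T * T - cfc (ramp s' t') b‖ ≤ ε ∧
      ‖star S * d * T‖ ≤ θ

theorem side_comp {x U U' : E} {p q s' t' p' q' s t ε ε' : ℝ}
    (h1 : s' < t') (h2 : t' < p') (h3 : p' < q')
    (hε'1 : ε' ≤ 1) (hε'3 : 3 * ε' ≤ ε)
    (hU : cfc (ramp p q) x * U = U)
    (hU' : cfc (ramp p' q') x * U' = U') (hUU : ‖star U * U - cfc (ramp s' t') x‖ ≤ ε')
    (hUU' : ‖star U' * U' - cfc (ramp s t) x‖ ≤ ε') :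
    cfc (ramp p q) x * (U * U') = U * U' ∧
      ‖star (U * U') * (U * U') - cfc (ramp s t) x‖ ≤ ε := by
  refine ⟨by rw [← mul_assoc, hU], ?_⟩
  have h1 : cfc (ramp s' t') x * U' = U' := by
    rw [← hU', ← mul_assoc, cfc_ramp_mul (by linarith) (by linarith) (by linarith) x]
  have e : star (U * U') * (U * U') - cfc (ramp s t) x
      = star U' * (star U * U - cfc (ramp s' t') x) * U'
        + (star U' * U' - cfc (ramp s t) x) := by
    have h2 : star U' * cfc (ramp s' t') x * U' = star U' * U' := by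
      rw [mul_assoc, h1]
    rw [mul_sub, sub_mul, h2, star_mul]
    noncomm_ring
  have hε0 : 0 ≤ ε' := (norm_nonneg _).trans hUU
  have hn : ‖U'‖ * ‖U'‖ ≤ 2 := by
    rw [← CStarRing.norm_star_mul_self]
    calc ‖star U' * U'‖ = ‖(star U' * U' - cfc (ramp s t) x) + cfc (ramp s t) x‖ := by
          rw [sub_add_cancel]
      _ ≤ ‖star U' * U' - cfc (ramp s t) x‖ + ‖cfc (ramp s t) x‖ := norm_add_le _ _
      _ ≤ ε' + 1 := add_le_add hUU' (norm_cfc_ramp_le _ _ _)
      _ ≤ 2 := by linarith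
  rw [e]
  calc ‖star U' * (star U * U - cfc (ramp s' t') x) * U'
        + (star U' * U' - cfc (ramp s t) x)‖
      ≤ ‖star U' * (star U * U - cfc (ramp s' t') x) * U'‖
        + ‖star U' * U' - cfc (ramp s t) x‖ := norm_add_le _ _
    _ ≤ ‖star U'‖ * ‖star U * U - cfc (ramp s' t') x‖ * ‖U'‖ + ε' := by
        refine add_le_add ?_ hUU'
        exact (norm_mul_le _ _).trans (by gcongr; exact norm_mul_le _ _)
    _ = (‖U'‖ * ‖U'‖) * ‖star U * U - cfc (ramp s' t') x‖ + ε' := by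
        rw [norm_star]; ring
    _ ≤ 2 * ε' + ε' := by gcongr
    _ ≤ ε := by linarith

theorem OneStep.comp {θ θ' : ℝ} (h0 : 0 < θ) {a b : E} (h : OneStep θ a b)
    (h' : OneStep θ' a b) : OneStep (θ * θ') a b := by
  intro d hd p q s t p' q' s' t' hp hpq hqs hst hp' hpq' hqs' hst' ε hε
  obtain ⟨ε', hε'⟩ : ∃ x, x = min (ε / 3) 1 := ⟨_, rfl⟩
  have hε'0 : 0 < ε' := by rw [hε']; exact lt_min (by positivity) one_pos
  have hε'1 : ε' ≤ 1 := by rw [hε']; exact min_le_right _ _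
  have hε'3 : 3 * ε' ≤ ε := by
    have : ε' ≤ ε / 3 := by rw [hε']; exact min_le_left _ _
    linarith
  obtain ⟨S, T, hS, hT, hSS, hTT, hd1⟩ := h d hd p q (q + (s - q) / 5) (q + 2 * (s - q) / 5)
    p' q' (q' + (s' - q') / 5) (q' + 2 * (s' - q') / 5) hp hpq (by linarith) (by linarith)
    hp' hpq' (by linarith) (by linarith) ε' hε'0
  set d' : E := (θ⁻¹ : ℝ) • (star S * d * T) with hd'
  have hd'n : ‖d'‖ ≤ 1 := by
    rw [hd', norm_smul, Real.norm_eq_abs, abs_of_pos (inv_pos.mpr h0)]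
    calc θ⁻¹ * ‖star S * d * T‖ ≤ θ⁻¹ * θ := by gcongr
      _ = 1 := inv_mul_cancel₀ h0.ne'
  obtain ⟨S', T', hS', hT', hSS', hTT', hd2⟩ := h' d' hd'n (q + 3 * (s - q) / 5)
    (q + 4 * (s - q) / 5) s t (q' + 3 * (s' - q') / 5) (q' + 4 * (s' - q') / 5) s' t'
    (by linarith) (by linarith) (by linarith) hst (by linarith) (by linarith) (by linarith) hst'
    ε' hε'0
  obtain ⟨k1, k2⟩ := side_comp (by linarith) (by linarith) (by linarith) hε'1 hε'3
    hS hS' hSS hSS'
  obtain ⟨k3, k4⟩ := side_comp (by linarith) (by linarith) (by linarith) hε'1 hε'3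
    hT hT' hTT hTT'
  refine ⟨S * S', T * T', k1, k3, k2, k4, ?_⟩
  have e : star (S * S') * d * (T * T') = (θ : ℝ) • (star S' * d' * T') := by
    rw [hd', mul_smul_comm, smul_mul_assoc, smul_smul, mul_inv_cancel₀ h0.ne', one_smul, star_mul]
    noncomm_ring
  rw [e, norm_smul, Real.norm_eq_abs, abs_of_pos h0]
  gcongr

theorem OneStep.pow {θ : ℝ} (h0 : 0 < θ) {a b : E} (h : OneStep θ a b) (n : ℕ) :
    OneStep (θ ^ (n + 1)) a b := by
  induction n with
  | zero => simpa using h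
  | succ n ih => rw [pow_succ]; exact OneStep.comp (by positivity) ih h

/-- Arbitrarily small pairing. -/
theorem OneStep.arb {θ : ℝ} (h0 : 0 < θ) (h1 : θ < 1) {a b : E} (h : OneStep θ a b) {η : ℝ}
    (hη : 0 < η) : OneStep η a b := by
  obtain ⟨n, hn⟩ := exists_pow_lt_of_lt_one hη h1
  intro d hd p q s t p' q' s' t' hp hpq hqs hst hp' hpq' hqs' hst' ε hε
  obtain ⟨S, T, a1, a2, a3, a4, a5⟩ := h.pow h0 n d hd p q s t p' q' s' t' hp hpq hqs hst
    hp' hpq' hqs' hst' ε hε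
  refine ⟨S, T, a1, a2, a3, a4, a5.trans ?_⟩
  refine le_trans ?_ hn.le
  exact pow_le_pow_of_le_one h0.le h1.le (Nat.le_succ n)

end iter

/-! ### from Step 1 to `OneStep` -/

section ofStep1

variable {E : Type u} [CStarAlgebra E]

/-- one-sided change of levels: `a₁ = f_{q,m}(a)`, `m = (q+s)/2`. -/
theorem side_level {a S : E} (ha : IsSelfAdjoint a) {p q s t ε : ℝ} (hpq : p < q) (hqs : q < s)
    (hst : s < t)
    (hS : cfc (ramp (1 / 128) (1 / 64)) (cfc (ramp q ((q + s) / 2)) a) * S = S)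
    (hSS : ‖star S * S - cfc (ramp (1 / 2) 1) (cfc (ramp q ((q + s) / 2)) a)‖ ≤ ε) :
    cfc (ramp p q) a * (S * cfc (fun x => Real.sqrt (ramp s t x)) a)
        = S * cfc (fun x => Real.sqrt (ramp s t x)) a ∧
      ‖star (S * cfc (fun x => Real.sqrt (ramp s t x)) a) *
        (S * cfc (fun x => Real.sqrt (ramp s t x)) a) - cfc (ramp s t) a‖ ≤ ε ∧
      ‖cfc (fun x => Real.sqrt (ramp s t x)) a‖ ≤ 1 := by
  have hsc : Continuous (fun x => Real.sqrt (ramp s t x)) := (rampc s t).sqrt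
  set g : E := cfc (fun x => Real.sqrt (ramp s t x)) a with hg
  have hgsa : IsSelfAdjoint g := cfc_predicate _ _
  have hgn : ‖g‖ ≤ 1 := by
    refine norm_cfc_le zero_le_one fun x _ => ?_
    rw [Real.norm_eq_abs, abs_of_nonneg (Real.sqrt_nonneg _)]
    rw [Real.sqrt_le_one]
    exact ramp1 _ _ _
  have hcomp : ∀ u v : ℝ, cfc (ramp u v) (cfc (ramp q ((q + s) / 2)) a)
      = cfc (fun x => ramp u v (ramp q ((q + s) / 2) x)) a := by
    intro u v
    rw [← cfc_comp' (ramp u v) (ramp q ((q + s) / 2)) a (rampc _ _).continuousOn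
      (rampc _ _).continuousOn]
  have hφ : ∀ u v : ℝ, Continuous (fun x => ramp u v (ramp q ((q + s) / 2) x)) :=
    fun u v => (rampc u v).comp (rampc _ _)
  have hgg : g * cfc (ramp (1 / 2) 1) (cfc (ramp q ((q + s) / 2)) a) * g = cfc (ramp s t) a := by
    rw [hcomp, hg, ← cfc_mul (fun x => Real.sqrt (ramp s t x))
      (fun x => ramp (1 / 2) 1 (ramp q ((q + s) / 2) x)) a hsc.continuousOn (hφ _ _).continuousOn,
      ← cfc_mul (fun x => Real.sqrt (ramp s t x) * ramp (1 / 2) 1 (ramp q ((q + s) / 2) x))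
        (fun x => Real.sqrt (ramp s t x)) a (hsc.mul (hφ _ _)).continuousOn hsc.continuousOn]
    refine cfc_congr fun x _ => ?_
    have e0 : Real.sqrt (ramp s t x) * Real.sqrt (ramp s t x) = ramp s t x :=
      Real.mul_self_sqrt (ramp0 _ _ _)
    rcases le_total x s with h | h
    · rw [rampz hst h]; simp
    · rw [rampo (show q < (q + s) / 2 by linarith) (show (q + s) / 2 ≤ x by linarith),
        rampo (by norm_num) le_rfl, mul_one, e0]
  have hpS : cfc (ramp p q) a * S = S := by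
    have h1 : cfc (ramp p q) a * cfc (ramp (1 / 128) (1 / 64)) (cfc (ramp q ((q + s) / 2)) a)
        = cfc (ramp (1 / 128) (1 / 64)) (cfc (ramp q ((q + s) / 2)) a) := by
      rw [hcomp, ← cfc_mul (ramp p q)
        (fun x => ramp (1 / 128) (1 / 64) (ramp q ((q + s) / 2) x)) a (rampc _ _).continuousOn
        (hφ _ _).continuousOn]
      refine cfc_congr fun x _ => ?_
      rcases le_total x q with h | h
      · rw [rampz (show q < (q + s) / 2 by linarith) h, rampz (x := 0) (by norm_num) (by norm_num),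
          mul_zero]
      · rw [rampo hpq h, one_mul]
    calc cfc (ramp p q) a * S
        = cfc (ramp p q) a * (cfc (ramp (1 / 128) (1 / 64)) (cfc (ramp q ((q + s) / 2)) a) * S) := by
          rw [hS]
      _ = S := by rw [← mul_assoc, h1, hS]
  refine ⟨by rw [← mul_assoc, hpS], ?_, hgn⟩
  have e : star (S * g) * (S * g) - cfc (ramp s t) a
      = g * (star S * S - cfc (ramp (1 / 2) 1) (cfc (ramp q ((q + s) / 2)) a)) * g := by
    rw [mul_sub, sub_mul, hgg, star_mul, hgsa.star_eq]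
    noncomm_ring
  have hε0 : 0 ≤ ε := (norm_nonneg _).trans hSS
  rw [e]
  calc ‖g * (star S * S - cfc (ramp (1 / 2) 1) (cfc (ramp q ((q + s) / 2)) a)) * g‖
      ≤ ‖g‖ * ‖star S * S - cfc (ramp (1 / 2) 1) (cfc (ramp q ((q + s) / 2)) a)‖ * ‖g‖ :=
        (norm_mul_le _ _).trans (by gcongr; exact norm_mul_le _ _)
    _ ≤ 1 * ε * 1 := by gcongr
    _ = ε := by ring

/-- the frozen statement `step1`. -/
def Step1Prop : Prop :=
  ∀ (E : Type u) [CStarAlgebra E] [PartialOrder E] [StarOrderedRing E] (I : Set E),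
    PIIdeal I → ∀ (a b d : E), 0 ≤ a → a ∈ I → 0 ≤ b → b ∈ I → ‖d‖ ≤ 1 →
    ∀ (r r' t t' : ℝ), 0 < r → r < r' → 0 < t → t < t' → ∀ ε : ℝ, 0 < ε →
    ∃ S T : E, rp (r / 64) (r / 32) a * S = S ∧ rp (t / 64) (t / 32) b * T = T ∧
      ‖star S * S - rp r r' a‖ < ε ∧ ‖star T * T - rp t t' b‖ < ε ∧
      ‖star S * d * T‖ ≤ 999 / 1000

theorem ramp_mem {I : Set E} (hI : PIIdeal I) {a : E} (ha : IsSelfAdjoint a) (haI : a ∈ I)
    {s t : ℝ} (hs : 0 < s) (h : s < t) : cfc (ramp s t) a ∈ I := by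
  have hpos : ∀ x : ℝ, max x s ≠ 0 := fun x => (lt_of_lt_of_le hs (le_max_right _ _)).ne'
  have hg : Continuous (fun x => ramp s t x / max x s) :=
    (rampc s t).div (by fun_prop) hpos
  have e : cfc (ramp s t) a = a * cfc (fun x => ramp s t x / max x s) a := by
    conv_rhs => rw [← cfc_id' ℝ a]
    have e1 : cfc (fun x => ramp s t x / max x s) (cfc (fun x : ℝ => x) a)
        = cfc (fun x => ramp s t x / max x s) a := by rw [cfc_id' ℝ a]
    rw [e1, ← cfc_mul (fun x : ℝ => x) (fun x => ramp s t x / max x s) a (by fun_prop)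
      hg.continuousOn]
    refine cfc_congr fun x _ => ?_
    rcases le_total x s with hx | hx
    · rw [rampz h hx]; simp
    · rw [max_eq_left hx]
      have : x ≠ 0 := (hs.trans_le hx).ne'
      field_simp
  rw [e]
  exact hI.mul_right _ haI

theorem oneStep_of_step1 (H : Step1Prop.{u}) [PartialOrder E] [StarOrderedRing E] {I : Set E}
    (hI : PIIdeal I)
    {a b : E} (ha : 0 ≤ a) (haI : a ∈ I) (hb : 0 ≤ b) (hbI : b ∈ I) :
    OneStep (999 / 1000) a b := by
  intro d hd p q s t p' q' s' t' hp hpq hqs hst hp' hpq' hqs' hst' ε hε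
  have hasa : IsSelfAdjoint a := IsSelfAdjoint.of_nonneg ha
  have hbsa : IsSelfAdjoint b := IsSelfAdjoint.of_nonneg hb
  have ha1 : 0 ≤ cfc (ramp q ((q + s) / 2)) a := cfc_nonneg fun x _ => ramp0 _ _ _
  have hb1 : 0 ≤ cfc (ramp q' ((q' + s') / 2)) b := cfc_nonneg fun x _ => ramp0 _ _ _
  have hma : cfc (ramp q ((q + s) / 2)) a ∈ I :=
    ramp_mem hI hasa haI (show 0 < q by linarith) (by linarith)
  have hmb : cfc (ramp q' ((q' + s') / 2)) b ∈ I :=
    ramp_mem hI hbsa hbI (show 0 < q' by linarith) (by linarith)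
  obtain ⟨S, T, hS, hT, hSS, hTT, hST⟩ := H E I hI _ _ d ha1 hma hb1 hmb hd (1 / 2) 1 (1 / 2) 1
    (by norm_num) (by norm_num) (by norm_num) (by norm_num) ε hε
  unfold rp at hS hT hSS hTT
  have e1 : (1 / 2 / 64 : ℝ) = 1 / 128 := by norm_num
  have e2 : (1 / 2 / 32 : ℝ) = 1 / 64 := by norm_num
  rw [e1, e2] at hS hT
  obtain ⟨x1, x2, x3⟩ := side_level hasa hpq hqs hst hS hSS.le
  obtain ⟨y1, y2, y3⟩ := side_level hbsa hpq' hqs' hst' hT hTT.le
  refine ⟨_, _, x1, y1, x2, y2, ?_⟩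
  set g := cfc (fun x => Real.sqrt (ramp s t x)) a
  set g' := cfc (fun x => Real.sqrt (ramp s' t' x)) b
  have e : star (S * g) * d * (T * g') = star g * (star S * d * T) * g' := by
    rw [star_mul]; noncomm_ring
  rw [e]
  calc ‖star g * (star S * d * T) * g'‖ ≤ ‖star g‖ * ‖star S * d * T‖ * ‖g'‖ :=
        (norm_mul_le _ _).trans (by gcongr; exact norm_mul_le _ _)
    _ ≤ 1 * (999 / 1000) * 1 := by
        rw [norm_star]; gcongr
    _ = 999 / 1000 := by ring

end ofStep1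
section bridge

variable {E : Type u} [CStarAlgebra E] [PartialOrder E] [StarOrderedRing E]

/-- inverse square root above level `p`. -/
noncomputable def qf (p x : ℝ) : ℝ := (Real.sqrt (max x p))⁻¹

theorem qf_cont {p : ℝ} (hp : 0 < p) : Continuous (qf p) := by
  unfold qf
  refine Continuous.inv₀ (by fun_prop) fun x => ?_
  have : 0 < max x p := lt_of_lt_of_le hp (le_max_right _ _)
  exact (Real.sqrt_pos.mpr this).ne'

theorem qf_mul {p q x : ℝ} (hp : 0 < p) (hpq : p < q) :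
    qf p x * x * qf p x * ramp p q x = ramp p q x := by
  rcases le_total x p with h | h
  · rw [rampz hpq h, mul_zero]
  · unfold qf
    rw [max_eq_left h]
    have hx : 0 < x := hp.trans_le h
    have : (Real.sqrt x)⁻¹ * x * (Real.sqrt x)⁻¹ = 1 := by
      have h1 : Real.sqrt x * Real.sqrt x = x := Real.mul_self_sqrt hx.le
      have h2 : Real.sqrt x ≠ 0 := (Real.sqrt_pos.mpr hx).ne'
      calc (Real.sqrt x)⁻¹ * x * (Real.sqrt x)⁻¹
          = (Real.sqrt x)⁻¹ * (Real.sqrt x * Real.sqrt x) * (Real.sqrt x)⁻¹ := by rw [h1]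
        _ = 1 := by field_simp
    rw [this, one_mul]

/-- One side of the diagonalisation. -/
theorem side_estimate {a S : E} (ha : 0 ≤ a) {p q s t ε : ℝ} (hp : 0 < p) (hpq : p < q)
    (hs : 0 < s) (hst : s < t) (hS : cfc (ramp p q) a * S = S)
    (hSS : ‖star S * S - cfc (ramp s t) a‖ ≤ ε) :
    ‖star (cfc (qf p) a * S * cfc Real.sqrt a) * a * (cfc (qf p) a * S * cfc Real.sqrt a) - a‖
      ≤ ‖a‖ * ε + t := by
  have hsa : IsSelfAdjoint a := IsSelfAdjoint.of_nonneg ha
  have hspec : ∀ x ∈ spectrum ℝ a, 0 ≤ x := fun x hx => spectrum_nonneg_of_nonneg ha hx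
  set r : E := cfc Real.sqrt a with hr
  set Qa : E := cfc (qf p) a with hQ
  have hrsa : IsSelfAdjoint r := cfc_predicate _ _
  have hQsa : IsSelfAdjoint Qa := cfc_predicate _ _
  have hrr : r * r = a := by
    rw [hr, ← cfc_mul Real.sqrt Real.sqrt a Real.continuous_sqrt.continuousOn
      Real.continuous_sqrt.continuousOn]
    conv_rhs => rw [← cfc_id' ℝ a]
    exact cfc_congr fun x hx => Real.mul_self_sqrt (hspec x hx)
  have hQaQ : Qa * a * Qa * cfc (ramp p q) a = cfc (ramp p q) a := by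
    have hq : Continuous (qf p) := qf_cont hp
    conv_lhs => rw [hQ, ← cfc_id' ℝ a]
    have e1 : cfc (qf p) (cfc (fun x : ℝ => x) a) = cfc (qf p) a := by rw [cfc_id' ℝ a]
    have e2 : cfc (ramp p q) (cfc (fun x : ℝ => x) a) = cfc (ramp p q) a := by rw [cfc_id' ℝ a]
    rw [e1, e2, ← cfc_mul (qf p) (fun x : ℝ => x) a hq.continuousOn (by fun_prop),
      ← cfc_mul (fun x => qf p x * x) (qf p) a (by fun_prop) hq.continuousOn,
      ← cfc_mul (fun x => qf p x * x * qf p x) (ramp p q) a (by fun_prop)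
        (rampc _ _).continuousOn]
    exact cfc_congr fun x _ => qf_mul hp hpq
  have h1 : Qa * a * Qa * S = S := by
    calc Qa * a * Qa * S = Qa * a * Qa * (cfc (ramp p q) a * S) := by rw [hS]
      _ = (Qa * a * Qa * cfc (ramp p q) a) * S := by noncomm_ring
      _ = S := by rw [hQaQ, hS]
  have h2 : star (Qa * S * r) * a * (Qa * S * r) = r * (star S * S) * r := by
    rw [star_mul, star_mul, hrsa.star_eq, hQsa.star_eq]
    calc r * (star S * Qa) * a * (Qa * S * r) = r * (star S * (Qa * a * Qa * S)) * r := by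
          noncomm_ring
      _ = r * (star S * S) * r := by rw [h1]
  have h3 : ‖r * cfc (ramp s t) a * r - a‖ ≤ t := by
    have hrc : ContinuousOn (ramp s t) (spectrum ℝ a) := (rampc _ _).continuousOn
    have hsc : ContinuousOn Real.sqrt (spectrum ℝ a) := Real.continuous_sqrt.continuousOn
    have hm : r * cfc (ramp s t) a * r
        = cfc (fun x => Real.sqrt x * ramp s t x * Real.sqrt x) a := by
      rw [hr, ← cfc_mul Real.sqrt (ramp s t) a hsc hrc,
        ← cfc_mul (fun x => Real.sqrt x * ramp s t x) Real.sqrt a (hsc.mul hrc) hsc]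
    have ha' : r * cfc (ramp s t) a * r - a
        = cfc (fun x => Real.sqrt x * ramp s t x * Real.sqrt x - x) a := by
      rw [hm, cfc_sub (fun x => Real.sqrt x * ramp s t x * Real.sqrt x) (fun x => x) a
        ((hsc.mul hrc).mul hsc) (by fun_prop), cfc_id' ℝ a]
    rw [ha']
    refine norm_cfc_le (by linarith) fun x hx => ?_
    have hx0 := hspec x hx
    have e : Real.sqrt x * ramp s t x * Real.sqrt x - x = x * ramp s t x - x := by
      have : Real.sqrt x * ramp s t x * Real.sqrt x = (Real.sqrt x * Real.sqrt x) * ramp s t x := by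
        ring
      rw [this, Real.mul_self_sqrt hx0]
    rw [e, Real.norm_eq_abs]
    rcases le_total t x with h | h
    · rw [rampo hst h, mul_one, sub_self, abs_zero]; linarith
    · have h0 := ramp0 s t x
      have h1 := ramp1 s t x
      rw [abs_le]
      constructor <;> nlinarith
  have h4 : ‖r‖ * ‖r‖ = ‖a‖ := by
    rw [← CStarRing.norm_star_mul_self, hrsa.star_eq, hrr]
  rw [h2]
  have e : r * (star S * S) * r - a
      = r * (star S * S - cfc (ramp s t) a) * r + (r * cfc (ramp s t) a * r - a) := by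
    noncomm_ring
  rw [e]
  calc ‖r * (star S * S - cfc (ramp s t) a) * r + (r * cfc (ramp s t) a * r - a)‖
      ≤ ‖r * (star S * S - cfc (ramp s t) a) * r‖ + ‖r * cfc (ramp s t) a * r - a‖ :=
        norm_add_le _ _
    _ ≤ ‖r‖ * ‖star S * S - cfc (ramp s t) a‖ * ‖r‖ + t := by
        refine add_le_add ?_ h3
        exact (norm_mul_le _ _).trans (by gcongr; exact norm_mul_le _ _)
    _ = (‖r‖ * ‖r‖) * ‖star S * S - cfc (ramp s t) a‖ + t := by ring
    _ ≤ ‖a‖ * ε + t := by rw [h4]; gcongr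

/-- Simultaneous approximate diagonalisation from the main theorem. -/
theorem diag_of_oneStep {I : Set E} (hI : PIIdeal I) {a b : E} (ha : 0 ≤ a) (haI : a ∈ I)
    (hb : 0 ≤ b) (hbI : b ∈ I)
    (h : ∀ η : ℝ, 0 < η → OneStep η a b) (c : E) {ε : ℝ} (hε : 0 < ε) :
    ∃ s t : E, s ∈ I ∧ t ∈ I ∧ ‖star s * a * s - a‖ < ε ∧ ‖star t * b * t - b‖ < ε ∧
      ‖star s * c * t‖ < ε := by
  obtain ⟨t, ht⟩ : ∃ x : ℝ, x = ε / 3 := ⟨_, rfl⟩
  have ht0 : 0 < t := by rw [ht]; positivity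
  obtain ⟨K, hK⟩ : ∃ x : ℝ, x = ‖cfc (qf (t / 4)) a * c * cfc (qf (t / 4)) b‖ + 1 := ⟨_, rfl⟩
  have hK0 : 0 < K := by rw [hK]; positivity
  obtain ⟨η, hη⟩ : ∃ x : ℝ, x = ε / (2 * K * (‖cfc Real.sqrt a‖ + 1) * (‖cfc Real.sqrt b‖ + 1)) :=
    ⟨_, rfl⟩
  have hη0 : 0 < η := by rw [hη]; positivity
  obtain ⟨δ, hδ⟩ : ∃ x : ℝ, x = ε / (3 * (‖a‖ + ‖b‖ + 1)) := ⟨_, rfl⟩
  have hδ0 : 0 < δ := by rw [hδ]; positivity
  obtain ⟨S, T, hS, hT, hSS, hTT, hdd⟩ := h η hη0
    ((K⁻¹ : ℝ) • (cfc (qf (t / 4)) a * c * cfc (qf (t / 4)) b)) (by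
      rw [norm_smul, Real.norm_eq_abs, abs_of_pos (inv_pos.mpr hK0)]
      calc K⁻¹ * ‖cfc (qf (t / 4)) a * c * cfc (qf (t / 4)) b‖ ≤ K⁻¹ * K := by
            gcongr; rw [hK]; linarith
        _ = 1 := inv_mul_cancel₀ hK0.ne')
    (t / 4) (t / 3) (t / 2) t (t / 4) (t / 3) (t / 2) t (by linarith) (by linarith)
    (by linarith) (by linarith) (by linarith) (by linarith) (by linarith) (by linarith) δ hδ0
  have hbd : ∀ x : E, ‖x‖ ≤ ‖a‖ + ‖b‖ → ‖x‖ * δ + t < ε := by
    intro x hx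
    have h1 : ‖x‖ * δ ≤ ε / 3 := by
      rw [hδ]
      have h2 : ‖x‖ ≤ ‖a‖ + ‖b‖ + 1 := by linarith
      calc ‖x‖ * (ε / (3 * (‖a‖ + ‖b‖ + 1)))
          ≤ (‖a‖ + ‖b‖ + 1) * (ε / (3 * (‖a‖ + ‖b‖ + 1))) := by gcongr
        _ = ε / 3 := by field_simp
    linarith
  have hmem : ∀ {x U : E} (_ : 0 ≤ x) (_ : x ∈ I) (_ : cfc (ramp (t / 4) (t / 3)) x * U = U),
      cfc (qf (t / 4)) x * U * cfc Real.sqrt x ∈ I := by
    intro x U hx hxI hU
    have h1 : cfc (ramp (t / 4) (t / 3)) x ∈ I :=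
      ramp_mem hI (IsSelfAdjoint.of_nonneg hx) hxI (by linarith) (by linarith)
    have h2 : U ∈ I := by rw [← hU]; exact hI.mul_right _ h1
    exact hI.mul_right _ (hI.mul_left _ h2)
  refine ⟨cfc (qf (t / 4)) a * S * cfc Real.sqrt a, cfc (qf (t / 4)) b * T * cfc Real.sqrt b,
    hmem ha haI hS, hmem hb hbI hT, ?_, ?_, ?_⟩
  · exact lt_of_le_of_lt (side_estimate ha (by linarith) (by linarith) (by linarith)
      (by linarith) hS hSS) (hbd a (by linarith [norm_nonneg b]))
  · exact lt_of_le_of_lt (side_estimate hb (by linarith) (by linarith) (by linarith)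
      (by linarith) hT hTT) (hbd b (by linarith [norm_nonneg a]))
  · set r := cfc Real.sqrt a with hr
    set r' := cfc Real.sqrt b with hr'
    have hrsa : IsSelfAdjoint r := cfc_predicate _ _
    have hQsa : IsSelfAdjoint (cfc (qf (t / 4)) a) := cfc_predicate _ _
    have e : star (cfc (qf (t / 4)) a * S * r) * c * (cfc (qf (t / 4)) b * T * r')
        = K • (r * (star S * ((K⁻¹ : ℝ) • (cfc (qf (t / 4)) a * c * cfc (qf (t / 4)) b)) * T)
          * r') := by
      rw [star_mul, star_mul, hrsa.star_eq, hQsa.star_eq]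
      simp only [mul_smul_comm, smul_mul_assoc, smul_smul, mul_inv_cancel₀ hK0.ne', one_smul]
      noncomm_ring
    rw [e, norm_smul, Real.norm_eq_abs, abs_of_pos hK0]
    calc K * ‖r * (star S * ((K⁻¹ : ℝ) • (cfc (qf (t / 4)) a * c * cfc (qf (t / 4)) b)) * T)
          * r'‖
        ≤ K * (‖r‖ * ‖star S * ((K⁻¹ : ℝ) • (cfc (qf (t / 4)) a * c * cfc (qf (t / 4)) b)) * T‖
          * ‖r'‖) := by
          gcongr
          exact (norm_mul_le _ _).trans (by gcongr; exact norm_mul_le _ _)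
      _ ≤ K * ((‖r‖ + 1) * η * (‖r'‖ + 1)) := by
          gcongr
          · linarith
          · linarith
      _ = ε / 2 := by rw [hη]; field_simp
      _ < ε := by linarith

theorem final_unital_of (H : Step1Prop.{u}) {I : Set E} (hI : PIIdeal I) {a b c : E} (ha : 0 ≤ a) (haI : a ∈ I)
    (hb : 0 ≤ b) (hbI : b ∈ I) {ε : ℝ} (hε : 0 < ε) :
    ∃ s t : E, s ∈ I ∧ t ∈ I ∧ ‖star s * a * s - a‖ < ε ∧ ‖star t * b * t - b‖ < ε ∧
      ‖star s * c * t‖ < ε :=
  diag_of_oneStep hI ha haI hb hbI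
    (fun _ hη => (oneStep_of_step1 H hI ha haI hb hbI).arb (by norm_num) (by norm_num) hη) c hε

end bridge

/-- the ideal `C` of `Unitization ℂ C`. -/
theorem piIdeal_range (C : Type u) [NonUnitalCStarAlgebra C]
    (hC : ∀ x : C, Crest.OpAlg.IsProperlyInfinite (star x * x)) :
    PIIdeal (Set.range (fun x : C => (x : Unitization ℂ C))) := by
  have hl : ∀ (x : Unitization ℂ C) (w : C), ∃ v : C, (v : Unitization ℂ C) = x * w := by
    intro x w
    induction x using Unitization.ind with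
    | inl_add_inr k m =>
      refine ⟨k • w + m * w, ?_⟩
      rw [add_mul, ← Unitization.inr_mul, Unitization.inr_add, Unitization.inl_mul_inr]
  have hr : ∀ (x : Unitization ℂ C) (w : C), ∃ v : C, (v : Unitization ℂ C) = w * x := by
    intro x w
    induction x using Unitization.ind with
    | inl_add_inr k m =>
      refine ⟨k • w + w * m, ?_⟩
      rw [mul_add, ← Unitization.inr_mul, Unitization.inr_add, Unitization.inr_mul_inl]
  refine ⟨⟨0, Unitization.inr_zero ℂ⟩, ?_, ?_, ?_, ?_, ?_⟩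
  · rintro _ _ ⟨x, rfl⟩ ⟨y, rfl⟩
    exact ⟨x + y, Unitization.inr_add ℂ x y⟩
  · rintro w _ ⟨x, rfl⟩
    exact hl w x
  · rintro w _ ⟨x, rfl⟩
    exact hr w x
  · rintro _ ⟨x, rfl⟩
    exact ⟨star x, Unitization.inr_star x⟩
  · rintro _ ⟨x, rfl⟩ ε hε
    obtain ⟨r, s, h1, h2, h3⟩ := hC x ε hε
    refine ⟨(r : Unitization ℂ C), (s : Unitization ℂ C), ?_, ?_, ?_⟩
    · rw [← Unitization.norm_inr (𝕜 := ℂ)] at h1
      simpa only [Unitization.inr_sub, Unitization.inr_mul, Unitization.inr_star] using h1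
    · rw [← Unitization.norm_inr (𝕜 := ℂ)] at h2
      simpa only [Unitization.inr_sub, Unitization.inr_mul, Unitization.inr_star] using h2
    · rw [← Unitization.norm_inr (𝕜 := ℂ)] at h3
      simpa only [Unitization.inr_sub, Unitization.inr_mul, Unitization.inr_star] using h3

/-- S0145. -/
theorem final_of (H : Step1Prop.{u}) (C : Type u) [NonUnitalCStarAlgebra C]
    (hC : ∀ x : C, Crest.OpAlg.IsProperlyInfinite (star x * x))
    (a b c : C) (ha : ∃ x : C, a = star x * x) (hb : ∃ y : C, b = star y * y)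
    (ε : ℝ) (hε : 0 < ε) :
    ∃ s t : C, ‖star s * a * s - a‖ < ε ∧ ‖star t * b * t - b‖ < ε ∧ ‖star s * c * t‖ < ε := by
  let _ : PartialOrder (Unitization ℂ C) := CStarAlgebra.spectralOrder _
  have _ : StarOrderedRing (Unitization ℂ C) := CStarAlgebra.spectralOrderedRing _
  have key : ∀ z : C, (∃ x : C, z = star x * x) → 0 ≤ (z : Unitization ℂ C) := by
    rintro z ⟨x, rfl⟩
    rw [Unitization.inr_mul, Unitization.inr_star]
    exact star_mul_self_nonneg _
  obtain ⟨_, _, ⟨s, rfl⟩, ⟨t, rfl⟩, h1, h2, h3⟩ := final_unital_of H (piIdeal_range C hC)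
    (c := (c : Unitization ℂ C)) (key a ha) ⟨a, rfl⟩ (key b hb) ⟨b, rfl⟩ hε
  refine ⟨s, t, ?_, ?_, ?_⟩
  · rw [← Unitization.norm_inr (𝕜 := ℂ)]
    simpa only [Unitization.inr_sub, Unitization.inr_mul, Unitization.inr_star] using h1
  · rw [← Unitization.norm_inr (𝕜 := ℂ)]
    simpa only [Unitization.inr_sub, Unitization.inr_mul, Unitization.inr_star] using h2
  · rw [← Unitization.norm_inr (𝕜 := ℂ)]
    simpa only [Unitization.inr_sub, Unitization.inr_mul, Unitization.inr_star] using h3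

end Crest.Agent.R110.Fin476
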