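import Mathlib

/-!
# R110.GapProj : from a gap to a projection (Blackadar-Cuntz)

Abstract form of step `L6` of the blueprint.  In a unital C*-algebra `E` let `0 ≤ f ≤ 1`,
`star x1 * x1 ≈ f`, `star x2 * x2 ≈ f`, `star x1 * x2 ≈ 0`, `f * xi = xi` and let `e` be a
self-adjoint element with `e * f = f`, `x1 * e = x1`.  With `r = (1 - f)^{1/2}` the element
`v = x1 + r` is almost an isometry, and `P = 1 - v (v* v)⁻¹ v*` is a projection with `e P = P`
and `x2* P x2 ≈ f`.
-/

set_option autoImplicit false

namespace Crest.Agent.R110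

universe u

variable {E : Type u} [CStarAlgebra E]

/-- If `r` is self-adjoint, `r * r = 1 - f` and `f * x = x` then `r * x = 0`. -/
theorem gap_mul_eq_zero {f r x : E} (hr : star r = r) (hrr : r * r = 1 - f) (hx : f * x = x) :
    r * x = 0 := by
  rw [← norm_eq_zero]
  have h : ‖r * x‖ * ‖r * x‖ = 0 := by
    rw [← CStarRing.norm_star_mul_self, star_mul, hr]
    have : star x * r * (r * x) = star x * ((r * r) * x) := by simp only [mul_assoc]
    rw [this, hrr, sub_mul, one_mul, hx, sub_self, mul_zero, norm_zero]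
  exact mul_self_eq_zero.mp h

/-- If `1 + r` is a unit, `r * r = 1 - f` and `f * y = 0`, then `r * y = y`. -/
theorem gap_mul_eq_self {f r y : E} (hu : IsUnit (1 + r)) (hrr : r * r = 1 - f)
    (hy : f * y = 0) : r * y = y := by
  have h : (1 + r) * (r * y - y) = 0 := by
    have : (1 + r) * (r * y - y) = (r * r) * y - y := by noncomm_ring
    rw [this, hrr, sub_mul, one_mul, hy]; simp
  have := hu.mul_right_eq_zero.mp h
  exact sub_eq_zero.mp this

/-- The abstract gap-to-projection lemma. -/
theorem gap_projection (f r e x1 x2 : E) {ε : ℝ}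
    (hε : ε ≤ 1 / 2)
    (hfs : star f = f) (hr : star r = r) (hrr : r * r = 1 - f) (hru : IsUnit (1 + r))
    (he : star e = e) (hef : e * f = f) (hfe : f * e = f)
    (hf1 : f * x1 = x1) (hf2 : f * x2 = x2) (hx1e : x1 * e = x1)
    (h11 : ‖star x1 * x1 - f‖ ≤ ε) (h12 : ‖star x1 * x2‖ ≤ ε) (h22 : ‖star x2 * x2 - f‖ ≤ ε) :
    ∃ P : E, star P = P ∧ P * P = P ∧ e * P = P ∧ P * e = P ∧
      ‖star x2 * P * x2 - f‖ ≤ ε + 2 * ε ^ 2 := by
  have hε0 : 0 ≤ ε := (norm_nonneg _).trans h11
  rcases subsingleton_or_nontrivial E with hE | hE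
  · exact ⟨0, Subsingleton.elim _ _, Subsingleton.elim _ _, Subsingleton.elim _ _,
      Subsingleton.elim _ _, by
        rw [Subsingleton.elim (star x2 * 0 * x2 - f) 0, norm_zero]; positivity⟩
  set v : E := x1 + r with hv
  have hrx1 : r * x1 = 0 := gap_mul_eq_zero hr hrr hf1
  have hrx2 : r * x2 = 0 := gap_mul_eq_zero hr hrr hf2
  have hx1r : star x1 * r = 0 := by
    have := congrArg star hrx1
    rwa [star_mul, hr, star_zero] at this
  -- `w = v* v = 1 + (x1* x1 - f)`
  set w : E := star v * v with hw
  have hwe : w = 1 + (star x1 * x1 - f) := by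
    have : w = star x1 * x1 + star x1 * r + (r * x1 + r * r) := by
      rw [hw, hv, star_add, hr]; noncomm_ring
    rw [this, hx1r, hrx1, hrr]; abel
  have hws : star w = w := by rw [hw]; simp
  have hnorm : ‖-(star x1 * x1 - f)‖ < 1 := by
    rw [norm_neg]; linarith
  have hunit : IsUnit w := by
    have := (Units.oneSub (-(star x1 * x1 - f)) hnorm).isUnit
    rw [Units.val_oneSub, sub_neg_eq_add, ← hwe] at this
    exact this
  obtain ⟨U, hU⟩ := hunit
  set wi : E := ((U⁻¹ : Eˣ) : E) with hwi
  have hw1 : w * wi = 1 := by rw [← hU]; exact U.mul_inv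
  have hw2 : wi * w = 1 := by rw [← hU]; exact U.inv_mul
  have hwis : star wi = wi := by
    have h1 : star wi * w = 1 := by
      have := congrArg star hw1
      rwa [star_mul, hws, star_one] at this
    calc star wi = star wi * (w * wi) := by rw [hw1, mul_one]
      _ = wi := by rw [← mul_assoc, h1, one_mul]
  have hwin : ‖wi‖ ≤ 2 := by
    have h1 : wi = 1 - (star x1 * x1 - f) * wi := by
      have := hw1
      rw [hwe, add_mul, one_mul] at this
      exact eq_sub_of_add_eq this
    have h2 : ‖wi‖ ≤ 1 + ε * ‖wi‖ := by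
      calc ‖wi‖ = ‖1 - (star x1 * x1 - f) * wi‖ := by rw [← h1]
        _ ≤ ‖(1 : E)‖ + ‖(star x1 * x1 - f) * wi‖ := norm_sub_le _ _
        _ ≤ 1 + ε * ‖wi‖ := by
          rw [norm_one]
          gcongr
          exact (norm_mul_le _ _).trans (mul_le_mul_of_nonneg_right h11 (norm_nonneg _))
    nlinarith [norm_nonneg wi]
  -- behaviour on `1 - e`
  set y : E := 1 - e with hy
  have hys : star y = y := by rw [hy, star_sub, star_one, he]
  have hfy : f * y = 0 := by rw [hy, mul_sub, mul_one, hfe, sub_self]
  have hyf : y * f = 0 := by rw [hy, sub_mul, one_mul, hef, sub_self]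
  have hry : r * y = y := gap_mul_eq_self hru hrr hfy
  have hyr : y * r = y := by
    have := congrArg star hry
    rwa [star_mul, hr, hys] at this
  have hx1y : x1 * y = 0 := by rw [hy, mul_sub, mul_one, hx1e, sub_self]
  have hyx1 : y * x1 = 0 := by
    rw [← hf1, ← mul_assoc, hyf, zero_mul]
  have hvy : v * y = y := by rw [hv, add_mul, hx1y, hry, zero_add]
  have hyv : y * v = y := by rw [hv, mul_add, hyx1, hyr, zero_add]
  have hsvy : star v * y = y := by
    have := congrArg star hyv
    rwa [star_mul, hys] at this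
  have hwy : w * y = y := by rw [hw, mul_assoc, hvy, hsvy]
  have hwiy : wi * y = y := by
    calc wi * y = wi * (w * y) := by rw [hwy]
      _ = y := by rw [← mul_assoc, hw2, one_mul]
  set P : E := 1 - v * wi * star v with hP
  have hPs : star P = P := by
    rw [hP]
    simp only [star_sub, star_one, star_mul, star_star, hwis, mul_assoc]
  have hvv : (v * wi * star v) * (v * wi * star v) = v * wi * star v := by
    have : (v * wi * star v) * (v * wi * star v) = v * (wi * w) * (wi * star v) := by
      rw [hw]; simp only [mul_assoc]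
    rw [this, hw2, mul_one, ← mul_assoc]
  have hPP : P * P = P := by
    have : P * P = 1 - v * wi * star v - v * wi * star v
        + (v * wi * star v) * (v * wi * star v) := by rw [hP]; noncomm_ring
    rw [this, hvv]
    rw [hP]; abel
  have hPy : P * y = 0 := by
    rw [hP, sub_mul, one_mul, mul_assoc, hsvy, mul_assoc, hwiy, hvy, sub_self]
  have hPe : P * e = P := by
    have : P * e = P - P * y := by rw [hy]; noncomm_ring
    rw [this, hPy, sub_zero]
  have hePP : e * P = P := by
    have := congrArg star hPe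
    rwa [star_mul, hPs, he] at this
  refine ⟨P, hPs, hPP, hePP, hPe, ?_⟩
  have hsv2 : star v * x2 = star x1 * x2 := by
    rw [hv, star_add, hr, add_mul, hrx2, add_zero]
  have hkey : star x2 * P * x2 - f = (star x2 * x2 - f)
      - star (star x1 * x2) * wi * (star x1 * x2) := by
    have h1 : star x2 * P * x2 = star x2 * x2 - (star x2 * v) * wi * (star v * x2) := by
      rw [hP]; noncomm_ring
    have h2 : star x2 * v = star (star v * x2) := by rw [star_mul, star_star]
    rw [h1, h2, hsv2]; abel
  rw [hkey]
  calc ‖(star x2 * x2 - f) - star (star x1 * x2) * wi * (star x1 * x2)‖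
      ≤ ‖star x2 * x2 - f‖ + ‖star (star x1 * x2) * wi * (star x1 * x2)‖ := norm_sub_le _ _
    _ ≤ ε + (ε * 2) * ε := by
        gcongr
        refine (norm_mul_le _ _).trans ?_
        refine mul_le_mul ?_ h12 (norm_nonneg _) (by positivity)
        refine (norm_mul_le _ _).trans ?_
        rw [norm_star]
        exact mul_le_mul h12 hwin (norm_nonneg _) hε0
    _ = ε + 2 * ε ^ 2 := by ring

end Crest.Agent.R110
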