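import Crest.Agent.R110.Defs
import Crest.Agent.R110.QuoPI

/-! Row 110: wrappers of `QuoPI.lean` for the frozen predicates. -/

set_option autoImplicit false

universe u

namespace Crest.Agent.R110

variable {E : Type u} [CStarAlgebra E] [PartialOrder E] [StarOrderedRing E]

theorem exists_lift_norm_le {B : Type u} [CStarAlgebra B] (π : E →⋆ₐ[ℂ] B)
    (hπ : Function.Surjective π) (y : B) : ∃ x : E, π x = y ∧ ‖x‖ ≤ ‖y‖ := by
  obtain ⟨x, rfl⟩ := hπ y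
  obtain ⟨w, -, h1, h2⟩ := exists_mul_norm_le π x
  exact ⟨x * w, h1, h2⟩

theorem kill_ct_iff_thr {h : E} (hh : 0 ≤ h) {κ : ℝ} (hκ : 0 ≤ κ) (z : E) :
    Kill (ct κ h) z ↔ Thr h κ z := by
  constructor
  · intro hk Q _ ρ hρ
    exact hk Q ρ ((norm_map_le_iff hh hκ ρ).mp hρ)
  · intro hk Q _ ρ hρ
    exact hk Q ρ ((norm_map_le_iff hh hκ ρ).mpr hρ)

/-- the canonical quotient in which `‖h‖ ≤ κ`. -/
theorem exists_quot_ord (h : E) (hh : 0 ≤ h) (κ : ℝ) (hκ : 0 ≤ κ) :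
    ∃ (B : Type u) (_ : CStarAlgebra B) (_ : PartialOrder B) (_ : StarOrderedRing B)
      (π : E →⋆ₐ[ℂ] B), Function.Surjective π ∧ ‖π h‖ ≤ κ ∧ (∀ z, π z = 0 → Thr h κ z) ∧
      (∀ (Q : Type u) [CStarAlgebra Q] (ρ : E →⋆ₐ[ℂ] Q), ‖ρ h‖ ≤ κ →
        ∃ ρ' : B →⋆ₐ[ℂ] Q, ∀ x, ρ' (π x) = ρ x) := by
  obtain ⟨B, iB, π, hsurj, hn, hker, hfac, -⟩ := exists_quot hh hκ
  refine ⟨B, iB, CStarAlgebra.spectralOrder B, CStarAlgebra.spectralOrderedRing B, π, hsurj, hn,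
    ?_, hfac⟩
  intro z hz Q _ ρ hρ
  have hz' := (hker z).mp hz
  rw [mem_Idl_iff] at hz'
  exact hz' Q ρ ((norm_map_le_iff hh hκ ρ).mp hρ)

theorem approx_of_kill {g z : E} (hg : 0 ≤ g) (hz : 0 ≤ z) (hk : Kill g z) {ε : ℝ} (hε : 0 < ε) :
    ∃ (n : ℕ) (x : Fin n → E), ‖z - ∑ i, star (x i) * g * x i‖ < ε := by
  obtain ⟨n, x, hx⟩ := exists_sum_approx hg hz hk (half_pos hε)
  exact ⟨n, x, by rw [norm_sub_rev]; linarith⟩

theorem copies {I : Set E} (hI : PIIdeal I) {x : E} (hx : x ∈ I) (n : ℕ) {ε : ℝ} (hε : 0 < ε) :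
    ∃ r : Fin n → E, ∀ i j, ‖star (r i) * (star x * x) * r j - if i = j then star x * x else 0‖ < ε :=
  exists_copies (by rw [star_mul, star_star]) (hI.pi x hx) n ε hε

end Crest.Agent.R110
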