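import Crest.Agent.R110.CutRp
import Crest.Agent.R110.QuoPI2
import Crest.Agent.R110.Compare
import Crest.Agent.R110.GapProj

/-!
# R110.GapProj2 : L6, gap implies projection (helper628; core `gap_projection` by helper556)
-/

set_option autoImplicit false

universe u

namespace Crest.Agent.R110

variable {E : Type u} [CStarAlgebra E] [PartialOrder E] [StarOrderedRing E]

theorem gap_proj {I : Set E} (hI : PIIdeal I) {x : E} (hx : 0 ≤ x) (hxI : x ∈ I)
    {κ : ℝ} (hκ : 0 < κ) (gap : Thr x κ x) :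
    ∃ P : E, P * P = P ∧ star P = P ∧ P ∈ I ∧ rp (κ / 16) (κ / 8) x * P = P ∧ Kill P x := by
  have hsa : IsSelfAdjoint x := hx.isSelfAdjoint
  set f : E := rp (κ / 2) κ x with hf
  set g : E := rp (κ / 4) (κ / 2) x with hg
  set e : E := rp (κ / 8) (κ / 4) x with he
  have hfsa : IsSelfAdjoint f := rp_isSelfAdjoint _ _ _
  have hgsa : IsSelfAdjoint g := rp_isSelfAdjoint _ _ _
  have hesa : IsSelfAdjoint e := rp_isSelfAdjoint _ _ _
  have hgf : g * f = f := rp_mul_rp hsa (by linarith) le_rfl (by linarith)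
  have hef : e * f = f := rp_mul_rp hsa (by linarith) (by linarith) (by linarith)
  have heg : e * g = g := rp_mul_rp hsa (by linarith) le_rfl (by linarith)
  have hfg : f * g = f := by
    have := congrArg star hgf
    rwa [star_mul, hfsa.star_eq, hgsa.star_eq] at this
  have hfe : f * e = f := by
    have := congrArg star hef
    rwa [star_mul, hfsa.star_eq, hesa.star_eq] at this
  have hge : g * e = g := by
    have := congrArg star heg
    rwa [star_mul, hgsa.star_eq, hesa.star_eq] at this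
  -- the square root of `1 - f`
  have hc1 : Continuous fun y : ℝ => 1 - ramp (κ / 2) κ y := by fun_prop
  set r : E := cfc (fun y : ℝ => √(1 - ramp (κ / 2) κ y)) x with hr
  have hrsa : IsSelfAdjoint r := cfc_predicate _ _
  have hr0 : 0 ≤ r := cfc_nonneg fun y _ => Real.sqrt_nonneg _
  have hrr : r * r = 1 - f := by
    have h1 : 1 - f = cfc (fun y : ℝ => 1 - ramp (κ / 2) κ y) x := one_sub_cfc hsa (by fun_prop)
    rw [h1, hr]
    exact cfc_sqrt_mul_sqrt hsa hc1 (fun y => by have := ramp_le_one (κ / 2) κ y; linarith)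
  have hru : IsUnit (1 + r) := by
    have h1 : (1 : E) ≤ 1 + r := le_add_of_nonneg_right hr0
    exact CStarAlgebra.isUnit_of_le (1 : E) h1
  -- comparison
  have hfx : Kill (ct κ x) f := by
    rw [kill_ct_iff_thr hx hκ.le]
    intro Q _ ρ hρ
    have h0 := gap Q ρ hρ
    have h1 : ‖ρ x‖ ≤ κ / 2 := by rw [h0, norm_zero]; linarith
    exact (map_rp_eq_zero_iff ρ hx (by linarith) (by linarith)).mpr h1
  obtain ⟨y₁, y₂, c11, c22, c12, -, -, -, -, hys⟩ :=
    comparison hI hsa hxI hκ (rp_nonneg (κ / 2) κ x) hfx (ε := 1 / 8) (by norm_num)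
  obtain ⟨hy1, hy2⟩ := hys (κ / 2) (by linarith)
  rw [← hf] at hy1 hy2 c11 c22
  -- square root of `x`
  obtain ⟨q, hq0, hqq, hqf⟩ : ∃ q : E, IsSelfAdjoint q ∧ q * q = x ∧ f * q = q * f := by
    refine ⟨cfc (fun y : ℝ => √y) x, cfc_predicate _ _, ?_, ?_⟩
    · have h1 : cfc (fun y : ℝ => √y) x * cfc (fun y : ℝ => √y) x = cfc (fun y : ℝ => y) x :=
        cfc_mul_of hsa (by fun_prop) (by fun_prop)
          (fun y hy => Real.mul_self_sqrt (spectrum_nonneg_of_nonneg hx hy))
      rw [h1, cfc_id' ℝ x]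
    · rw [hf]
      unfold rp
      exact cfc_commute_cfc _ _ _
  have hng : ‖g‖ ≤ 1 := norm_rp_le_one _ _ _
  have key : ∀ y z w : E, ‖star y * x * z - w‖ ≤ 1 / 8 → g * w * g = w →
      ‖star (q * y * g) * (q * z * g) - w‖ ≤ 1 / 8 := by
    intro y z w h1 h2
    have e1 : star (q * y * g) * (q * z * g) - w = g * (star y * x * z - w) * g := by
      rw [star_mul, star_mul, hgsa.star_eq, hq0.star_eq, mul_sub, sub_mul, h2, ← hqq]
      simp only [mul_assoc]
    rw [e1]
    calc ‖g * (star y * x * z - w) * g‖ ≤ ‖g‖ * ‖star y * x * z - w‖ * ‖g‖ := by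
          refine (norm_mul_le _ _).trans ?_
          gcongr
          exact norm_mul_le _ _
      _ ≤ 1 * (1 / 8) * 1 := by gcongr
      _ = 1 / 8 := by norm_num
  have hgfg : g * f * g = f := by rw [hgf, hfg]
  have d11 := key y₁ y₁ f c11.le hgfg
  have d22 := key y₂ y₂ f c22.le hgfg
  have d12 := key y₁ y₂ 0 (by rw [sub_zero]; exact c12.le) (by simp)
  rw [sub_zero] at d12
  have hf1 : ∀ y : E, f * y = y → f * (q * y * g) = q * y * g := by
    intro y hy
    calc f * (q * y * g) = (f * q) * y * g := by simp only [mul_assoc]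
      _ = q * (f * y) * g := by rw [hqf]; simp only [mul_assoc]
      _ = q * y * g := by rw [hy]
  obtain ⟨P, hPs, hPP, heP, hPe, hPf⟩ := gap_projection f r e (q * y₁ * g) (q * y₂ * g)
    (ε := 1 / 8) (by norm_num) hfsa.star_eq hrsa.star_eq hrr hru hesa.star_eq hef hfe
    (hf1 y₁ hy1) (hf1 y₂ hy2) (by rw [mul_assoc, hge]) d11 d12 d22
  refine ⟨P, hPP, hPs, ?_, ?_, ?_⟩
  · rw [← heP]
    exact hI.mul_right _ (rp_mem hI hsa hxI (by linarith) (by linarith))
  · have h1 : rp (κ / 16) (κ / 8) x * e = e := rp_mul_rp hsa (by linarith) le_rfl (by linarith)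
    rw [← heP, ← mul_assoc, h1]
  · intro Q _ ρ hρ
    apply gap Q ρ
    have h1 : ‖ρ f‖ < 1 := by
      have h2 : ρ f = -ρ (star (q * y₂ * g) * P * (q * y₂ * g) - f) := by
        rw [map_sub, map_mul, map_mul, hρ]; simp
      rw [h2, norm_neg]
      refine (norm_hom_le ρ _).trans_lt (hPf.trans_lt ?_)
      norm_num
    exact (norm_lt_of_norm_map_rp_lt_one ρ hx (by linarith) (by linarith) h1).le

end Crest.Agent.R110
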