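import Crest.Agent.R110.QuasiCentral

/-!
# R110.QCThr (helper177): quasi-central units in predicate form

`J := {z | every star hom rho with ‖rho h‖ ≤ k kills z}` is a closed two-sided ideal.
-/

set_option autoImplicit false

namespace Crest.Agent.R110

universe u

variable {E : Type u} [CStarAlgebra E] [PartialOrder E] [StarOrderedRing E]

/-- the closed two-sided ideal of all elements killed by the homs satisfying `P`. -/
noncomputable def killIdeal (P : ∀ (Q : Type u) [CStarAlgebra Q], (E →⋆ₐ[ℂ] Q) → Prop) :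
    TwoSidedIdeal E :=
  .mk' {z | ∀ (Q : Type u) [CStarAlgebra Q] (ρ : E →⋆ₐ[ℂ] Q), P Q ρ → ρ z = 0}
    (fun Q _ ρ _ => map_zero ρ)
    (fun {x y} hx hy Q _ ρ h => by rw [map_add, hx Q ρ h, hy Q ρ h, add_zero])
    (fun {x} hx Q _ ρ h => by rw [map_neg, hx Q ρ h, neg_zero])
    (fun {x y} hy Q _ ρ h => by rw [map_mul, hy Q ρ h, mul_zero])
    (fun {x y} hx Q _ ρ h => by rw [map_mul, hx Q ρ h, zero_mul])

theorem mem_killIdeal (P : ∀ (Q : Type u) [CStarAlgebra Q], (E →⋆ₐ[ℂ] Q) → Prop) (z : E) :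
    z ∈ killIdeal P ↔ ∀ (Q : Type u) [CStarAlgebra Q] (ρ : E →⋆ₐ[ℂ] Q), P Q ρ → ρ z = 0 := by
  unfold killIdeal; rw [TwoSidedIdeal.mem_mk']; rfl

theorem isClosed_killIdeal (P : ∀ (Q : Type u) [CStarAlgebra Q], (E →⋆ₐ[ℂ] Q) → Prop) :
    IsClosed ((killIdeal P : TwoSidedIdeal E) : Set E) := by
  have : ((killIdeal P : TwoSidedIdeal E) : Set E)
      = {z | ∀ (Q : Type u) [CStarAlgebra Q] (ρ : E →⋆ₐ[ℂ] Q), P Q ρ → ρ z = 0} := by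
    ext z; exact mem_killIdeal P z
  rw [this]
  simp only [Set.ofPred_forall]
  refine isClosed_iInter fun Q => isClosed_iInter fun _ => isClosed_iInter fun ρ =>
    isClosed_iInter fun _ => ?_
  have hc : Continuous ρ := (AddMonoidHomClass.continuous_of_bound ρ 1 (fun x => by rw [one_mul]; exact NonUnitalStarAlgHom.norm_apply_le ρ x))
  exact isClosed_eq hc continuous_const

/-- **Quasi-central units, predicate form.** -/
theorem exists_quasiCentral_of_kill (P : ∀ (Q : Type u) [CStarAlgebra Q], (E →⋆ₐ[ℂ] Q) → Prop)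
    (X G : Finset E)
    (hG : ∀ j ∈ G, ∀ (Q : Type u) [CStarAlgebra Q] (ρ : E →⋆ₐ[ℂ] Q), P Q ρ → ρ j = 0)
    {ε : ℝ} (hε : 0 < ε) :
    ∃ e : E, (∀ (Q : Type u) [CStarAlgebra Q] (ρ : E →⋆ₐ[ℂ] Q), P Q ρ → ρ e = 0) ∧
      0 ≤ e ∧ e ≤ 1 ∧ (∀ x ∈ X, ‖e * x - x * e‖ ≤ ε) ∧
      ∀ j ∈ G, ‖e * j - j‖ ≤ ε ∧ ‖j * e - j‖ ≤ ε := by
  obtain ⟨e, he, h⟩ := exists_quasiCentral (killIdeal P) (isClosed_killIdeal P) X G
    (fun j hj => (mem_killIdeal P j).mpr (hG j hj)) hε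
  exact ⟨e, (mem_killIdeal P e).mp he, h⟩

/-- Threshold version. -/
theorem exists_quasiCentral_thr (h : E) (k : ℝ) (X G : Finset E)
    (hG : ∀ j ∈ G, ∀ (Q : Type u) [CStarAlgebra Q] (ρ : E →⋆ₐ[ℂ] Q), ‖ρ h‖ ≤ k → ρ j = 0)
    {ε : ℝ} (hε : 0 < ε) :
    ∃ e : E, (∀ (Q : Type u) [CStarAlgebra Q] (ρ : E →⋆ₐ[ℂ] Q), ‖ρ h‖ ≤ k → ρ e = 0) ∧
      0 ≤ e ∧ e ≤ 1 ∧ (∀ x ∈ X, ‖e * x - x * e‖ ≤ ε) ∧
      ∀ j ∈ G, ‖e * j - j‖ ≤ ε ∧ ‖j * e - j‖ ≤ ε :=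
  exists_quasiCentral_of_kill (fun _ _ ρ => ‖ρ h‖ ≤ k) X G hG hε

end Crest.Agent.R110
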