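import Crest.Agent.R110.Defs
import Crest.Agent.R110.Cut
import Crest.Agent.R110.QuoPI
import Crest.Agent.R110.QuasiCentral
import Crest.Agent.R110.QCThr
import Crest.Agent.R110.Dip
import Crest.Agent.R110.Absorb
import Crest.Agent.R110.GapProj

/-! Row 110 (S0145): FROZEN INTERFACE (captain helper137), all statements with `sorry`.
NEVER import this file from a proof that is meant to be final. Each module proves its statements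
verbatim (same names, namespace `Crest.Agent.R110`) in the file given in the comment. -/

set_option autoImplicit false

universe u

namespace Crest.Agent.R110

/-! ## CutRp.lean (helper417): the cut-off elements `rp`, `ct` (Cut.lean is landed: ramp, cut, cfc) -/
section CutRp

variable {E : Type u} [CStarAlgebra E] [PartialOrder E] [StarOrderedRing E]

theorem rp_nonneg (s t : ℝ) (a : E) : 0 ≤ rp s t a := sorry
theorem rp_isSelfAdjoint (s t : ℝ) (a : E) : IsSelfAdjoint (rp s t a) := sorry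
theorem star_rp (s t : ℝ) (a : E) : star (rp s t a) = rp s t a := sorry
theorem rp_le_one (s t : ℝ) (a : E) : rp s t a ≤ 1 := sorry
theorem norm_rp_le_one (s t : ℝ) (a : E) : ‖rp s t a‖ ≤ 1 := sorry
theorem ct_nonneg (κ : ℝ) (a : E) : 0 ≤ ct κ a := sorry

theorem rp_mul_rp {a : E} (ha : IsSelfAdjoint a) {s t s' t' : ℝ} (h1 : s < t) (h2 : t ≤ s')
    (h3 : s' < t') : rp s t a * rp s' t' a = rp s' t' a := sorry

theorem map_rp {Q : Type u} [CStarAlgebra Q] (ρ : E →⋆ₐ[ℂ] Q) {a : E} (ha : IsSelfAdjoint a)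
    (s t : ℝ) : ρ (rp s t a) = rp s t (ρ a) := sorry

theorem map_ct {Q : Type u} [CStarAlgebra Q] (ρ : E →⋆ₐ[ℂ] Q) {a : E} (ha : IsSelfAdjoint a)
    (κ : ℝ) : ρ (ct κ a) = ct κ (ρ a) := sorry

theorem map_nonneg' {Q : Type u} [CStarAlgebra Q] [PartialOrder Q] [StarOrderedRing Q]
    (ρ : E →⋆ₐ[ℂ] Q) {a : E} (ha : 0 ≤ a) : 0 ≤ ρ a := sorry

theorem rp_eq_zero_iff {a : E} (ha : 0 ≤ a) {s t : ℝ} (hs : 0 ≤ s) (h : s < t) :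
    rp s t a = 0 ↔ ‖a‖ ≤ s := sorry

/-- in a quotient: `f_{s,t}(a)` is killed iff `‖ρ a‖ ≤ s`. -/
theorem map_rp_eq_zero_iff {Q : Type u} [CStarAlgebra Q] (ρ : E →⋆ₐ[ℂ] Q) {a : E} (ha : 0 ≤ a)
    {s t : ℝ} (hs : 0 ≤ s) (h : s < t) : ρ (rp s t a) = 0 ↔ ‖ρ a‖ ≤ s := sorry

theorem norm_map_rp_eq_one {Q : Type u} [CStarAlgebra Q] (ρ : E →⋆ₐ[ℂ] Q) {a : E} (ha : 0 ≤ a)
    {s t : ℝ} (hs : 0 ≤ s) (h : s < t) (hn : t ≤ ‖ρ a‖) : ‖ρ (rp s t a)‖ = 1 := sorry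

/-- if `‖f_{s,t}(ρ a)‖ < 1` then `‖ρ a‖ < t`. -/
theorem norm_lt_of_norm_map_rp_lt_one {Q : Type u} [CStarAlgebra Q] (ρ : E →⋆ₐ[ℂ] Q) {a : E}
    (ha : 0 ≤ a) {s t : ℝ} (hs : 0 ≤ s) (h : s < t) (hn : ‖ρ (rp s t a)‖ < 1) : ‖ρ a‖ < t := sorry

theorem ct_eq_zero_iff {a : E} (ha : 0 ≤ a) {κ : ℝ} (hκ : 0 ≤ κ) : ct κ a = 0 ↔ ‖a‖ ≤ κ := sorry

theorem le_of_ct_eq_zero {a : E} (ha : IsSelfAdjoint a) {κ : ℝ} (h : ct κ a = 0) :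
    a ≤ κ • (1 : E) := sorry

/-- `f(a) ∈ I` if `a ∈ I` is selfadjoint and `f` vanishes on `(-∞,s]` for some `s > 0`. -/
theorem cfc_mem {I : Set E} (hI : PIIdeal I) {a : E} (ha : IsSelfAdjoint a) (haI : a ∈ I)
    {f : ℝ → ℝ} (hf : Continuous f) {s : ℝ} (hs : 0 < s) (h0 : ∀ x, x ≤ s → f x = 0) :
    cfc f a ∈ I := sorry

theorem rp_mem {I : Set E} (hI : PIIdeal I) {a : E} (ha : IsSelfAdjoint a) (haI : a ∈ I)
    {s t : ℝ} (hs : 0 < s) (h : s < t) : rp s t a ∈ I := sorry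

/-- square root of a cut-off: `q = √(f_{s,t}(a))`. -/
theorem exists_sqrt_rp {I : Set E} (hI : PIIdeal I) {a : E} (ha : IsSelfAdjoint a) (haI : a ∈ I)
    {s t : ℝ} (hs : 0 < s) (h : s < t) :
    ∃ q : E, 0 ≤ q ∧ ‖q‖ ≤ 1 ∧ q ∈ I ∧ q * q = rp s t a ∧
      (∀ s₀, s₀ < s → rp s₀ s a * q = q) ∧ (0 ≤ a → Thr a s q) := sorry

/-- `‖f_{s,t}(c) x‖ ≤ s⁻¹ ‖c x‖`. -/
theorem norm_rp_mul_le {c : E} (hc : 0 ≤ c) {s t : ℝ} (hs : 0 < s) (h : s < t) (x : E) :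
    ‖rp s t c * x‖ ≤ s⁻¹ * ‖c * x‖ := sorry

/-- absorption passes to cut-offs of an element of the hereditary algebra. -/
theorem mul_rp_of_mul {p c : E} (hc : 0 ≤ c) (hp : p * c = c) {s t : ℝ} (hs : 0 < s) (h : s < t) :
    p * rp s t c = rp s t c := sorry

/-- if `p g = g` with `g` selfadjoint and `g x = x` then `p x = x` (trivial, for reference). -/
theorem absorb_trans {p g x : E} (h1 : p * g = g) (h2 : g * x = x) : p * x = x := sorry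

end CutRp

/-! ## QuoPI2.lean (helper898): wrappers of the landed QuoPI.lean for the frozen predicates -/
section QuoPI

variable {E : Type u} [CStarAlgebra E] [PartialOrder E] [StarOrderedRing E]

theorem exists_lift_norm_le {B : Type u} [CStarAlgebra B] (π : E →⋆ₐ[ℂ] B)
    (hπ : Function.Surjective π) (y : B) : ∃ x : E, π x = y ∧ ‖x‖ ≤ ‖y‖ := sorry

/-- the canonical quotient in which `‖h‖ ≤ κ`. -/
theorem exists_quot_ord (h : E) (hh : 0 ≤ h) (κ : ℝ) (hκ : 0 ≤ κ) :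
    ∃ (B : Type u) (_ : CStarAlgebra B) (_ : PartialOrder B) (_ : StarOrderedRing B)
      (π : E →⋆ₐ[ℂ] B), Function.Surjective π ∧ ‖π h‖ ≤ κ ∧ (∀ z, π z = 0 → Thr h κ z) ∧
      (∀ (Q : Type u) [CStarAlgebra Q] (ρ : E →⋆ₐ[ℂ] Q), ‖ρ h‖ ≤ κ →
        ∃ ρ' : B →⋆ₐ[ℂ] Q, ∀ x, ρ' (π x) = ρ x) := sorry

theorem kill_ct_iff_thr {h : E} (hh : 0 ≤ h) {κ : ℝ} (hκ : 0 ≤ κ) (z : E) :
    Kill (ct κ h) z ↔ Thr h κ z := sorry

theorem approx_of_kill {g z : E} (hg : 0 ≤ g) (hz : 0 ≤ z) (hk : Kill g z) {ε : ℝ} (hε : 0 < ε) :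
    ∃ (n : ℕ) (x : Fin n → E), ‖z - ∑ i, star (x i) * g * x i‖ < ε := sorry

theorem copies {I : Set E} (hI : PIIdeal I) {x : E} (hx : x ∈ I) (n : ℕ) {ε : ℝ} (hε : 0 < ε) :
    ∃ r : Fin n → E, ∀ i j, ‖star (r i) * (star x * x) * r j - if i = j then star x * x else 0‖ < ε :=
  sorry

end QuoPI

/-! ## Compare.lean (helper384): L1, merging, renormalisation, extraction -/
section Compare

variable {E : Type u} [CStarAlgebra E] [PartialOrder E] [StarOrderedRing E]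

/-- L1. -/
theorem comparison {I : Set E} (hI : PIIdeal I) {X : E} (hX : IsSelfAdjoint X) (hXI : X ∈ I)
    {κ : ℝ} (hκ : 0 < κ) {z : E} (hz : 0 ≤ z) (hk : Kill (ct κ X) z) {ε : ℝ} (hε : 0 < ε) :
    ∃ y₁ y₂ : E, ‖star y₁ * X * y₁ - z‖ < ε ∧ ‖star y₂ * X * y₂ - z‖ < ε ∧
      ‖star y₁ * X * y₂‖ < ε ∧ 0 ≤ star y₁ * X * y₁ ∧ 0 ≤ star y₂ * X * y₂ ∧
      ‖y₁‖ ^ 2 ≤ (‖z‖ + ε) / κ ∧ ‖y₂‖ ^ 2 ≤ (‖z‖ + ε) / κ ∧
      (∀ s, s < κ → rp s κ X * y₁ = y₁ ∧ rp s κ X * y₂ = y₂) := sorry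

/-- row merging: `M = T_A T_A⋆ + T_B T_B⋆` (any `0 ≤ M ∈ I`). -/
theorem merge {I : Set E} (hI : PIIdeal I) {M : E} (hM : 0 ≤ M) (hMI : M ∈ I) {κ : ℝ} (hκ : 0 < κ)
    {z : E} (hz : 0 ≤ z) (hk : Thr M κ z) {ε : ℝ} (hε : 0 < ε) :
    ∃ T : E, ‖star T * T - z‖ < ε ∧ T * star T ≤ ((‖z‖ + ε) / κ) • M ∧
      (∀ p : E, p * M = M → p * T = T) := sorry

/-- renormalisation of a full element. -/
theorem renorm {I : Set E} (hI : PIIdeal I) {T : E} (hT : T ∈ I) {κ : ℝ} (hκ : 0 < κ)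
    {z : E} (hz : 0 ≤ z) (hk : Thr (star T * T) κ z) {ε : ℝ} (hε : 0 < ε) :
    ∃ y : E, ‖star (T * y) * (T * y) - z‖ < ε ∧ ‖y‖ ^ 2 ≤ (‖z‖ + ε) / κ := sorry

/-- L3, extraction in its consumer form ("one side is free"). -/
theorem extraction {I : Set E} (hI : PIIdeal I) {α d T v : E} (hα : IsSelfAdjoint α)
    (hαI : α ∈ I) (hv : 0 ≤ v) (hv1 : ‖v‖ ≤ 1) {θ θ' : ℝ} (hθ : 0 < θ) (hθ' : θ < θ')
    (harm : ∀ (Q : Type u) [CStarAlgebra Q] (ρ : E →⋆ₐ[ℂ] Q), ρ v ≠ 0 →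
      ∃ s : Q, ρ α * s = s ∧ ‖star (ρ T) * star (ρ d) * s‖ < θ * ‖s‖)
    {ε : ℝ} (hε : 0 < ε) :
    ∃ y : E, ‖star (α * y) * (α * y) - v‖ < ε ∧ ‖star (α * y) * d * T‖ ≤ θ' := sorry

end Compare

/-! ## QCThr.lean (helper177) is LANDED: `exists_quasiCentral_thr`, `exists_quasiCentral_of_kill`,
`comm_cfc`. Dip.lean (helper741): `exists_dip`. -/

/-! ## Split.lean (helper628): L4 -/
section Split

variable {E : Type u} [CStarAlgebra E] [PartialOrder E] [StarOrderedRing E]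

/-- L4: `T = T12`, `c = b~`. -/
theorem splitting {I : Set E} (hI : PIIdeal I) {b : E} (hb : 0 ≤ b) (hbI : b ∈ I)
    {t₀ t t' : ℝ} (h0 : 0 < t₀) (h1 : t₀ < t) (h2 : t < t') {κ : ℝ} (hκ0 : 0 ≤ κ) (hκ : κ < 1)
    {ε : ℝ} (hε : 0 < ε) :
    ∃ T c : E, 0 ≤ c ∧ c ∈ I ∧ T ∈ I ∧ ‖c * T‖ < ε ∧ ‖star T * T - rp t t' b‖ < ε ∧
      rp t₀ t b * T = T ∧ rp (t₀ / 2) t₀ b * c = c ∧ Thr b t T ∧ Dom c κ b t ∧ Thr b t₀ c := sorry

end Split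

/-! ## GapProj2.lean (helper628 / helper556): L6, wrapper of the landed core `gap_projection` -/
section GapProj

variable {E : Type u} [CStarAlgebra E] [PartialOrder E] [StarOrderedRing E]

theorem gap_proj {I : Set E} (hI : PIIdeal I) {x : E} (hx : 0 ≤ x) (hxI : x ∈ I)
    {κ : ℝ} (hκ : 0 < κ) (gap : Thr x κ x) :
    ∃ P : E, P * P = P ∧ star P = P ∧ P ∈ I ∧ rp (κ / 16) (κ / 8) x * P = P ∧ Kill P x := sorry

end GapProj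

/-! ## OneProj.lean (helper460): T1 -/
section OneProj

variable {E : Type u} [CStarAlgebra E] [PartialOrder E] [StarOrderedRing E]

theorem one_proj {I : Set E} (hI : PIIdeal I) {P b d : E} (hP : P * P = P) (hPs : star P = P)
    (hPI : P ∈ I) (hb : 0 ≤ b) (hbI : b ∈ I) (hd : ‖d‖ ≤ 1) {s t t' : ℝ} (h0 : 0 < s)
    (h1 : s < t) (h2 : t < t') {η : ℝ} (hη : 0 < η) {ε : ℝ} (hε : 0 < ε) :
    ∃ S T : E, P * S = S ∧ ‖star S * S - P‖ < ε ∧ rp (s / 2) s b * T = T ∧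
      ‖star T * T - rp t t' b‖ < ε ∧ ‖star S * d * T‖ ≤ η := sorry

end OneProj

/-! ## Super.lean (helper646 + helper151): SL -/
section Super

/-- SL (superposition). `T₁` is T12; the pair `(S₂,T₂)` is supplied in every quotient in which
`‖S₁⋆S₁‖ ≤ 1/2` (the proof uses only the canonical one from `exists_quot`). Internally:
levels λ₁ = 1/6, λ₂ = 1/3, c = 1/2. -/
theorem superposition {lam θ₁ θ' : ℝ} (h0 : 0 < lam) (h1 : lam < 1) (hθ₁ : 0 ≤ θ₁)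
    (hA : Real.sqrt lam + θ₁ < θ') (hB : 1 - lam < θ' ^ 2) :
    ∃ δ : ℝ, 0 < δ ∧ ∀ (E : Type u) [CStarAlgebra E] [PartialOrder E] [StarOrderedRing E]
      (I : Set E) (_ : PIIdeal I) (α β d v v' w w' S₁ T₁ : E),
      IsSelfAdjoint α → α ∈ I → IsSelfAdjoint β → β ∈ I → ‖d‖ ≤ 1 →
      ‖v‖ ≤ 1 → 0 ≤ v' → ‖v'‖ ≤ 1 →
      (∀ (Q : Type u) [CStarAlgebra Q] (ρ : E →⋆ₐ[ℂ] Q), ρ v' ≠ 0 → 1 ≤ ‖ρ v‖) →
      ‖w‖ ≤ 1 → 0 ≤ w' → ‖w'‖ ≤ 1 →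
      (∀ (Q : Type u) [CStarAlgebra Q] (ρ : E →⋆ₐ[ℂ] Q), ρ w' ≠ 0 → 1 ≤ ‖ρ w‖) →
      ‖S₁‖ ≤ 1 → α * S₁ = S₁ → β * T₁ = T₁ → ‖star S₁ * d * T₁‖ ≤ δ → ‖star T₁ * T₁ - w‖ ≤ δ →
      (∀ (B : Type u) [CStarAlgebra B] [PartialOrder B] [StarOrderedRing B] (π : E →⋆ₐ[ℂ] B),
        Function.Surjective π → ‖π (star S₁ * S₁)‖ ≤ 1 / 2 →
        ∃ S₂ T₂ : B, π α * S₂ = S₂ ∧ π β * T₂ = T₂ ∧ ‖star S₂ * S₂ - π v‖ ≤ δ ∧
          ‖star T₂ * T₂ - π w‖ ≤ δ ∧ ‖star (π T₁) * T₂‖ ≤ δ ∧ ‖star S₂ * π d * T₂‖ ≤ θ₁) →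
      ∀ ε : ℝ, 0 < ε → ∃ S T : E, (∃ y, S = α * y) ∧ (∃ y, T = β * y) ∧
        ‖star S * S - v'‖ < ε ∧ ‖star T * T - w'‖ < ε ∧ ‖star S * d * T‖ ≤ θ' := sorry

end Super

/-! ## Step2.lean (helper793) -/
section Step2

variable {E : Type u} [CStarAlgebra E] [PartialOrder E] [StarOrderedRing E]

theorem step2 {I : Set E} (hI : PIIdeal I) {a b d w : E} (ha : 0 ≤ a) (haI : a ∈ I) (hb : 0 ≤ b)
    (hbI : b ∈ I) (hd : ‖d‖ ≤ 1) (hw : 0 ≤ w) (hw1 : ‖w‖ ≤ 1) {r r₁ r₂ r₃ : ℝ} (h0 : 0 < r)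
    (h1 : r < r₁) (h2 : r₁ < r₂) (h3 : r₂ < r₃) (gap : Dom b (3 / 4) a r)
    (hwb : Thr b (3 / 4) w) {ε : ℝ} (hε : 0 < ε) :
    ∃ S T : E, rp (r / 4) (r / 2) a * S = S ∧ rp (1 / 16) (1 / 8) b * T = T ∧
      ‖star S * S - rp r₂ r₃ a‖ < ε ∧ ‖star T * T - w‖ < ε ∧ ‖star S * d * T‖ ≤ 4 / 5 := sorry

end Step2

/-! ## Step1.lean (helper741) -/
section Step1

variable {E : Type u} [CStarAlgebra E] [PartialOrder E] [StarOrderedRing E]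

theorem step1 {I : Set E} (hI : PIIdeal I) {a b d : E} (ha : 0 ≤ a) (haI : a ∈ I) (hb : 0 ≤ b)
    (hbI : b ∈ I) (hd : ‖d‖ ≤ 1) {r r' t t' : ℝ} (hr : 0 < r) (hr' : r < r') (ht : 0 < t)
    (ht' : t < t') {ε : ℝ} (hε : 0 < ε) :
    ∃ S T : E, rp (r / 64) (r / 32) a * S = S ∧ rp (t / 64) (t / 32) b * T = T ∧
      ‖star S * S - rp r r' a‖ < ε ∧ ‖star T * T - rp t t' b‖ < ε ∧
      ‖star S * d * T‖ ≤ 999 / 1000 := sorry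

end Step1

/-! ## Final.lean (helper476): iteration and S0145 -/
section Final

variable {E : Type u} [CStarAlgebra E] [PartialOrder E] [StarOrderedRing E]

theorem main_pair {I : Set E} (hI : PIIdeal I) (n : ℕ) {a b d : E} (ha : 0 ≤ a) (haI : a ∈ I)
    (hb : 0 ≤ b) (hbI : b ∈ I) (hd : ‖d‖ ≤ 1) {r r' t t' : ℝ} (hr : 0 < r) (hr' : r < r')
    (ht : 0 < t) (ht' : t < t') {ε : ℝ} (hε : 0 < ε) :
    ∃ S T : E, rp (r / 512) (r / 256) a * S = S ∧ rp (t / 512) (t / 256) b * T = T ∧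
      ‖star S * S - rp r r' a‖ < ε ∧ ‖star T * T - rp t t' b‖ < ε ∧
      ‖star S * d * T‖ ≤ (999 / 1000 : ℝ) ^ n := sorry

theorem final_unital {I : Set E} (hI : PIIdeal I) {a b c : E} (ha : 0 ≤ a) (haI : a ∈ I)
    (hb : 0 ≤ b) (hbI : b ∈ I) {ε : ℝ} (hε : 0 < ε) :
    ∃ s t : E, s ∈ I ∧ t ∈ I ∧ ‖star s * a * s - a‖ < ε ∧ ‖star t * b * t - b‖ < ε ∧
      ‖star s * c * t‖ < ε := sorry

end Final

end Crest.Agent.R110
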