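import Mathlib

/-!
# R110.L4Core : computations for the splitting lemma L4 (helper628)
-/

set_option autoImplicit false
set_option linter.unusedSectionVars false
set_option linter.unusedVariables false

open scoped Topology

namespace Crest.Agent.R110.L4C

universe u

section basics

variable {E : Type u} [CStarAlgebra E] [PartialOrder E] [StarOrderedRing E]

/-- piecewise linear cut-off -/
noncomputable def rp (s t : ℝ) (x : ℝ) : ℝ := max 0 (min 1 ((x - s) / (t - s)))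

lemma rp_cont (s t : ℝ) : Continuous (rp s t) := by unfold rp; fun_prop

lemma rp_nonneg (s t x : ℝ) : 0 ≤ rp s t x := le_max_left _ _

lemma rp_le_one (s t x : ℝ) : rp s t x ≤ 1 := max_le zero_le_one (min_le_left _ _)

lemma rp_zero {s t x : ℝ} (hst : s < t) (hx : x ≤ s) : rp s t x = 0 := by
  unfold rp
  apply max_eq_left
  refine (min_le_right _ _).trans ?_
  exact div_nonpos_of_nonpos_of_nonneg (by linarith) (by linarith)

lemma rp_one {s t x : ℝ} (hst : s < t) (hx : t ≤ x) : rp s t x = 1 := by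
  unfold rp
  rw [min_eq_left, max_eq_right zero_le_one]
  rw [le_div_iff₀ (by linarith)]; linarith

lemma spec_nonneg {a : E} (ha : 0 ≤ a) {x : ℝ} (hx : x ∈ spectrum ℝ a) : 0 ≤ x :=
  spectrum_nonneg_of_nonneg ha hx

/-- `f = 1` where `h` lives: `cfc f a * cfc h a = cfc h a`. -/
lemma cfc_absorb {a : E} {f h : ℝ → ℝ} (hf : Continuous f)
    (hh : Continuous h) (hfh : ∀ x ∈ spectrum ℝ a, f x * h x = h x) :
    cfc f a * cfc h a = cfc h a := by
  rw [← cfc_mul f h a hf.continuousOn hh.continuousOn]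
  exact cfc_congr hfh

lemma norm_mul_cfc_sq {x : E} {f : ℝ → ℝ} (hf : Continuous f) {δ : ℝ} (hδ : 0 ≤ δ)
    (hb : ∀ t, 0 ≤ t → |f t * t * f t| ≤ δ) : ‖cfc f (x * star x) * x‖ ^ 2 ≤ δ := by
  set m := x * star x with hm
  have hm0 : 0 ≤ m := mul_star_self_nonneg x
  have hsa : IsSelfAdjoint m := hm0.isSelfAdjoint
  have hg : IsSelfAdjoint (cfc f m) := cfc_predicate _ _
  have h1 : ‖cfc f m * x‖ ^ 2 = ‖cfc f m * m * cfc f m‖ := by
    rw [sq, ← CStarRing.norm_self_mul_star, star_mul, hg.star_eq, hm]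
    simp only [mul_assoc]
  have h2 : cfc f m * m * cfc f m = cfc (fun t => f t * t * f t) m := by
    rw [cfc_mul (fun t => f t * t) f m (by fun_prop) (by fun_prop),
      cfc_mul f (fun t => t) m (by fun_prop) (by fun_prop), cfc_id' ℝ m]
  rw [h1, h2]
  refine norm_cfc_le hδ ?_
  intro t ht
  exact hb t (spec_nonneg hm0 ht)

lemma norm_cfc_le_one {a : E} {f : ℝ → ℝ} (h0 : ∀ x, 0 ≤ f x) (h1 : ∀ x, f x ≤ 1) :
    ‖cfc f a‖ ≤ 1 := by
  refine norm_cfc_le zero_le_one ?_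
  intro x _
  rw [Real.norm_eq_abs, abs_of_nonneg (h0 x)]; exact h1 x

end basics

section core

variable {E : Type u} [CStarAlgebra E] [PartialOrder E] [StarOrderedRing E]
variable (b : E) (t0 t t' k δ : ℝ) (τ₁ τ₂ : E)

/-- `u = f_{t,t'}(b)` -/
noncomputable def uu : E := cfc (rp t t') b
/-- `u^{1/2}` -/
noncomputable def su : E := cfc (fun x => √(rp t t' x)) b
noncomputable def T (τ : E) : E := su b t t' * τ
noncomputable def mm : E := T b t t' τ₁ * star (T b t t' τ₁)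
noncomputable def rr : E := cfc (rp (k * δ) δ) (mm b t t' τ₁)
noncomputable def gg : E := cfc (fun x => 1 - rp (k * δ) δ x) (mm b t t' τ₁)
noncomputable def fl : E := cfc (rp t0 t) b
noncomputable def bt : E :=
  gg b t t' k δ τ₁ * fl b t0 t * gg b t t' k δ τ₁ + (δ⁻¹ : ℝ) • (T b t t' τ₂ * star (T b t t' τ₂))

variable {b t0 t t' k δ τ₁ τ₂}

lemma su_sa : IsSelfAdjoint (su b t t') := cfc_predicate _ _

lemma su_mul_su : su b t t' * su b t t' = uu b t t' := by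
  unfold su uu
  rw [← cfc_mul (fun x => √(rp t t' x)) (fun x => √(rp t t' x)) b
    ((rp_cont t t').sqrt.continuousOn) ((rp_cont t t').sqrt.continuousOn)]
  exact cfc_congr fun x _ => Real.mul_self_sqrt (rp_nonneg _ _ _)

lemma star_T_mul_T (σ τ : E) :
    star (T b t t' σ) * T b t t' τ = star σ * uu b t t' * τ := by
  unfold T
  rw [star_mul, su_sa.star_eq, ← su_mul_su]
  simp only [mul_assoc]

lemma mm_nonneg : 0 ≤ mm b t t' τ₁ := mul_star_self_nonneg _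

lemma gg_sa : IsSelfAdjoint (gg b t t' k δ τ₁) := cfc_predicate _ _

lemma gg_eq (hδ : 0 < δ) (hk : k < 1) : gg b t t' k δ τ₁ = 1 - rr b t t' k δ τ₁ := by
  unfold gg rr
  have hsa : IsSelfAdjoint (mm b t t' τ₁) := mm_nonneg.isSelfAdjoint
  rw [cfc_sub (fun _ : ℝ => (1 : ℝ)) (rp (k * δ) δ) _ (by fun_prop) (rp_cont _ _).continuousOn,
    cfc_const_one ℝ _]

lemma gg_norm : ‖gg b t t' k δ τ₁‖ ≤ 1 :=
  norm_cfc_le_one (fun x => by have := rp_le_one (k * δ) δ x; linarith)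
    (fun x => by have := rp_nonneg (k * δ) δ x; linarith)

lemma fl_norm : ‖fl b t0 t‖ ≤ 1 :=
  norm_cfc_le_one (fun x => rp_nonneg _ _ _) (fun x => rp_le_one _ _ _)

lemma uu_norm : ‖uu b t t'‖ ≤ 1 :=
  norm_cfc_le_one (fun x => rp_nonneg _ _ _) (fun x => rp_le_one _ _ _)

lemma gg_T_sq (hδ : 0 < δ) (hk : k < 1) :
    ‖gg b t t' k δ τ₁ * T b t t' τ₁‖ ^ 2 ≤ δ := by
  unfold gg mm
  refine norm_mul_cfc_sq (by have := rp_cont (k * δ) δ; fun_prop) hδ.le ?_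
  intro x hx
  have hkδ : k * δ < δ := by nlinarith
  have a0 := rp_nonneg (k * δ) δ x
  have a1 := rp_le_one (k * δ) δ x
  rcases le_or_gt δ x with h | h
  · rw [rp_one hkδ h]; simp [hδ.le]
  · have e0 : 0 ≤ 1 - rp (k * δ) δ x := by linarith
    have e1 : 1 - rp (k * δ) δ x ≤ 1 := by linarith
    rw [abs_of_nonneg (by positivity)]
    calc (1 - rp (k * δ) δ x) * x * (1 - rp (k * δ) δ x) ≤ 1 * δ * 1 := by gcongr
      _ = δ := by ring

lemma fl_nonneg : 0 ≤ fl b t0 t := cfc_nonneg fun x _ => rp_nonneg _ _ _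

lemma bt_nonneg (hδ : 0 < δ) : 0 ≤ bt b t0 t t' k δ τ₁ τ₂ := by
  unfold bt
  have h1 : 0 ≤ gg b t t' k δ τ₁ * fl b t0 t * gg b t t' k δ τ₁ := by
    have := star_left_conjugate_nonneg (fl_nonneg (b := b) (t0 := t0) (t := t)) (gg b t t' k δ τ₁)
    rwa [gg_sa.star_eq] at this
  have h2 : 0 ≤ (δ⁻¹ : ℝ) • (T b t t' τ₂ * star (T b t t' τ₂)) :=
    smul_nonneg (by positivity) (mul_star_self_nonneg _)
  exact add_nonneg h1 h2

lemma norm_bt_T {ε₁ : ℝ} (hδ : 0 < δ) (hk : k < 1) (hT : ‖T b t t' τ₂‖ ≤ 2)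
    (h21 : ‖star τ₂ * uu b t t' * τ₁‖ ≤ ε₁) :
    ‖bt b t0 t t' k δ τ₁ τ₂ * T b t t' τ₁‖ ≤ √δ + δ⁻¹ * (2 * ε₁) := by
  unfold bt
  rw [add_mul, smul_mul_assoc]
  refine (norm_add_le _ _).trans (add_le_add ?_ ?_)
  · have h1 : ‖gg b t t' k δ τ₁ * T b t t' τ₁‖ ≤ √δ :=
      Real.le_sqrt_of_sq_le (gg_T_sq hδ hk)
    calc ‖gg b t t' k δ τ₁ * fl b t0 t * gg b t t' k δ τ₁ * T b t t' τ₁‖
        = ‖gg b t t' k δ τ₁ * fl b t0 t * (gg b t t' k δ τ₁ * T b t t' τ₁)‖ := by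
          simp only [mul_assoc]
      _ ≤ ‖gg b t t' k δ τ₁‖ * ‖fl b t0 t‖ * ‖gg b t t' k δ τ₁ * T b t t' τ₁‖ := by
          refine (norm_mul_le _ _).trans ?_
          gcongr
          exact norm_mul_le _ _
      _ ≤ 1 * 1 * √δ := by
          gcongr
          · exact gg_norm
          · exact fl_norm
      _ = √δ := by ring
  · rw [norm_smul, Real.norm_eq_abs, abs_of_nonneg (by positivity), mul_assoc, star_T_mul_T]
    gcongr
    refine (norm_mul_le _ _).trans ?_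
    gcongr

/-- left absorption: everything lives in the hereditary algebra of the cut-off at `t0`. -/
lemma absorb_T {f : ℝ → ℝ} (hf : Continuous f) (h12 : t < t') (h1 : ∀ x, t ≤ x → f x = 1) (τ : E) :
    cfc f b * T b t t' τ = T b t t' τ := by
  unfold T su
  rw [← mul_assoc, cfc_absorb hf (rp_cont t t').sqrt]
  intro x _
  rcases le_or_gt t x with h | h
  · rw [h1 x h, one_mul]
  · rw [rp_zero h12 h.le]; simp

/-- right factor: `rr = mm * (something)` -/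
lemma rr_eq (hk0 : 0 < k) (hk : k < 1) (hδ : 0 < δ) : ∃ w : E, rr b t t' k δ τ₁ =
    T b t t' τ₁ * w := by
  unfold rr
  set m := mm b t t' τ₁ with hm
  have hsa : IsSelfAdjoint m := mm_nonneg.isSelfAdjoint
  have hkδ : k * δ < δ := by nlinarith
  have hkδ0 : 0 < k * δ := by positivity
  have hc : ContinuousOn (fun x : ℝ => rp (k * δ) δ x / max x (k * δ)) (spectrum ℝ m) := by
    refine ContinuousOn.div (rp_cont _ _).continuousOn (by fun_prop) ?_
    intro x _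
    have : k * δ ≤ max x (k * δ) := le_max_right _ _
    exact (hkδ0.trans_le this).ne'
  refine ⟨star (T b t t' τ₁) * cfc (fun x : ℝ => rp (k * δ) δ x / max x (k * δ)) m, ?_⟩
  rw [← mul_assoc]
  change _ = m * _
  have h2 : m * cfc (fun x : ℝ => rp (k * δ) δ x / max x (k * δ)) m =
      cfc (fun x : ℝ => x * (rp (k * δ) δ x / max x (k * δ))) m := by
    rw [cfc_mul (fun x : ℝ => x) (fun x : ℝ => rp (k * δ) δ x / max x (k * δ)) m (by fun_prop) hc,
      cfc_id' ℝ m]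
  rw [h2]
  refine cfc_congr ?_
  intro x _
  rcases le_or_gt x (k * δ) with h | h
  · simp only []
    rw [rp_zero hkδ h]; simp
  · have : max x (k * δ) = x := max_eq_left h.le
    simp only [this]
    have hx : x ≠ 0 := (hkδ0.trans h).ne'
    field_simp

lemma absorb_bt {f : ℝ → ℝ} (hf : Continuous f) (h01 : t0 < t) (h12 : t < t') (hk0 : 0 < k)
    (hk : k < 1) (hδ : 0 < δ) (h1 : ∀ x, t0 ≤ x → f x = 1) :
    cfc f b * bt b t0 t t' k δ τ₁ τ₂ = bt b t0 t t' k δ τ₁ τ₂ := by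
  unfold bt
  have hT : ∀ τ : E, cfc f b * T b t t' τ = T b t t' τ :=
    absorb_T hf h12 (fun x hx => h1 x (by linarith))
  have hfl : cfc f b * fl b t0 t = fl b t0 t := by
    unfold fl
    refine cfc_absorb hf (rp_cont _ _) ?_
    intro x _
    rcases le_or_gt t0 x with h | h
    · rw [h1 x h, one_mul]
    · rw [rp_zero h01 h.le]; simp
  obtain ⟨w, hw⟩ := rr_eq (b := b) (t := t) (t' := t') (τ₁ := τ₁) hk0 hk hδ
  have hrr : cfc f b * rr b t t' k δ τ₁ = rr b t t' k δ τ₁ := by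
    rw [hw, ← mul_assoc, hT]
  rw [mul_add, mul_smul_comm, ← mul_assoc (cfc f b) (T b t t' τ₂), hT]
  congr 1
  rw [gg_eq hδ hk]
  set r := rr b t t' k δ τ₁
  set l := fl b t0 t
  calc cfc f b * ((1 - r) * l * (1 - r)) = (cfc f b * l - (cfc f b * r) * l) * (1 - r) := by
        noncomm_ring
    _ = (1 - r) * l * (1 - r) := by rw [hfl, hrr]; noncomm_ring

/-! ### behaviour under a unital star homomorphism -/

section hom

variable {Q : Type u} [CStarAlgebra Q] (ρ : E →⋆ₐ[ℂ] Q)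

lemma norm_hom_le (x : E) : ‖ρ x‖ ≤ ‖x‖ := NonUnitalStarAlgHom.norm_apply_le ρ x

lemma map_cfc_sa {a : E} (ha : IsSelfAdjoint a) {f : ℝ → ℝ} (hf : Continuous f) :
    ρ (cfc f a) = cfc f (ρ a) :=
  StarAlgHom.map_cfc ρ f a hf.continuousOn
    (AddMonoidHomClass.continuous_of_bound ρ 1 (by simpa using norm_hom_le ρ)) ha (ha.map ρ)

lemma hom_nonneg [PartialOrder Q] [StarOrderedRing Q] {a : E} (ha : 0 ≤ a) : 0 ≤ ρ a := by
  obtain ⟨x, rfl⟩ := CStarAlgebra.nonneg_iff_eq_star_mul_self.mp ha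
  rw [map_mul, map_star]; exact star_mul_self_nonneg _

lemma spec_le_norm {Q : Type u} [CStarAlgebra Q] {a : Q} {x : ℝ}
    (hx : x ∈ spectrum ℝ a) : x ≤ ‖a‖ := by
  rcases subsingleton_or_nontrivial Q with hQ | hQ
  · exact absurd hx (by simp [spectrum.of_subsingleton])
  · have := spectrum.norm_le_norm_of_mem hx
    exact (le_abs_self x).trans (by simpa using this)

theorem hom_fl_le {ε₁ κ' : ℝ} (hb : 0 ≤ b) (h12 : t < t') (hk : k < 1) (hk0 : 0 < k) (hδ : 0 < δ)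
    (hκk : κ' * δ + 2 * ε₁ ≤ k * δ) (h11 : ‖star τ₁ * uu b t t' * τ₁ - uu b t t'‖ ≤ ε₁)
    (h22 : ‖star τ₂ * uu b t t' * τ₂ - uu b t t'‖ ≤ ε₁)
    (hρ : ‖ρ (bt b t0 t t' k δ τ₁ τ₂)‖ ≤ κ') : ‖ρ (fl b t0 t)‖ ≤ κ' := by
  let _ := CStarAlgebra.spectralOrder Q
  have _ := CStarAlgebra.spectralOrderedRing Q
  set g := gg b t t' k δ τ₁ with hg
  set l := fl b t0 t with hl
  set T1 := T b t t' τ₁ with hT1
  set T2 := T b t t' τ₂ with hT2
  set u := uu b t t' with hu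
  have hkδ : k * δ < δ := by nlinarith
  have hb0 : bt b t0 t t' k δ τ₁ τ₂ = g * l * g + (δ⁻¹ : ℝ) • (T2 * star T2) := rfl
  have e1 : ρ (bt b t0 t t' k δ τ₁ τ₂) = ρ (g * l * g) + (δ⁻¹ : ℝ) • (ρ T2 * star (ρ T2)) := by
    rw [hb0, map_add, ← Complex.coe_smul, map_smul, Complex.coe_smul, map_mul ρ T2, map_star]
  have p1 : 0 ≤ ρ (g * l * g) := by
    apply hom_nonneg
    have := star_left_conjugate_nonneg (fl_nonneg (b := b) (t0 := t0) (t := t)) g
    rwa [hg, gg_sa.star_eq] at this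
  have p2 : 0 ≤ (δ⁻¹ : ℝ) • (ρ T2 * star (ρ T2)) :=
    smul_nonneg (by positivity) (mul_star_self_nonneg _)
  -- T2 small
  have n2 : ‖star (ρ T2) * ρ T2‖ ≤ κ' * δ := by
    have h1 : ‖(δ⁻¹ : ℝ) • (ρ T2 * star (ρ T2))‖ ≤ ‖ρ (bt b t0 t t' k δ τ₁ τ₂)‖ :=
      CStarAlgebra.norm_le_norm_of_nonneg_of_le p2 (by rw [e1]; exact le_add_of_nonneg_left p1)
    rw [norm_smul, Real.norm_eq_abs, abs_of_nonneg (by positivity), CStarRing.norm_self_mul_star]
      at h1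
    rw [CStarRing.norm_star_mul_self]
    have h2 := h1.trans hρ
    rw [inv_mul_le_iff₀ hδ] at h2
    linarith
  have nu : ‖ρ u‖ ≤ κ' * δ + ε₁ := by
    have e : ρ u = star (ρ T2) * ρ T2 - ρ (star τ₂ * u * τ₂ - u) := by
      rw [map_sub, ← star_T_mul_T (b := b) (t := t) (t' := t') τ₂ τ₂, map_mul, map_star]; abel
    rw [e]
    refine (norm_sub_le _ _).trans (add_le_add n2 ((norm_hom_le ρ _).trans h22))
  have n1 : ‖star (ρ T1) * ρ T1‖ ≤ k * δ := by
    have e : star (ρ T1) * ρ T1 = ρ u + ρ (star τ₁ * u * τ₁ - u) := by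
      rw [map_sub, ← star_T_mul_T (b := b) (t := t) (t' := t') τ₁ τ₁, map_mul, map_star]; abel
    rw [e]
    have := (norm_add_le (ρ u) (ρ (star τ₁ * u * τ₁ - u))).trans
      (add_le_add nu ((norm_hom_le ρ _).trans h11))
    linarith
  have nm : ‖ρ (mm b t t' τ₁)‖ ≤ k * δ := by
    have e : ρ (mm b t t' τ₁) = ρ T1 * star (ρ T1) := by
      unfold mm; rw [map_mul, map_star]
    rw [e, CStarRing.norm_self_mul_star, ← CStarRing.norm_star_mul_self]; exact n1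
  have hgr : ρ g = 1 := by
    rw [hg, gg_eq hδ hk, map_sub, map_one]
    have : ρ (rr b t t' k δ τ₁) = 0 := by
      unfold rr
      rw [map_cfc_sa ρ mm_nonneg.isSelfAdjoint (rp_cont _ _)]
      rw [← cfc_zero ℝ (ρ (mm b t t' τ₁))]
      refine cfc_congr ?_
      intro x hx
      exact rp_zero hkδ ((spec_le_norm hx).trans nm)
    rw [this, sub_zero]
  have e2 : ρ (g * l * g) = ρ l := by rw [map_mul, map_mul, hgr, one_mul, mul_one]
  have p3 : 0 ≤ ρ l := hom_nonneg ρ fl_nonneg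
  have h5 : ‖ρ l‖ ≤ ‖ρ (bt b t0 t t' k δ τ₁ τ₂)‖ :=
    CStarAlgebra.norm_le_norm_of_nonneg_of_le p3 (by
      rw [e1, e2]; exact le_add_of_nonneg_right p2)
  exact h5.trans hρ

/-- if `‖f_{s,t}(b)‖ < 1` in a quotient then everything supported in `[t, ∞)` vanishes there -/
theorem hom_cfc_zero {s t : ℝ} (hb : IsSelfAdjoint b) (hst : s < t)
    (hρ : ‖ρ (cfc (rp s t) b)‖ < 1) {h : ℝ → ℝ} (hh : Continuous h) (h0 : ∀ x, x ≤ t → h x = 0) :
    ρ (cfc h b) = 0 := by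
  rw [map_cfc_sa ρ hb hh, ← cfc_zero ℝ (ρ b)]
  refine cfc_congr ?_
  intro x hx
  apply h0
  by_contra hcon
  push Not at hcon
  rw [map_cfc_sa ρ hb (rp_cont _ _)] at hρ
  have := norm_apply_le_norm_cfc (rp s t) (ρ b) hx (rp_cont s t).continuousOn (hb.map ρ)
  rw [rp_one hst hcon.le] at this
  simp at this
  linarith

end hom

lemma norm_T_le {ε₁ : ℝ} {τ : E} (h : ‖star τ * uu b t t' * τ - uu b t t'‖ ≤ ε₁) (h1 : ε₁ ≤ 3) :
    ‖T b t t' τ‖ ≤ 2 := by
  have h2 : ‖T b t t' τ‖ * ‖T b t t' τ‖ ≤ 4 := by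
    rw [← CStarRing.norm_star_mul_self, star_T_mul_T]
    have e : star τ * uu b t t' * τ = (star τ * uu b t t' * τ - uu b t t') + uu b t t' := by abel
    rw [e]
    have := (norm_add_le (star τ * uu b t t' * τ - uu b t t') (uu b t t')).trans
      (add_le_add h uu_norm)
    linarith
  nlinarith [norm_nonneg (T b t t' τ)]

/-- **L4, computational form.** -/
theorem l4_core {b : E} (hb : 0 ≤ b) {t0 t t' κ' ε : ℝ} (h01 : t0 < t) (h12 : t < t')
    (hκ0 : 0 < κ') (hκ1 : κ' < 1) (hε : 0 < ε)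
    (hPI : ∀ e : ℝ, 0 < e → ∃ r s : E, ‖star r * uu b t t' * r - uu b t t'‖ < e ∧
      ‖star s * uu b t t' * s - uu b t t'‖ < e ∧ ‖star r * uu b t t' * s‖ < e) :
    ∃ k δ : ℝ, ∃ τ₁ τ₂ : E, 0 < k ∧ k < 1 ∧ 0 < δ ∧
      ‖star (T b t t' τ₁) * T b t t' τ₁ - uu b t t'‖ ≤ ε ∧
      ‖bt b t0 t t' k δ τ₁ τ₂ * T b t t' τ₁‖ ≤ ε ∧
      ∀ (Q : Type u) [CStarAlgebra Q] (ρ : E →⋆ₐ[ℂ] Q),
        ‖ρ (bt b t0 t t' k δ τ₁ τ₂)‖ ≤ κ' → ‖ρ (fl b t0 t)‖ ≤ κ' := by
  set k : ℝ := (κ' + 1) / 2 with hk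
  have hk0 : 0 < k := by rw [hk]; linarith
  have hk1 : k < 1 := by rw [hk]; linarith
  have hkk : κ' < k := by rw [hk]; linarith
  set δ : ℝ := (ε / 2) ^ 2 with hδ
  have hδ0 : 0 < δ := by positivity
  have hsq : √δ = ε / 2 := by rw [hδ]; exact Real.sqrt_sq (by positivity)
  set ε₁ : ℝ := min (min ε 1) (min ((k - κ') * δ / 2) (δ * ε / 4)) with hε₁
  have hε₁0 : 0 < ε₁ := by
    refine lt_min (lt_min hε one_pos) (lt_min ?_ (by positivity))
    have : 0 < k - κ' := by linarith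
    positivity
  have b1 : ε₁ ≤ ε := (min_le_left _ _).trans (min_le_left _ _)
  have b2 : ε₁ ≤ 1 := (min_le_left _ _).trans (min_le_right _ _)
  have b3 : ε₁ ≤ (k - κ') * δ / 2 := (min_le_right _ _).trans (min_le_left _ _)
  have b4 : ε₁ ≤ δ * ε / 4 := (min_le_right _ _).trans (min_le_right _ _)
  obtain ⟨τ₂, τ₁, h22, h11, h21⟩ := hPI ε₁ hε₁0
  refine ⟨k, δ, τ₁, τ₂, hk0, hk1, hδ0, ?_, ?_, ?_⟩
  · rw [star_T_mul_T]; exact h11.le.trans b1
  · refine (norm_bt_T hδ0 hk1 (norm_T_le h22.le (by linarith)) h21.le).trans ?_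
    rw [hsq]
    have : δ⁻¹ * (2 * ε₁) ≤ ε / 2 := by
      rw [inv_mul_le_iff₀ hδ0]; linarith
    linarith
  · intro Q _ ρ hρ
    refine hom_fl_le (ε₁ := ε₁) ρ hb h12 hk1 hk0 hδ0 ?_ h11.le h22.le hρ
    nlinarith

theorem hom_bt_zero {Q : Type u} [CStarAlgebra Q] (ρ : E →⋆ₐ[ℂ] Q) (h01 : t0 < t) (h12 : t < t')
    (hρ : ρ (fl b t0 t) = 0) : ρ (bt b t0 t t' k δ τ₁ τ₂) = 0 := by
  have h1 : fl b t0 t * su b t t' = su b t t' := by
    unfold fl su
    refine cfc_absorb (rp_cont _ _) (rp_cont t t').sqrt ?_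
    intro x _
    rcases le_or_gt t x with h | h
    · rw [rp_one h01 h, one_mul]
    · rw [rp_zero h12 h.le]; simp
  have h2 : ρ (su b t t') = 0 := by rw [← h1, map_mul, hρ, zero_mul]
  unfold bt T
  simp [map_add, map_mul, hρ, h2, ← Complex.coe_smul]

end core

end Crest.Agent.R110.L4C
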