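import Crest.Agent.R110.L4Core

/-!
# R110.L4Raw : the splitting lemma L4, definition-free form (helper628)
-/

set_option autoImplicit false
set_option linter.unusedSectionVars false
set_option linter.unusedVariables false

namespace Crest.Agent.R110.L4C

universe u

variable {E : Type u} [CStarAlgebra E] [PartialOrder E] [StarOrderedRing E]

lemma cfc_factor {b : E} (hb : IsSelfAdjoint b) {f : ℝ → ℝ} (hf : Continuous f) {s : ℝ}
    (hs : 0 < s) (h0 : ∀ x, x ≤ s → f x = 0) : ∃ c : E, cfc f b = b * c := by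
  refine ⟨cfc (fun x : ℝ => f x / max x s) b, ?_⟩
  have hc : Continuous (fun x : ℝ => f x / max x s) := by
    refine hf.div (by fun_prop) ?_
    intro x
    exact (lt_max_of_lt_right hs).ne'
  have h2 : b * cfc (fun x : ℝ => f x / max x s) b = cfc (fun x : ℝ => x * (f x / max x s)) b := by
    rw [cfc_mul (fun x : ℝ => x) (fun x : ℝ => f x / max x s) b (by fun_prop) hc.continuousOn,
      cfc_id' ℝ b]
  rw [h2]
  refine cfc_congr ?_
  intro x _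
  rcases le_or_gt x s with h | h
  · simp only []
    rw [h0 x h]; simp
  · have : max x s = x := max_eq_left h.le
    simp only [this]
    have hx : x ≠ 0 := (hs.trans h).ne'
    field_simp

section core
variable {b : E} {t0 t t' k δ : ℝ} {τ₁ τ₂ : E}

lemma sup_T (h01 : t0 < t) (h12 : t < t') (τ : E) {q : E} (hq : q * fl b t0 t = 0) :
    q * T b t t' τ = 0 := by
  have h1 : fl b t0 t * T b t t' τ = T b t t' τ :=
    absorb_T (rp_cont t0 t) h12 (fun x hx => rp_one h01 hx) τ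
  rw [← h1, ← mul_assoc, hq, zero_mul]

lemma sup_bt (h01 : t0 < t) (h12 : t < t') (hk0 : 0 < k) (hk : k < 1) (hδ : 0 < δ) {q : E}
    (hq : q * fl b t0 t = 0) : q * bt b t0 t t' k δ τ₁ τ₂ = 0 := by
  unfold bt
  obtain ⟨w, hw⟩ := rr_eq (b := b) (t := t) (t' := t') (τ₁ := τ₁) hk0 hk hδ
  have h1 := sup_T (t' := t') h01 h12 τ₁ hq
  have h2 := sup_T (t' := t') h01 h12 τ₂ hq
  rw [mul_add, mul_smul_comm, ← mul_assoc q (T b t t' τ₂), h2, zero_mul, smul_zero, add_zero,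
    gg_eq hδ hk]
  have h3 : q * rr b t t' k δ τ₁ = 0 := by rw [hw, ← mul_assoc, h1, zero_mul]
  set r := rr b t t' k δ τ₁
  set l := fl b t0 t
  calc q * ((1 - r) * l * (1 - r)) = (q * l - (q * r) * l) * (1 - r) := by noncomm_ring
    _ = 0 := by rw [hq, h3]; noncomm_ring

end core

/-- **L4, definition-free form.** -/
theorem l4_raw {I : Set E} (hadd : ∀ {x y : E}, x ∈ I → y ∈ I → x + y ∈ I)
    (hml : ∀ (a : E) {x : E}, x ∈ I → a * x ∈ I) (hmr : ∀ {x : E} (a : E), x ∈ I → x * a ∈ I)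
    {b : E} (hb : 0 ≤ b) (hbI : b ∈ I) {t0 t t' κ ε : ℝ} (h0 : 0 < t0) (h01 : t0 < t) (h12 : t < t')
    (hκ0 : 0 < κ) (hκ1 : κ < 1) (hε : 0 < ε)
    (hPI : ∀ e : ℝ, 0 < e → ∃ r s : E, ‖star r * cfc (rp t t') b * r - cfc (rp t t') b‖ < e ∧
      ‖star s * cfc (rp t t') b * s - cfc (rp t t') b‖ < e ∧ ‖star r * cfc (rp t t') b * s‖ < e) :
    ∃ T₁ b' : E, T₁ ∈ I ∧ b' ∈ I ∧ 0 ≤ b' ∧
      ‖star T₁ * T₁ - cfc (rp t t') b‖ ≤ ε ∧ ‖b' * T₁‖ ≤ ε ∧
      (∀ q : E, q * cfc (rp t0 t) b = 0 → q * T₁ = 0) ∧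
      (∀ q : E, q * cfc (rp t0 t) b = 0 → q * b' = 0) ∧
      (∀ f : ℝ → ℝ, Continuous f → (∀ x, t ≤ x → f x = 1) → cfc f b * T₁ = T₁) ∧
      (∀ f : ℝ → ℝ, Continuous f → (∀ x, t0 ≤ x → f x = 1) → cfc f b * b' = b') ∧
      (∀ (Q : Type u) [CStarAlgebra Q] (ρ : E →⋆ₐ[ℂ] Q), ‖ρ b'‖ ≤ κ →
        ‖ρ (cfc (rp t0 t) b)‖ ≤ κ) ∧
      (∀ (Q : Type u) [CStarAlgebra Q] (ρ : E →⋆ₐ[ℂ] Q), ‖ρ b'‖ ≤ κ →
        ∀ h : ℝ → ℝ, Continuous h → (∀ x, x ≤ t → h x = 0) → ρ (cfc h b) = 0) ∧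
      (∀ (Q : Type u) [CStarAlgebra Q] (ρ : E →⋆ₐ[ℂ] Q), ρ (cfc (rp t0 t) b) = 0 → ρ b' = 0) := by
  obtain ⟨k, δ, τ₁, τ₂, hk0, hk1, hδ, c1, c2, c3⟩ := l4_core hb h01 h12 hκ0 hκ1 hε hPI
  have hsa : IsSelfAdjoint b := hb.isSelfAdjoint
  have mT : ∀ τ : E, T b t t' τ ∈ I := by
    intro τ
    obtain ⟨c, hc⟩ := cfc_factor hsa (f := fun x => √(rp t t' x)) (rp_cont t t').sqrt
      (h0.trans h01) (fun x hx => by rw [rp_zero h12 hx]; simp)
    unfold T su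
    rw [hc, mul_assoc]
    exact hmr _ hbI
  have mfl : fl b t0 t ∈ I := by
    obtain ⟨c, hc⟩ := cfc_factor hsa (f := rp t0 t) (rp_cont _ _) h0
      (fun x hx => rp_zero h01 hx)
    unfold fl
    rw [hc]
    exact hmr _ hbI
  refine ⟨T b t t' τ₁, bt b t0 t t' k δ τ₁ τ₂, mT _, ?_, bt_nonneg hδ, c1, c2,
    fun q hq => sup_T h01 h12 τ₁ hq, fun q hq => sup_bt h01 h12 hk0 hk1 hδ hq,
    fun f hf h1 => absorb_T hf h12 h1 τ₁, fun f hf h1 => absorb_bt hf h01 h12 hk0 hk1 hδ h1,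
    fun Q _ ρ hρ => c3 Q ρ hρ, fun Q _ ρ hρ h hh hh0 => ?_, fun Q _ ρ hρ => hom_bt_zero ρ h01 h12 hρ⟩
  · unfold bt
    refine hadd (hmr _ (hml _ mfl)) ?_
    rw [← smul_mul_assoc, ← one_mul (T b t t' τ₂), ← smul_mul_assoc]
    exact hmr _ (hml _ (mT _))
  · exact hom_cfc_zero ρ hsa h01 ((c3 Q ρ hρ).trans_lt hκ1) hh hh0

/-- consequence of `‖b' * x‖ ≤ ε`: cut-offs of `b'` almost annihilate `x`. -/
lemma norm_cfc_mul_le {b' x : E} (hb : IsSelfAdjoint b') {s ε : ℝ} (hs : 0 < s)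
    (hx : ‖b' * x‖ ≤ ε) {f : ℝ → ℝ} (hf : Continuous f) (h0 : ∀ y, y ≤ s → f y = 0)
    (h1 : ∀ y, |f y| ≤ 1) : ‖cfc f b' * x‖ ≤ ε / s := by
  have hc : Continuous (fun x : ℝ => f x / max x s) := by
    refine hf.div (by fun_prop) ?_
    intro x
    exact (lt_max_of_lt_right hs).ne'
  have h2 : cfc f b' = cfc (fun x : ℝ => f x / max x s) b' * b' := by
    have : cfc (fun x : ℝ => f x / max x s) b' * b' = cfc (fun x : ℝ => (f x / max x s) * x) b' := by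
      rw [cfc_mul (fun x : ℝ => f x / max x s) (fun x : ℝ => x) b' hc.continuousOn (by fun_prop),
        cfc_id' ℝ b']
    rw [this]
    refine cfc_congr ?_
    intro x _
    rcases le_or_gt x s with h | h
    · simp only []
      rw [h0 x h]; simp
    · have : max x s = x := max_eq_left h.le
      simp only [this]
      have hx : x ≠ 0 := (hs.trans h).ne'
      field_simp
  rw [h2, mul_assoc]
  have h3 : ‖cfc (fun x : ℝ => f x / max x s) b'‖ ≤ s⁻¹ := by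
    refine norm_cfc_le (by positivity) ?_
    intro y _
    have hm : 0 < max y s := lt_max_of_lt_right hs
    rw [Real.norm_eq_abs, abs_div, abs_of_pos hm, div_eq_mul_inv]
    calc |f y| * (max y s)⁻¹ ≤ 1 * s⁻¹ := by
          gcongr
          · exact h1 y
          · exact le_max_right _ _
      _ = s⁻¹ := one_mul _
  calc _ ≤ ‖cfc (fun x : ℝ => f x / max x s) b'‖ * ‖b' * x‖ := norm_mul_le _ _
    _ ≤ s⁻¹ * ε := by gcongr
    _ = ε / s := by rw [div_eq_mul_inv, mul_comm]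

end Crest.Agent.R110.L4C
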