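import Mathlib

/-!
# R110.T1Aux : order lemmas for T1
-/

set_option autoImplicit false

namespace Crest.Agent.R110

universe u v

variable {E : Type u} [CStarAlgebra E] [PartialOrder E] [StarOrderedRing E]

/-- `c = P d e`, `‖d‖ ≤ 1`, `P` a projection: `c* c ≤ e* e`. -/
theorem t1_q_le {P d e : E} (hP : star P = P) (hPP : P * P = P) (hd : ‖d‖ ≤ 1) :
    star (P * d * e) * (P * d * e) ≤ star e * e := by
  have hP1 : P ≤ 1 := by
    have h0 : (0 : E) ≤ star (1 - P) * (1 - P) := star_mul_self_nonneg _
    have h1 : star (1 - P) * (1 - P) = 1 - P := by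
      rw [star_sub, star_one, hP]
      have : (1 - P) * (1 - P) = 1 - P - P + P * P := by noncomm_ring
      rw [this, hPP]; abel
    rw [h1] at h0
    exact sub_nonneg.mp h0
  have hdd : star d * d ≤ 1 := by
    rw [← CStarAlgebra.norm_le_one_iff_of_nonneg (star d * d) (star_mul_self_nonneg d),
      CStarRing.norm_star_mul_self]
    nlinarith [norm_nonneg d]
  have e1 : star (P * d * e) * (P * d * e) = star e * (star d * P * d) * e := by
    have : star (P * d * e) * (P * d * e) = star e * (star d * (star P * P) * d) * e := by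
      rw [star_mul, star_mul]; noncomm_ring
    rw [this, hP, hPP]
  rw [e1]
  have h2 : star d * P * d ≤ 1 := by
    have h3 : star d * P * d ≤ star d * 1 * d := star_left_conjugate_le_conjugate hP1 d
    rw [mul_one] at h3
    exact h3.trans hdd
  have h4 := star_left_conjugate_le_conjugate h2 e
  rwa [mul_one] at h4

/-- `TB = e W r`: `r* H r ≤ TB* TB`. -/
theorem t1_TB_ge {e W r q H : E} (hW : star W = W) (hWqW : W * q * W = H)
    (hq : q ≤ star e * e) : star r * H * r ≤ star (e * W * r) * (e * W * r) := by
  have h1 : star (W * r) * q * (W * r) ≤ star (W * r) * (star e * e) * (W * r) :=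
    star_left_conjugate_le_conjugate hq (W * r)
  have h2 : star (W * r) * q * (W * r) = star r * H * r := by
    rw [← hWqW, star_mul, hW]; noncomm_ring
  have h3 : star (W * r) * (star e * e) * (W * r) = star (e * W * r) * (e * W * r) := by
    rw [star_mul, star_mul, star_mul]; noncomm_ring
  rwa [h2, h3] at h1

/-- If `T T* ≤ 5 M` and `β M = M` then `β T = T`. -/
theorem t1_absorb_of_le {β T M : E} (hT : T * star T ≤ (5 : ℝ) • M) (hβ : β * M = M) :
    β * T = T := by
  have h1 := star_right_conjugate_le_conjugate hT (1 - β)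
  have h2 : (1 - β) * ((5 : ℝ) • M) * star (1 - β) = 0 := by
    rw [mul_smul_comm, sub_mul, one_mul, hβ, sub_self, smul_zero, zero_mul]
  rw [h2] at h1
  have h3 : (1 - β) * (T * star T) * star (1 - β) = ((1 - β) * T) * star ((1 - β) * T) := by
    rw [star_mul]; noncomm_ring
  rw [h3] at h1
  have h4 : ((1 - β) * T) * star ((1 - β) * T) = 0 :=
    le_antisymm h1 (mul_star_self_nonneg _)
  have h5 : (1 - β) * T = 0 := by
    rwa [CStarRing.mul_star_self_eq_zero_iff] at h4
  rw [sub_mul, one_mul, sub_eq_zero] at h5
  exact h5.symm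

end Crest.Agent.R110
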