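import Mathlib

/-!
# R110.T1Data : functional calculus data for T1 (one projection side)
-/

set_option autoImplicit false

namespace Crest.Agent.R110

universe u v

variable {E : Type u} [CStarAlgebra E] [PartialOrder E] [StarOrderedRing E]

/-- Functional calculus data of `q = star c * c`: with `h` vanishing on `[0, τ/2]` and `1` on
`[τ, ∞)`, `H = h(q)`, `W = q^{-1/2} h^{1/2}(q)`: `W* q W = H`, `‖c (1 - H)‖² ≤ τ`. -/
theorem t1_calc {c : E} {h : ℝ → ℝ} (hc : Continuous h) (h0 : ∀ x, 0 ≤ h x) (h1 : ∀ x, h x ≤ 1)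
    {τ : ℝ} (hτ : 0 < τ) (hlow : ∀ x, x ≤ τ / 2 → h x = 0) (hhigh : ∀ x, τ ≤ x → h x = 1) :
    ∃ W : E, star W = W ∧ W * (star c * c) * W = cfc h (star c * c) ∧
      ‖c * (1 - cfc h (star c * c))‖ ^ 2 ≤ τ := by
  set q : E := star c * c with hq
  have hq0 : 0 ≤ q := star_mul_self_nonneg c
  have hqsa : IsSelfAdjoint q := IsSelfAdjoint.of_nonneg hq0
  have hspec : ∀ x ∈ spectrum ℝ q, 0 ≤ x := fun x hx => spectrum_nonneg_of_nonneg hq0 hx
  let w : ℝ → ℝ := fun x => (√(max x (τ / 2)))⁻¹ * √(h x)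
  have hmpos : ∀ x : ℝ, 0 < √(max x (τ / 2)) := fun x =>
    Real.sqrt_pos.mpr (lt_of_lt_of_le (by positivity) (le_max_right _ _))
  have hwc : Continuous w := by
    refine Continuous.mul ?_ (Real.continuous_sqrt.comp hc)
    refine Continuous.inv₀ ?_ (fun x => (hmpos x).ne')
    exact Real.continuous_sqrt.comp (continuous_id.max continuous_const)
  refine ⟨cfc w q, ?_, ?_, ?_⟩
  · exact (cfc_predicate w q : IsSelfAdjoint (cfc w q)).star_eq
  · have e1 : cfc w q * q * cfc w q = cfc (fun x => w x * x * w x) q := by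
      rw [cfc_mul (fun x => w x * x) w q (by fun_prop) (by fun_prop),
        cfc_mul w (fun x => x) q (by fun_prop) (by fun_prop), cfc_id' ℝ q]
    rw [e1]
    refine cfc_congr ?_
    intro x hx
    show w x * x * w x = h x
    rcases le_or_gt x (τ / 2) with hx2 | hx2
    · simp [w, hlow x hx2]
    · have hx0 : 0 < x := lt_trans (by positivity) hx2
      have hm : max x (τ / 2) = x := max_eq_left hx2.le
      have hs : √x * √x = x := Real.mul_self_sqrt hx0.le
      have hs2 : √(h x) * √(h x) = h x := Real.mul_self_sqrt (h0 x)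
      have hsx : √x ≠ 0 := (Real.sqrt_pos.mpr hx0).ne'
      simp only [w, hm]
      calc (√x)⁻¹ * √(h x) * x * ((√x)⁻¹ * √(h x))
          = ((√x)⁻¹ * (√x)⁻¹ * x) * (√(h x) * √(h x)) := by ring
        _ = 1 * h x := by
            rw [hs2]; congr 1
            rw [← mul_inv, hs]; exact inv_mul_cancel₀ hx0.ne'
        _ = h x := one_mul _
  · have e0 : (1 : E) - cfc h q = cfc (fun x => 1 - h x) q := by
      rw [cfc_sub (fun _ : ℝ => (1 : ℝ)) h q (by fun_prop) (by fun_prop), cfc_const_one ℝ q]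
    have hsa : star (1 - cfc h q) = 1 - cfc h q := by
      rw [e0]; exact (cfc_predicate _ q : IsSelfAdjoint _).star_eq
    rw [sq, ← CStarRing.norm_star_mul_self, star_mul, hsa]
    have e2 : (1 - cfc h q) * star c * (c * (1 - cfc h q)) = (1 - cfc h q) * q * (1 - cfc h q) := by
      rw [hq]; noncomm_ring
    rw [e2, e0]
    have e3 : cfc (fun x => 1 - h x) q * q * cfc (fun x => 1 - h x) q
        = cfc (fun x => (1 - h x) * x * (1 - h x)) q := by
      rw [cfc_mul (fun x => (1 - h x) * x) (fun x => 1 - h x) q (by fun_prop) (by fun_prop),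
        cfc_mul (fun x => 1 - h x) (fun x => x) q (by fun_prop) (by fun_prop), cfc_id' ℝ q]
    rw [e3]
    refine norm_cfc_le hτ.le ?_
    intro x hx
    have hx0 := hspec x hx
    have a1 : 0 ≤ 1 - h x := by linarith [h1 x]
    have a2 : 1 - h x ≤ 1 := by linarith [h0 x]
    rw [Real.norm_eq_abs, abs_of_nonneg (by positivity)]
    rcases le_or_gt τ x with hx2 | hx2
    · rw [hhigh x hx2]; simp; exact hτ.le
    · calc (1 - h x) * x * (1 - h x) ≤ 1 * x * 1 := by gcongr
        _ ≤ τ := by linarith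

/-- Square root data for the cut-off of `b`. -/
theorem t1_sqrt {b : E} {f : ℝ → ℝ} (hc : Continuous f) (h0 : ∀ x, 0 ≤ f x) (h1 : ∀ x, f x ≤ 1) :
    ∃ e : E, e = cfc (fun x => √(f x)) b ∧ star e = e ∧ 0 ≤ e ∧ ‖e‖ ≤ 1 ∧ e * e = cfc f b := by
  have hcs : Continuous (fun x => √(f x)) := Real.continuous_sqrt.comp hc
  refine ⟨cfc (fun x => √(f x)) b, rfl, ?_, ?_, ?_, ?_⟩
  · exact (cfc_predicate _ b : IsSelfAdjoint _).star_eq
  · exact cfc_nonneg (fun x _ => Real.sqrt_nonneg _)
  · refine norm_cfc_le zero_le_one ?_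
    intro x _
    rw [Real.norm_eq_abs, abs_of_nonneg (Real.sqrt_nonneg _)]
    exact Real.sqrt_le_one.mpr (h1 x)
  · rw [← cfc_mul (fun x => √(f x)) (fun x => √(f x)) b (by fun_prop) (by fun_prop)]
    refine cfc_congr ?_
    intro x _
    exact Real.mul_self_sqrt (h0 x)

end Crest.Agent.R110
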