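import Crest.Agent.R110.T1Core
import Crest.Agent.R110.T1Data
import Crest.Agent.R110.T1Aux

/-!
# R110.T1Asm : T1 (one projection side), relative to row merging and extraction
-/

set_option autoImplicit false

namespace Crest.Agent.R110

universe u

/-- internal cut-off: `0` on `(-∞, τ/2]`, `1` on `[τ, ∞)`. -/
theorem t1_bump {τ : ℝ} (hτ : 0 < τ) : ∃ h : ℝ → ℝ, Continuous h ∧ (∀ x, 0 ≤ h x) ∧
    (∀ x, h x ≤ 1) ∧ (∀ x, x ≤ τ / 2 → h x = 0) ∧ (∀ x, τ ≤ x → h x = 1) := by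
  refine ⟨fun x => max 0 (min 1 ((x - τ / 2) / (τ / 2))), by fun_prop, ?_, ?_, ?_, ?_⟩
  · intro x; exact le_max_left _ _
  · intro x; exact max_le zero_le_one (min_le_left _ _)
  · intro x hx
    have : (x - τ / 2) / (τ / 2) ≤ 0 :=
      div_nonpos_of_nonpos_of_nonneg (by linarith) (by linarith)
    exact max_eq_left ((min_le_right _ _).trans this)
  · intro x hx
    have h0 : 0 < τ / 2 := by linarith
    have : 1 ≤ (x - τ / 2) / (τ / 2) := by rw [le_div_iff₀ h0]; linarith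
    show max 0 (min 1 ((x - τ / 2) / (τ / 2))) = 1
    rw [min_eq_left this]; exact max_eq_right zero_le_one

/-- If `f ≥ 1` on `[t, ∞)`, `g = 0` on `(-∞, t]` and `‖ρ (f b)‖ < 1` then `ρ (g b) = 0`. -/
theorem t1_kill {E : Type u} [CStarAlgebra E] [PartialOrder E] [StarOrderedRing E]
    {Q : Type u} [CStarAlgebra Q] (ρ : E →⋆ₐ[ℂ] Q) {b : E} (hb : 0 ≤ b) {f g : ℝ → ℝ}
    (hf : Continuous f) (hg : Continuous g) {t : ℝ} (hft : ∀ x, t ≤ x → 1 ≤ f x)
    (hgt : ∀ x, x ≤ t → g x = 0) (hn : ‖ρ (cfc f b)‖ < 1) : ρ (cfc g b) = 0 := by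
  have hbs : IsSelfAdjoint b := IsSelfAdjoint.of_nonneg hb
  have hρ : Continuous ρ := by
    refine AddMonoidHomClass.continuous_of_bound ρ 1 (fun x => ?_)
    rw [one_mul]; exact NonUnitalStarAlgHom.norm_apply_le ρ x
  have m1 : ρ (cfc f b) = cfc f (ρ b) :=
    StarAlgHomClass.map_cfc ρ f b hf.continuousOn hρ hbs (hbs.map ρ)
  have m2 : ρ (cfc g b) = cfc g (ρ b) :=
    StarAlgHomClass.map_cfc ρ g b hg.continuousOn hρ hbs (hbs.map ρ)
  rw [m1] at hn
  rw [m2]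
  have key : ∀ x ∈ spectrum ℝ (ρ b), g x = 0 := by
    intro x hx
    apply hgt
    by_contra hcon
    push Not at hcon
    have h1 := norm_apply_le_norm_cfc f (ρ b) hx hf.continuousOn (hbs.map ρ)
    have h2 := hft x hcon.le
    rw [Real.norm_eq_abs] at h1
    have h3 := le_abs_self (f x)
    linarith
  have h0 : cfc g (ρ b) = cfc (fun _ : ℝ => (0 : ℝ)) (ρ b) := cfc_congr key
  rw [h0]
  exact cfc_const_zero ℝ (ρ b)

variable {E : Type u} [CStarAlgebra E] [PartialOrder E] [StarOrderedRing E]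

/-- T1 relative to row merging `RM`, extraction `EX` and proper infiniteness `PI`.
`e` is any element with the killed-support hypothesis `hkill`. -/
theorem t1_assemble {P d e z : E} {η C ε₀ : ℝ}
    (hP : star P = P) (hPP : P * P = P) (hd : ‖d‖ ≤ 1)
    (hC : 0 < C)
    (hkill : ∀ (Q : Type u) [CStarAlgebra Q] (ρ : E →⋆ₐ[ℂ] Q), ‖ρ (e * e)‖ < 1 → ρ z = 0)
    (PI : ∀ (x : E), ∀ ε : ℝ, 0 < ε → ∃ r s : E,
      ‖star r * (star (P * x) * (P * x)) * r - star (P * x) * (P * x)‖ ≤ ε ∧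
      ‖star s * (star (P * x) * (P * x)) * s - star (P * x) * (P * x)‖ ≤ ε ∧
      ‖star r * (star (P * x) * (P * x)) * s‖ ≤ ε)
    (RM : ∀ (A B : E),
      (∀ (Q : Type u) [CStarAlgebra Q] (ρ : E →⋆ₐ[ℂ] Q),
        ‖ρ ((e * A) * star (e * A) + (e * B) * star (e * B))‖ ≤ 1 / 4 → ρ z = 0) →
      ∃ T : E, ‖star T * T - z‖ ≤ ε₀ ∧
        T * star T ≤ (5 : ℝ) • ((e * A) * star (e * A) + (e * B) * star (e * B)))
    (EX : ∀ (T : E),
      (∀ (Q : Type u) [CStarAlgebra Q] (ρ : E →⋆ₐ[ℂ] Q),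
        (∀ s : E, P * s = s → 1 / 2 * ‖ρ s‖ ^ 2 ≤ C * ‖star (ρ T) * star (ρ d) * ρ s‖ ^ 2) →
        ρ P = 0) →
      ∃ S : E, P * S = S ∧ ‖star S * S - P‖ ≤ ε₀ ∧ ‖star S * d * T‖ ≤ η) :
    ∃ S T : E, P * S = S ∧ (∀ β : E, β * e = e → β * T = T) ∧ ‖star S * S - P‖ ≤ ε₀ ∧
      ‖star T * T - z‖ ≤ ε₀ ∧ ‖star S * d * T‖ ≤ η := by
  set τ : ℝ := 1 / (20 * C) with hτdef
  have hτ : 0 < τ := by positivity
  obtain ⟨h, hc, h0, h1, hlow, hhigh⟩ := t1_bump hτ
  obtain ⟨W, hW, hWqW, hTAτ⟩ := t1_calc (c := P * d * e) hc h0 h1 hτ hlow hhigh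
  set q : E := star (P * d * e) * (P * d * e) with hq
  set H : E := cfc h q with hHdef
  have hH0 : 0 ≤ H := cfc_nonneg (fun x _ => h0 x)
  set K : ℝ := 20 * C with hK
  have hK0 : 0 < K := by positivity
  set ε₁ : ℝ := 1 / (K ^ 2 + 2 * K + 8) with hε₁
  have hden : 0 < K ^ 2 + 2 * K + 8 := by positivity
  have hε₁0 : 0 < ε₁ := by positivity
  have hε₁8 : ε₁ ≤ 1 / 8 := by
    rw [hε₁]
    exact one_div_le_one_div_of_le (by norm_num) (by nlinarith)
  have hε₁m : ε₁ * (K ^ 2 + 2 * K + 8) = 1 := by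
    rw [hε₁]; field_simp
  have hsmall : K * (K * ε₁ ^ 2 + 2 * ε₁) < 1 := by
    have h2 : ε₁ ^ 2 ≤ ε₁ := by nlinarith
    have h3 : K * (K * ε₁ ^ 2 + 2 * ε₁) ≤ ε₁ * (K ^ 2 + 2 * K) := by
      have : K * K * ε₁ ^ 2 ≤ K * K * ε₁ := by gcongr
      nlinarith
    nlinarith
  -- the proper infiniteness pair
  have hHx : star (P * (d * e * W)) * (P * (d * e * W)) = H := by
    rw [← hWqW, hq]
    have : P * (d * e * W) = P * d * e * W := by noncomm_ring
    rw [this, star_mul _ W, hW]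
    noncomm_ring
  obtain ⟨r₁, r₂, hr₁, hr₂, hr₁₂⟩ := PI (d * e * W) ε₁ hε₁0
  rw [hHx] at hr₁ hr₂ hr₁₂
  -- order facts
  have hqle : q ≤ star e * e := t1_q_le hP hPP hd
  have hTB : star r₁ * H * r₁ ≤ star (e * (W * r₁)) * (e * (W * r₁)) := by
    have := t1_TB_ge (r := r₁) hW hWqW hqle
    rwa [mul_assoc e W r₁] at this
  -- row merging
  obtain ⟨T, hTz, hTT⟩ := RM (1 - H) (W * r₁) (by
    intro Q _ ρ hρ
    refine hkill Q ρ ?_
    exact t1_cover ρ hε₁8 rfl hr₁ hTB hH0 hρ)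
  -- extraction
  obtain ⟨S, hPS, hSS, hST⟩ := EX T (by
    intro Q _ ρ test
    refine t1_harmless (V := P * d * (e * (W * r₁))) (V2 := P * d * (e * (W * r₂))) (H := H)
      (τ := τ) (ε := ε₁) ρ hP hPP hTT hC hε₁0.le ?_ ?_ rfl ?_ ?_ ?_ ?_ ?_ test
    · rw [hτdef]
      have : 5 * C * (1 / (20 * C)) = 1 / 4 := by field_simp; norm_num
      exact this.le
    · have : P * d * (e * (1 - H)) = P * d * e * (1 - H) := by noncomm_ring
      rw [this]; exact hTAτ
    · have : P * (P * d * (e * (W * r₂))) = P * P * d * (e * (W * r₂)) := by noncomm_ring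
      rw [this, hPP]
    · have : star (P * d * (e * (W * r₁))) * (P * d * (e * (W * r₂)))
          = star r₁ * H * r₂ := by
        rw [← hWqW, hq]
        have e1 : P * d * (e * (W * r₁)) = P * d * e * W * r₁ := by noncomm_ring
        have e2 : P * d * (e * (W * r₂)) = P * d * e * W * r₂ := by noncomm_ring
        rw [e1, e2, star_mul _ r₁, star_mul _ W, hW]
        noncomm_ring
      rw [this]; exact hr₁₂
    · have : star (P * d * (e * (W * r₁))) * (P * d * (e * (W * r₁)))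
          = star r₁ * H * r₁ := by
        rw [← hWqW, hq]
        have e1 : P * d * (e * (W * r₁)) = P * d * e * W * r₁ := by noncomm_ring
        rw [e1, star_mul _ r₁, star_mul _ W, hW]
        noncomm_ring
      rw [this]; exact hr₁
    · have : star (P * d * (e * (W * r₂))) * (P * d * (e * (W * r₂)))
          = star r₂ * H * r₂ := by
        rw [← hWqW, hq]
        have e2 : P * d * (e * (W * r₂)) = P * d * e * W * r₂ := by noncomm_ring
        rw [e2, star_mul _ r₂, star_mul _ W, hW]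
        noncomm_ring
      rw [this]; exact hr₂
    · exact hsmall)
  refine ⟨S, T, hPS, ?_, hSS, hTz, hST⟩
  intro β hβ
  refine t1_absorb_of_le hTT ?_
  have e1 : β * (e * (1 - H) * star (e * (1 - H)) + e * (W * r₁) * star (e * (W * r₁)))
      = (β * e) * (1 - H) * star (e * (1 - H)) + (β * e) * (W * r₁) * star (e * (W * r₁)) := by
    noncomm_ring
  rw [e1, hβ]

end Crest.Agent.R110
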