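import Crest.Agent.R110.Defs
import Crest.Agent.R110.CutRp
import Crest.Agent.R110.Compare
import Crest.Agent.R110.T1Asm

/-!
# R110.OneProj : T1 (one projection side)
-/

set_option autoImplicit false

universe u

namespace Crest.Agent.R110

variable {E : Type u} [CStarAlgebra E] [PartialOrder E] [StarOrderedRing E]

/-- T1: one side is (below) a projection. -/
theorem one_proj {I : Set E} (hI : PIIdeal I) {P b d : E} (hP : P * P = P) (hPs : star P = P)
    (hPI : P ∈ I) (hb : 0 ≤ b) (hbI : b ∈ I) (hd : ‖d‖ ≤ 1) {s t t' : ℝ} (h0 : 0 < s)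
    (h1 : s < t) (h2 : t < t') {η : ℝ} (hη : 0 < η) {ε : ℝ} (hε : 0 < ε) :
    ∃ S T : E, P * S = S ∧ ‖star S * S - P‖ < ε ∧ rp (s / 2) s b * T = T ∧
      ‖star T * T - rp t t' b‖ < ε ∧ ‖star S * d * T‖ ≤ η := by
  have hbs : IsSelfAdjoint b := IsSelfAdjoint.of_nonneg hb
  obtain ⟨e, he0, he1, heI, hee, hes, -⟩ := exists_sqrt_rp hI hbs hbI h0 h1
  have hes' : rp (s / 2) s b * e = e := hes (s / 2) (by linarith)
  set ε' : ℝ := min (ε / 2) (1 / 4) with hε'
  have hε'0 : 0 < ε' := lt_min (by linarith) (by norm_num)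
  have hε'1 : ε' ≤ ε / 2 := min_le_left _ _
  have hε'2 : ε' ≤ 1 / 4 := min_le_right _ _
  have hPsa : IsSelfAdjoint P := hPs
  have hP0 : 0 ≤ P := by
    have : P = star P * P := by rw [hPs, hP]
    rw [this]; exact star_mul_self_nonneg P
  have hP1 : ‖P‖ ≤ 1 := by
    have h3 : ‖P‖ * ‖P‖ = ‖P‖ := by
      rw [← CStarRing.norm_star_mul_self, hPs, hP]
    nlinarith [norm_nonneg P]
  have hC : 0 < 2 / η ^ 2 := by positivity
  obtain ⟨S, T, hPS, hβ, hS, hT, hST⟩ := t1_assemble (P := P) (d := d) (e := e)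
    (z := rp t t' b) (η := η) (C := 2 / η ^ 2) (ε₀ := ε') hPs hP hd hC
    (by
      intro Q _ ρ hρ
      rw [hee] at hρ
      exact t1_kill ρ hb (ramp_continuous s t) (ramp_continuous t t')
        (fun x hx => (ramp_eq_one h1 hx).ge) (fun x hx => ramp_eq_zero h2 hx) hρ)
    (by
      intro x δ hδ
      obtain ⟨r, r', p1, p2, p3⟩ := hI.pi (P * x) (hI.mul_right x hPI) δ hδ
      exact ⟨r, r', p1.le, p2.le, p3.le⟩)
    (by
      intro A B hAB
      have hM0 : 0 ≤ (e * A) * star (e * A) + (e * B) * star (e * B) :=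
        add_nonneg (mul_star_self_nonneg _) (mul_star_self_nonneg _)
      have hMI : (e * A) * star (e * A) + (e * B) * star (e * B) ∈ I :=
        hI.add_mem (hI.mul_right _ (hI.mul_right _ heI)) (hI.mul_right _ (hI.mul_right _ heI))
      obtain ⟨T, t1, t2, -⟩ := merge hI hM0 hMI (κ := 1 / 4) (by norm_num)
        (rp_nonneg t t' b) hAB hε'0
      refine ⟨T, t1.le, t2.trans ?_⟩
      refine smul_le_smul_of_nonneg_right ?_ hM0
      have := norm_rp_le_one t t' b
      rw [div_le_iff₀ (by norm_num)]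
      linarith)
    (by
      intro T hT
      obtain ⟨y, y1, y2⟩ := extraction hI (α := P) (d := d) (T := T) (v := P) hPsa hPI hP0 hP1
        (θ := η / 2) (θ' := η) (by linarith) (by linarith) (by
          intro Q _ ρ hρ
          by_contra hcon
          push Not at hcon
          refine hρ (hT Q ρ ?_)
          intro s hs
          have h3 := hcon (ρ s) (by rw [← map_mul, hs])
          have h4 : (η / 2 * ‖ρ s‖) ^ 2 ≤ ‖star (ρ T) * star (ρ d) * ρ s‖ ^ 2 := by
            gcongr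
          calc 1 / 2 * ‖ρ s‖ ^ 2 = 2 / η ^ 2 * (η / 2 * ‖ρ s‖) ^ 2 := by
                field_simp
            _ ≤ 2 / η ^ 2 * ‖star (ρ T) * star (ρ d) * ρ s‖ ^ 2 := by gcongr) hε'0
      refine ⟨P * y, ?_, y1.le, y2⟩
      rw [← mul_assoc, hP])
  refine ⟨S, T, hPS, ?_, hβ _ hes', ?_, hST⟩
  · exact lt_of_le_of_lt hS (by linarith)
  · exact lt_of_le_of_lt hT (by linarith)

end Crest.Agent.R110
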