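import Crest.Agent.R110.Defs
import Crest.Agent.R110.L4Raw

/-!
# R110.Split : L4, the splitting lemma (helper628)
-/

set_option autoImplicit false

universe u

namespace Crest.Agent.R110

variable {E : Type u} [CStarAlgebra E] [PartialOrder E] [StarOrderedRing E]

/-- L4: `T = T12`, `c = b~`. -/
theorem splitting {I : Set E} (hI : PIIdeal I) {b : E} (hb : 0 ≤ b) (hbI : b ∈ I)
    {t₀ t t' : ℝ} (h0 : 0 < t₀) (h1 : t₀ < t) (h2 : t < t') {κ : ℝ} (hκ0 : 0 ≤ κ) (hκ : κ < 1)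
    {ε : ℝ} (hε : 0 < ε) :
    ∃ T c : E, 0 ≤ c ∧ c ∈ I ∧ T ∈ I ∧ ‖c * T‖ < ε ∧ ‖star T * T - rp t t' b‖ < ε ∧
      rp t₀ t b * T = T ∧ rp (t₀ / 2) t₀ b * c = c ∧ Thr b t T ∧ Dom c κ b t ∧ Thr b t₀ c := by
  have hκ' : 0 < (κ + 1) / 2 := by linarith
  have hκ1 : (κ + 1) / 2 < 1 := by linarith
  have hsa : IsSelfAdjoint b := hb.isSelfAdjoint
  have hε2 : 0 < ε / 2 := by linarith
  -- membership of `√(f_{t,t'}(b))`
  have msu : L4C.su b t t' ∈ I := by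
    obtain ⟨c, hc⟩ := L4C.cfc_factor hsa (f := fun x => √(L4C.rp t t' x)) (L4C.rp_cont t t').sqrt
      (h0.trans h1) (fun x hx => by rw [L4C.rp_zero h2 hx]; simp)
    unfold L4C.su
    rw [hc]
    exact hI.mul_right _ hbI
  have hPI : ∀ e : ℝ, 0 < e → ∃ r s : E,
      ‖star r * L4C.uu b t t' * r - L4C.uu b t t'‖ < e ∧
      ‖star s * L4C.uu b t t' * s - L4C.uu b t t'‖ < e ∧ ‖star r * L4C.uu b t t' * s‖ < e := by
    intro e he
    have := hI.pi _ msu e he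
    rwa [L4C.su_sa.star_eq, L4C.su_mul_su] at this
  obtain ⟨k, δ, τ₁, τ₂, hk0, hk1, hδ, c1, c2, c3⟩ := L4C.l4_core hb h1 h2 hκ' hκ1 hε2 hPI
  have mT : ∀ τ : E, L4C.T b t t' τ ∈ I := fun τ => by
    unfold L4C.T
    exact hI.mul_right _ msu
  have mfl : L4C.fl b t₀ t ∈ I := by
    obtain ⟨c, hc⟩ := L4C.cfc_factor hsa (f := L4C.rp t₀ t) (L4C.rp_cont _ _) h0
      (fun x hx => L4C.rp_zero h1 hx)
    unfold L4C.fl
    rw [hc]
    exact hI.mul_right _ hbI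
  -- vanishing of cut-offs in quotients
  have hvan : ∀ (Q : Type u) [CStarAlgebra Q] (ρ : E →⋆ₐ[ℂ] Q) (s : ℝ) (h : ℝ → ℝ),
      Continuous h → (∀ x, x ≤ s → h x = 0) → ‖ρ b‖ ≤ s → ρ (cfc h b) = 0 := by
    intro Q _ ρ s h hh hh0 hρ
    rw [L4C.map_cfc_sa ρ hsa hh, ← cfc_zero ℝ (ρ b)]
    refine cfc_congr ?_
    intro x hx
    exact hh0 x ((L4C.spec_le_norm hx).trans hρ)
  refine ⟨L4C.T b t t' τ₁, L4C.bt b t₀ t t' k δ τ₁ τ₂, L4C.bt_nonneg hδ, ?_, mT _,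
    c2.trans_lt (by linarith), c1.trans_lt (by linarith), ?_, ?_, ?_, ?_, ?_⟩
  · unfold L4C.bt
    refine hI.add_mem (hI.mul_right _ (hI.mul_left _ mfl)) ?_
    rw [← smul_mul_assoc, ← one_mul (L4C.T b t t' τ₂), ← smul_mul_assoc]
    exact hI.mul_right _ (hI.mul_left _ (mT _))
  · exact L4C.absorb_T (L4C.rp_cont t₀ t) h2 (fun x hx => L4C.rp_one h1 hx) τ₁
  · exact L4C.absorb_bt (L4C.rp_cont (t₀ / 2) t₀) h1 h2 hk0 hk1 hδ
      (fun x hx => L4C.rp_one (by linarith) hx)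
  · intro Q _ ρ hρ
    unfold L4C.T L4C.su
    rw [map_mul, hvan Q ρ t _ (L4C.rp_cont t t').sqrt
      (fun x hx => by rw [L4C.rp_zero h2 hx]; simp) hρ, zero_mul]
  · intro Q _ ρ hρ
    have hlt : ‖ρ (cfc (L4C.rp t₀ t) b)‖ < 1 :=
      (c3 Q ρ (hρ.trans (by linarith))).trans_lt hκ1
    have hz := L4C.hom_cfc_zero ρ hsa h1 hlt (h := fun x => max 0 (x - t)) (by fun_prop)
      (fun x hx => max_eq_left (by linarith))
    let _ := CStarAlgebra.spectralOrder Q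
    have _ := CStarAlgebra.spectralOrderedRing Q
    have hb' : 0 ≤ ρ b := L4C.hom_nonneg ρ hb
    rw [L4C.map_cfc_sa ρ hsa (by fun_prop)] at hz
    by_contra hcon
    push Not at hcon
    have hne : Nontrivial Q := by
      by_contra hnt
      rw [not_nontrivial_iff_subsingleton] at hnt
      have : ρ b = 0 := Subsingleton.elim _ _
      rw [this, norm_zero] at hcon
      linarith
    have hmem : ‖ρ b‖ ∈ spectrum ℝ (ρ b) := CStarAlgebra.norm_mem_spectrum_of_nonneg hb'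
    have h3 := norm_apply_le_norm_cfc (fun x : ℝ => max 0 (x - t)) (ρ b) hmem
      (by fun_prop) (hb'.isSelfAdjoint)
    rw [hz, norm_zero, Real.norm_eq_abs] at h3
    have h4 : (0 : ℝ) < max 0 (‖ρ b‖ - t) := lt_max_of_lt_right (by linarith)
    have := abs_pos.mpr h4.ne'
    linarith
  · intro Q _ ρ hρ
    refine L4C.hom_bt_zero ρ h1 h2 ?_
    unfold L4C.fl
    exact hvan Q ρ t₀ _ (L4C.rp_cont t₀ t) (fun x hx => L4C.rp_zero h1 hx) hρ

end Crest.Agent.R110
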