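import Mathlib

/-!
# R110.SuperAux (helper646) : norm estimates for the superposition lemma
-/

set_option autoImplicit false

open scoped Topology

namespace Crest.Agent.R110.SLAux

universe u v

section gram

variable {E : Type u} [CStarAlgebra E]

/-- The Gram estimate for `T = T₁ p + T₂ q`, `p² + q² = 1`. -/
theorem gram_est (T₁ T₂ x p q j₁ j₂ : E) (hp : IsSelfAdjoint p) (hq : IsSelfAdjoint q)
    (hpq : p * p + q * q = 1) (hp1 : ‖p‖ ≤ 1) (hq1 : ‖q‖ ≤ 1)
    {δ η : ℝ}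
    (h1 : ‖star T₁ * T₁ - x‖ ≤ δ) (h2 : ‖star T₂ * T₂ - x - j₁‖ ≤ δ)
    (h3 : ‖star T₁ * T₂ - j₂‖ ≤ δ)
    (hj1 : ‖j₁ * q‖ ≤ η) (hj2 : ‖j₂ * q‖ ≤ η)
    (hcp : ‖x * p - p * x‖ ≤ η) (hcq : ‖x * q - q * x‖ ≤ η) :
    ‖star (T₁ * p + T₂ * q) * (T₁ * p + T₂ * q) - x‖ ≤ 4 * δ + 5 * η := by
  have hps : star p = p := hp.star_eq
  have hqs : star q = q := hq.star_eq
  set A := p * (star T₁ * T₁ - x) * p with hA
  set B := q * (star T₂ * T₂ - x - j₁) * q with hB
  set D := p * (star T₁ * T₂ - j₂) * q with hD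
  set G := q * (j₁ * q) with hG
  set H := p * (j₂ * q) with hH
  set K := p * (x * p - p * x) with hK
  set L := q * (x * q - q * x) with hL
  have hid : star (T₁ * p + T₂ * q) * (T₁ * p + T₂ * q) - x
      = A + B + D + star D + G + H + star H + K + L := by
    have hx' : x = p * p * x + q * q * x := by
      rw [← add_mul, hpq, one_mul]
    have h0 : star (T₁ * p + T₂ * q) * (T₁ * p + T₂ * q)
        - (A + B + D + star D + G + H + star H + K + L) = p * p * x + q * q * x := by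
      simp only [hA, hB, hD, hG, hH, hK, hL, star_add, star_mul, star_sub, star_star, hps, hqs]
      noncomm_ring
    rw [← hx'] at h0
    rw [sub_eq_iff_eq_add] at h0 ⊢
    rw [h0]; abel
  have hn : ∀ a b y : E, ‖a‖ ≤ 1 → ‖b‖ ≤ 1 → ‖a * y * b‖ ≤ ‖y‖ := by
    intro a b y ha hb
    calc ‖a * y * b‖ ≤ ‖a * y‖ * ‖b‖ := norm_mul_le _ _
      _ ≤ ‖a * y‖ * 1 := by gcongr
      _ ≤ ‖a‖ * ‖y‖ := by rw [mul_one]; exact norm_mul_le _ _
      _ ≤ 1 * ‖y‖ := by gcongr
      _ = ‖y‖ := one_mul _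
  have hn' : ∀ a y : E, ‖a‖ ≤ 1 → ‖a * y‖ ≤ ‖y‖ := by
    intro a y ha
    calc ‖a * y‖ ≤ ‖a‖ * ‖y‖ := norm_mul_le _ _
      _ ≤ 1 * ‖y‖ := by gcongr
      _ = ‖y‖ := one_mul _
  have nA : ‖A‖ ≤ δ := (hn _ _ _ hp1 hp1).trans h1
  have nB : ‖B‖ ≤ δ := (hn _ _ _ hq1 hq1).trans h2
  have nD : ‖D‖ ≤ δ := (hn _ _ _ hp1 hq1).trans h3
  have nD' : ‖star D‖ ≤ δ := by rw [norm_star]; exact nD
  have nG : ‖G‖ ≤ η := (hn' _ _ hq1).trans hj1
  have nH : ‖H‖ ≤ η := (hn' _ _ hp1).trans hj2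
  have nH' : ‖star H‖ ≤ η := by rw [norm_star]; exact nH
  have nK : ‖K‖ ≤ η := (hn' _ _ hp1).trans hcp
  have nL : ‖L‖ ≤ η := (hn' _ _ hq1).trans hcq
  rw [hid]
  calc ‖A + B + D + star D + G + H + star H + K + L‖
      ≤ ‖A‖ + ‖B‖ + ‖D‖ + ‖star D‖ + ‖G‖ + ‖H‖ + ‖star H‖ + ‖K‖ + ‖L‖ := by
        refine (norm_add_le _ _).trans (add_le_add_left ?_ _)
        refine (norm_add_le _ _).trans (add_le_add_left ?_ _)
        refine (norm_add_le _ _).trans (add_le_add_left ?_ _)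
        refine (norm_add_le _ _).trans (add_le_add_left ?_ _)
        refine (norm_add_le _ _).trans (add_le_add_left ?_ _)
        refine (norm_add_le _ _).trans (add_le_add_left ?_ _)
        refine (norm_add_le _ _).trans (add_le_add_left ?_ _)
        exact norm_add_le _ _
    _ ≤ 4 * δ + 5 * η := by linarith

end gram

section order

variable {E : Type u} [CStarAlgebra E] [PartialOrder E] [StarOrderedRing E]

omit [PartialOrder E] [StarOrderedRing E] in
/-- `‖j q‖² ≤ ‖j (1 - w)‖ ‖j‖` when `q² = 1 - w`. -/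
theorem norm_mul_sqrt_sq (j q w : E) (hq : IsSelfAdjoint q) (hqw : q * q = 1 - w) :
    ‖j * q‖ ^ 2 ≤ ‖j - j * w‖ * ‖j‖ := by
  have h1 : ‖j * q‖ ^ 2 = ‖(j * q) * star (j * q)‖ := by
    rw [sq, CStarRing.norm_self_mul_star]
  have h2 : (j * q) * star (j * q) = (j - j * w) * star j := by
    rw [star_mul, hq.star_eq]
    have : j * q * (q * star j) = j * (q * q) * star j := by noncomm_ring
    rw [this, hqw]; noncomm_ring
  rw [h1, h2]
  calc ‖(j - j * w) * star j‖ ≤ ‖j - j * w‖ * ‖star j‖ := norm_mul_le _ _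
    _ = _ := by rw [norm_star]

/-- `‖s q‖² ≤ (1 - l) ‖s‖² + l ‖s - s e₁‖ ‖s‖` when `q² = 1 - w`, `w ≥ l e₁`. -/
theorem norm_mul_sqrt_sq_le (s q w e₁ : E) (hq : IsSelfAdjoint q) (hqw : q * q = 1 - w)
    {l : ℝ} (hl0 : 0 ≤ l) (hl1 : l ≤ 1) (hw : l • e₁ ≤ w) :
    ‖s * q‖ ^ 2 ≤ (1 - l) * ‖s‖ ^ 2 + l * (‖s - s * e₁‖ * ‖s‖) := by
  have h1 : ‖s * q‖ ^ 2 = ‖(s * q) * star (s * q)‖ := by
    rw [sq, CStarRing.norm_self_mul_star]
  have h2 : (s * q) * star (s * q) = s * (1 - w) * star s := by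
    rw [star_mul, hq.star_eq]
    have : s * q * (q * star s) = s * (q * q) * star s := by noncomm_ring
    rw [this, hqw]
  have h3 : s * (1 - w) * star s ≤ s * (1 - l • e₁) * star s :=
    star_right_conjugate_le_conjugate (sub_le_sub_left hw _) s
  have h0 : 0 ≤ s * (1 - w) * star s := by
    rw [← h2]; exact mul_star_self_nonneg _
  have h4 : ‖s * (1 - w) * star s‖ ≤ ‖s * (1 - l • e₁) * star s‖ :=
    CStarAlgebra.norm_le_norm_of_nonneg_of_le h0 h3
  have h5 : s * (1 - l • e₁) * star s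
      = (1 - l) • (s * star s) + l • ((s - s * e₁) * star s) := by
    rw [mul_sub, mul_one, mul_smul_comm, sub_mul, smul_mul_assoc, sub_mul, smul_sub, sub_smul,
      one_smul]
    abel
  rw [h1, h2]
  refine h4.trans ?_
  rw [h5]
  refine (norm_add_le _ _).trans (add_le_add ?_ ?_)
  · rw [norm_smul, Real.norm_eq_abs, abs_of_nonneg (by linarith), CStarRing.norm_self_mul_star, sq]
  · rw [norm_smul, Real.norm_eq_abs, abs_of_nonneg hl0]
    refine mul_le_mul_of_nonneg_left ?_ hl0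
    calc ‖(s - s * e₁) * star s‖ ≤ ‖s - s * e₁‖ * ‖star s‖ := norm_mul_le _ _
      _ = _ := by rw [norm_star]

/-- The estimate of Case I. -/
theorem caseI_est (T₁ T₂ d s p q e₁ w : E) (hp : IsSelfAdjoint p) (hq : IsSelfAdjoint q)
    (hqw : q * q = 1 - w) (hp1 : ‖p‖ ≤ 1)
    {l η δ R : ℝ} (hl0 : 0 ≤ l) (hl1 : l ≤ 1) (hw : l • e₁ ≤ w) (hs : ‖s‖ ≤ 1)
    (hse : ‖s - s * e₁‖ ≤ η) (hd : ‖d‖ ≤ 1) (hT2 : ‖T₂‖ ≤ R)
    (hc : ‖(star T₂ * star d * s) * q - q * (star T₂ * star d * s)‖ ≤ η)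
    (h1 : ‖star T₁ * star d * s‖ ≤ δ) :
    ‖star (T₁ * p + T₂ * q) * star d * s‖ ≤ δ + η + R * Real.sqrt (1 - l + l * η) := by
  have hps : star p = p := hp.star_eq
  have hqs : star q = q := hq.star_eq
  have hη : 0 ≤ η := (norm_nonneg _).trans hse
  have hR : 0 ≤ R := (norm_nonneg _).trans hT2
  have hid : star (T₁ * p + T₂ * q) * star d * s
      = p * (star T₁ * star d * s) - ((star T₂ * star d * s) * q - q * (star T₂ * star d * s))
        + star T₂ * star d * (s * q) := by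
    simp only [star_add, star_mul, hps, hqs]
    noncomm_ring
  have hsq : ‖s * q‖ ≤ Real.sqrt (1 - l + l * η) := by
    apply Real.le_sqrt_of_sq_le
    have h := norm_mul_sqrt_sq_le s q w e₁ hq hqw hl0 hl1 hw
    have hs2 : ‖s‖ ^ 2 ≤ 1 := pow_le_one₀ (norm_nonneg _) hs
    have h3 : ‖s - s * e₁‖ * ‖s‖ ≤ η * 1 := mul_le_mul hse hs (norm_nonneg _) hη
    nlinarith [mul_le_mul_of_nonneg_left h3 hl0, mul_le_mul_of_nonneg_left hs2 (sub_nonneg.2 hl1)]
  rw [hid]
  have n1 : ‖p * (star T₁ * star d * s)‖ ≤ δ := by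
    calc ‖p * (star T₁ * star d * s)‖ ≤ ‖p‖ * ‖star T₁ * star d * s‖ := norm_mul_le _ _
      _ ≤ 1 * δ := by gcongr
      _ = δ := one_mul _
  have n3 : ‖star T₂ * star d * (s * q)‖ ≤ R * Real.sqrt (1 - l + l * η) := by
    calc ‖star T₂ * star d * (s * q)‖ ≤ ‖star T₂ * star d‖ * ‖s * q‖ := norm_mul_le _ _
      _ ≤ (‖star T₂‖ * ‖star d‖) * ‖s * q‖ := by gcongr; exact norm_mul_le _ _
      _ ≤ (R * 1) * Real.sqrt (1 - l + l * η) := by
        rw [norm_star, norm_star]; gcongr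
      _ = _ := by ring
  calc ‖p * (star T₁ * star d * s) - ((star T₂ * star d * s) * q - q * (star T₂ * star d * s))
        + star T₂ * star d * (s * q)‖
      ≤ ‖p * (star T₁ * star d * s)‖
        + ‖(star T₂ * star d * s) * q - q * (star T₂ * star d * s)‖
        + ‖star T₂ * star d * (s * q)‖ :=
        (norm_add_le _ _).trans (add_le_add_left (norm_sub_le _ _) _)
    _ ≤ _ := by linarith

omit [PartialOrder E] [StarOrderedRing E] in
/-- The estimate of Case II. -/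
theorem caseII_est (T₁ T₂ d s p q w : E) (hp : IsSelfAdjoint p) (hq : IsSelfAdjoint q)
    (hpw : p * p = w) (hq1 : ‖q‖ ≤ 1)
    {l θ R₁ R : ℝ} (hw : ‖w‖ ≤ l) (hs : ‖s‖ ≤ R) (hd : ‖d‖ ≤ 1) (hT1 : ‖T₁‖ ≤ R₁)
    (h2 : ‖star T₂ * star d * s‖ ≤ θ) :
    ‖star (T₁ * p + T₂ * q) * star d * s‖ ≤ Real.sqrt l * R₁ * R + θ := by
  have hps : star p = p := hp.star_eq
  have hqs : star q = q := hq.star_eq
  have hR1 : 0 ≤ R₁ := (norm_nonneg _).trans hT1
  have hR : 0 ≤ R := (norm_nonneg _).trans hs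
  have hpn : ‖p‖ ≤ Real.sqrt l := by
    apply Real.le_sqrt_of_sq_le
    rw [sq, ← CStarRing.norm_star_mul_self, hps, hpw]; exact hw
  have hid : star (T₁ * p + T₂ * q) * star d * s
      = p * star T₁ * star d * s + q * (star T₂ * star d * s) := by
    simp only [star_add, star_mul, hps, hqs]
    noncomm_ring
  rw [hid]
  refine (norm_add_le _ _).trans (add_le_add ?_ ?_)
  · calc ‖p * star T₁ * star d * s‖ ≤ ‖p * star T₁ * star d‖ * ‖s‖ := norm_mul_le _ _
      _ ≤ (‖p * star T₁‖ * ‖star d‖) * ‖s‖ := by gcongr; exact norm_mul_le _ _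
      _ ≤ ((‖p‖ * ‖star T₁‖) * ‖star d‖) * ‖s‖ := by gcongr; exact norm_mul_le _ _
      _ ≤ ((Real.sqrt l * R₁) * 1) * R := by
        rw [norm_star, norm_star]; gcongr
      _ = _ := by ring
  · calc ‖q * (star T₂ * star d * s)‖ ≤ ‖q‖ * ‖star T₂ * star d * s‖ := norm_mul_le _ _
      _ ≤ 1 * θ := by gcongr
      _ = θ := one_mul _

end order

section cutvec

/-- the function `ramp k1 k2 t / √t`, made continuous -/
noncomputable def gfun (k1 k2 : ℝ) : ℝ → ℝ :=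
  fun t => max 0 (min 1 ((t - k1) / (k2 - k1))) / Real.sqrt (max k1 t)

theorem gfun_continuous {k1 k2 : ℝ} (hk1 : 0 < k1) : Continuous (gfun k1 k2) := by
  unfold gfun
  refine Continuous.div (by fun_prop) (by fun_prop) ?_
  intro t
  have : 0 < max k1 t := lt_max_of_lt_left hk1
  exact (Real.sqrt_pos.2 this).ne'

theorem gfun_zero {k1 k2 : ℝ} (hk : k1 < k2) {t : ℝ} (ht : t ≤ k1) : gfun k1 k2 t = 0 := by
  unfold gfun
  have h : (t - k1) / (k2 - k1) ≤ 0 := div_nonpos_of_nonpos_of_nonneg (by linarith) (by linarith)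
  have : max 0 (min 1 ((t - k1) / (k2 - k1))) = 0 := by
    apply max_eq_left; exact (min_le_right _ _).trans h
  rw [this, zero_div]

theorem gfun_abs_le {k1 k2 : ℝ} (hk1 : 0 < k1) (t : ℝ) : |gfun k1 k2 t| ≤ 1 / Real.sqrt k1 := by
  unfold gfun
  have hm : 0 < max k1 t := lt_max_of_lt_left hk1
  have h0 : 0 ≤ max 0 (min 1 ((t - k1) / (k2 - k1))) := le_max_left _ _
  have h1 : max 0 (min 1 ((t - k1) / (k2 - k1))) ≤ 1 := max_le (by norm_num) (min_le_left _ _)
  rw [abs_of_nonneg (by positivity)]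
  have h2 : Real.sqrt k1 ≤ Real.sqrt (max k1 t) := Real.sqrt_le_sqrt (le_max_left _ _)
  have h3 : 0 < Real.sqrt k1 := Real.sqrt_pos.2 hk1
  gcongr

theorem gfun_sq_mul_abs_le {k1 k2 : ℝ} (hk1 : 0 < k1) {t : ℝ} (ht : 0 ≤ t) :
    |gfun k1 k2 t * t * gfun k1 k2 t| ≤ 1 := by
  unfold gfun
  have hm : 0 < max k1 t := lt_max_of_lt_left hk1
  set r := max 0 (min 1 ((t - k1) / (k2 - k1))) with hr
  have h0 : 0 ≤ r := le_max_left _ _
  have h1 : r ≤ 1 := max_le (by norm_num) (min_le_left _ _)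
  have h3 : 0 < Real.sqrt (max k1 t) := Real.sqrt_pos.2 hm
  have h4 : r / Real.sqrt (max k1 t) * t * (r / Real.sqrt (max k1 t))
      = r ^ 2 * (t / max k1 t) := by
    have : Real.sqrt (max k1 t) ^ 2 = max k1 t := Real.sq_sqrt hm.le
    field_simp
    rw [this]; ring
  rw [h4, abs_of_nonneg (by positivity)]
  have h5 : t / max k1 t ≤ 1 := (div_le_one hm).2 (le_max_right _ _)
  have h6 : r ^ 2 ≤ 1 := pow_le_one₀ h0 h1
  calc r ^ 2 * (t / max k1 t) ≤ 1 * 1 := by gcongr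
    _ = 1 := one_mul _

theorem gfun_sq_mul {k1 k2 : ℝ} (hk1 : 0 < k1) (hk : k1 < k2) {t : ℝ} (ht : k2 ≤ t) :
    gfun k1 k2 t * t * gfun k1 k2 t = 1 := by
  unfold gfun
  have hr : max 0 (min 1 ((t - k1) / (k2 - k1))) = 1 := by
    have : 1 ≤ (t - k1) / (k2 - k1) := by rw [le_div_iff₀ (by linarith)]; linarith
    rw [min_eq_left this]; simp
  have hm : max k1 t = t := max_eq_right (by linarith)
  have h0 : 0 < t := by linarith
  rw [hr, hm]
  have : Real.sqrt t ^ 2 = t := Real.sq_sqrt h0.le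
  have h3 : 0 < Real.sqrt t := Real.sqrt_pos.2 h0
  field_simp
  rw [this]

/-- Given `S` with `s = S* S` and `0 < k₁ < k₂` there is `g = g(s)` with `S g` a contraction,
killed wherever `‖s‖ ≤ k₁` and of norm one wherever `‖s‖ > k₂`. -/
theorem exists_cut_vec {E : Type u} [CStarAlgebra E]
    (S : E) {k1 k2 : ℝ} (hk1 : 0 < k1) (hk : k1 < k2) :
    ∃ g : E, IsSelfAdjoint g ∧ ‖g‖ ≤ 1 / Real.sqrt k1 ∧ ‖S * g‖ ≤ 1 ∧
      ∀ (Q : Type v) [CStarAlgebra Q] (ρ : E →⋆ₐ[ℂ] Q),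
        (‖ρ (star S * S)‖ ≤ k1 → ρ (S * g) = 0) ∧
        (k2 < ‖ρ (star S * S)‖ → 1 ≤ ‖ρ (S * g)‖) := by
  set s : E := star S * S with hs
  have hsa : IsSelfAdjoint s := IsSelfAdjoint.star_mul_self S
  have hspec : ∀ t ∈ spectrum ℝ s, 0 ≤ t := spectrum_star_mul_self_nonneg
  have hgc := gfun_continuous (k2 := k2) hk1
  set g : E := cfc (gfun k1 k2) s with hg
  have hgsa : IsSelfAdjoint g := cfc_predicate _ _
  have key : ∀ (Q : Type u) [CStarAlgebra Q] (σ : Q), IsSelfAdjoint σ →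
      cfc (gfun k1 k2) σ * σ * cfc (gfun k1 k2) σ
        = cfc (fun t => gfun k1 k2 t * t * gfun k1 k2 t) σ := by
    intro Q _ σ hσ
    rw [cfc_mul (fun t => gfun k1 k2 t * t) (gfun k1 k2) σ (by fun_prop) (by fun_prop),
      cfc_mul (gfun k1 k2) (fun t => t) σ (by fun_prop) (by fun_prop), cfc_id' ℝ σ]
  have key' : ∀ (Q : Type v) [CStarAlgebra Q] (σ : Q), IsSelfAdjoint σ →
      cfc (gfun k1 k2) σ * σ * cfc (gfun k1 k2) σ
        = cfc (fun t => gfun k1 k2 t * t * gfun k1 k2 t) σ := by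
    intro Q _ σ hσ
    rw [cfc_mul (fun t => gfun k1 k2 t * t) (gfun k1 k2) σ (by fun_prop) (by fun_prop),
      cfc_mul (gfun k1 k2) (fun t => t) σ (by fun_prop) (by fun_prop), cfc_id' ℝ σ]
  have hSg : star (S * g) * (S * g) = g * s * g := by
    rw [star_mul, hgsa.star_eq, hs]; noncomm_ring
  refine ⟨g, hgsa, ?_, ?_, ?_⟩
  · refine norm_cfc_le (by positivity) ?_
    intro t _
    rw [Real.norm_eq_abs]; exact gfun_abs_le hk1 t
  · have h1 : ‖S * g‖ * ‖S * g‖ ≤ 1 := by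
      rw [← CStarRing.norm_star_mul_self, hSg, hg, key E s hsa]
      refine norm_cfc_le (by positivity) ?_
      intro t ht
      rw [Real.norm_eq_abs]; exact gfun_sq_mul_abs_le hk1 (hspec t ht)
    nlinarith [norm_nonneg (S * g)]
  · intro Q _ ρ
    have hρsa : IsSelfAdjoint (ρ s) := hsa.map ρ
    have hcont : Continuous ρ :=
      AddMonoidHomClass.continuous_of_bound ρ 1 (by
        simpa only [one_mul] using fun a => NonUnitalStarAlgHom.norm_apply_le ρ a)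
    have hρg : ρ g = cfc (gfun k1 k2) (ρ s) :=
      StarAlgHomClass.map_cfc ρ (gfun k1 k2) s (by fun_prop) hcont hsa hρsa
    refine ⟨?_, ?_⟩
    · intro hle
      rcases subsingleton_or_nontrivial Q with hQ | hQ
      · exact Subsingleton.elim _ _
      have h0 : ρ g = 0 := by
        rw [hρg]
        have : cfc (gfun k1 k2) (ρ s) = cfc (fun _ => (0 : ℝ)) (ρ s) := by
          refine cfc_congr ?_
          intro t ht
          have : ‖t‖ ≤ ‖ρ s‖ := spectrum.norm_le_norm_of_mem ht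
          exact gfun_zero hk ((le_abs_self t).trans (this.trans hle))
        rw [this]; simp
      rw [map_mul, h0, mul_zero]
    · intro hlt
      let _ : PartialOrder Q := CStarAlgebra.spectralOrder Q
      let _ : StarOrderedRing Q := CStarAlgebra.spectralOrderedRing Q
      have hQ : Nontrivial Q := by
        by_contra hne
        rw [not_nontrivial_iff_subsingleton] at hne
        have : ρ s = 0 := Subsingleton.elim _ _
        rw [this, norm_zero] at hlt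
        linarith
      have hpos : 0 ≤ ρ s := by
        rw [hs, map_mul, map_star]; exact star_mul_self_nonneg _
      have hmem : ‖ρ s‖ ∈ spectrum ℝ (ρ s) := CStarAlgebra.norm_mem_spectrum_of_nonneg hpos
      have h1 : ‖ρ (S * g)‖ * ‖ρ (S * g)‖ = ‖cfc (fun t => gfun k1 k2 t * t * gfun k1 k2 t) (ρ s)‖ := by
        rw [← CStarRing.norm_star_mul_self, ← map_star, ← map_mul, hSg, map_mul, map_mul, hρg,
          key' Q (ρ s) hρsa]
      have h2 := norm_apply_le_norm_cfc (fun t => gfun k1 k2 t * t * gfun k1 k2 t) (ρ s) hmem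
        (by fun_prop) hρsa
      rw [gfun_sq_mul hk1 hk hlt.le, ← h1, norm_one] at h2
      nlinarith [norm_nonneg (ρ (S * g))]


end cutvec

end Crest.Agent.R110.SLAux
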