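import Crest.Agent.R110.QCThr
import Crest.Agent.R110.SuperAux

/-!
# R110.SuperPQ (helper646) : the square roots `p = √w`, `q = √(1-w)` and the constants
-/

set_option autoImplicit false

open scoped Topology

universe u

namespace Crest.Agent.R110

namespace SLAux

section construct

variable {E : Type u} [CStarAlgebra E] [PartialOrder E] [StarOrderedRing E]

/-- The square roots used for the superposition. -/
theorem exists_pq (h : E) {k1 k2 : ℝ} (hk : k1 ≤ k2) {l : ℝ} (hl0 : 0 < l) (hl1 : l < 1)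
    (s x y j₁ j₂ : E) (hs1 : ‖s‖ ≤ 1)
    (hs : ∀ (Q : Type u) [CStarAlgebra Q] (ρ : E →⋆ₐ[ℂ] Q), ‖ρ h‖ ≤ k1 → ρ s = 0)
    (hj₁ : ∀ (Q : Type u) [CStarAlgebra Q] (ρ : E →⋆ₐ[ℂ] Q), ‖ρ h‖ ≤ k2 → ρ j₁ = 0)
    (hj₂ : ∀ (Q : Type u) [CStarAlgebra Q] (ρ : E →⋆ₐ[ℂ] Q), ‖ρ h‖ ≤ k2 → ρ j₂ = 0)
    {η : ℝ} (hη : 0 < η) :
    ∃ p q w e₁ : E, IsSelfAdjoint p ∧ IsSelfAdjoint q ∧ p * p = w ∧ q * q = 1 - w ∧ ‖p‖ ≤ 1 ∧
      ‖q‖ ≤ 1 ∧
      ‖j₁ * q‖ ≤ η ∧ ‖j₂ * q‖ ≤ η ∧ ‖x * p - p * x‖ ≤ η ∧ ‖x * q - q * x‖ ≤ η ∧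
      ‖y * q - q * y‖ ≤ η ∧ l • e₁ ≤ w ∧ ‖s - s * e₁‖ ≤ η ∧
      ∀ (Q : Type u) [CStarAlgebra Q] (ρ : E →⋆ₐ[ℂ] Q), ‖ρ h‖ ≤ k2 → ‖ρ w‖ ≤ l := by
  classical
  have hc1 : Continuous fun t : ℝ => Real.sqrt t := by fun_prop
  have hc2 : Continuous fun t : ℝ => Real.sqrt (1 - t) := by fun_prop
  obtain ⟨δ₁, hδ₁, H₁⟩ := comm_cfc.{u} (fun t : ℝ => Real.sqrt t) hc1.continuousOn
    (max ‖x‖ ‖y‖) hη
  obtain ⟨δ₂, hδ₂, H₂⟩ := comm_cfc.{u} (fun t : ℝ => Real.sqrt (1 - t)) hc2.continuousOn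
    (max ‖x‖ ‖y‖) hη
  set η' : ℝ := min (min δ₁ δ₂) (min η (η ^ 2 / (‖j₁‖ + ‖j₂‖ + 1))) with hη'
  have hη'pos : 0 < η' := by positivity
  have a1 : η' ≤ δ₁ := (min_le_left _ _).trans (min_le_left _ _)
  have a2 : η' ≤ δ₂ := (min_le_left _ _).trans (min_le_right _ _)
  have a3 : η' ≤ η := (min_le_right _ _).trans (min_le_left _ _)
  have a4 : η' ≤ η ^ 2 / (‖j₁‖ + ‖j₂‖ + 1) := (min_le_right _ _).trans (min_le_right _ _)
  obtain ⟨e₁, he₁k, he₁0, he₁1, he₁X, he₁G⟩ := exists_quasiCentral_thr h k1 {x, y} {j₁, j₂, s}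
    (by
      intro j hj
      simp only [Finset.mem_insert, Finset.mem_singleton] at hj
      rcases hj with rfl | rfl | rfl
      · intro Q _ ρ hle; exact hj₁ Q ρ (hle.trans hk)
      · intro Q _ ρ hle; exact hj₂ Q ρ (hle.trans hk)
      · intro Q _ ρ hle; exact hs Q ρ hle) hη'pos
  obtain ⟨e₂, he₂k, he₂0, he₂1, he₂X, he₂G⟩ := exists_quasiCentral_thr h k2 {x, y} {j₁, j₂}
    (by
      intro j hj
      simp only [Finset.mem_insert, Finset.mem_singleton] at hj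
      rcases hj with rfl | rfl
      · intro Q _ ρ hle; exact hj₁ Q ρ hle
      · intro Q _ ρ hle; exact hj₂ Q ρ hle) hη'pos
  have hl1' : 0 ≤ 1 - l := by linarith
  set w : E := l • e₁ + (1 - l) • e₂ with hw
  have hw0 : 0 ≤ w := add_nonneg (smul_nonneg hl0.le he₁0) (smul_nonneg hl1' he₂0)
  have hw1 : w ≤ 1 := by
    calc w ≤ l • (1 : E) + (1 - l) • (1 : E) :=
          add_le_add (smul_le_smul_of_nonneg_left he₁1 hl0.le)
            (smul_le_smul_of_nonneg_left he₂1 hl1')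
      _ = 1 := by rw [← add_smul]; simp
  have hwsa : IsSelfAdjoint w := .of_nonneg hw0
  have hspec0 : ∀ t ∈ spectrum ℝ w, 0 ≤ t := fun t ht => spectrum_nonneg_of_nonneg hw0 ht
  have hspec1 : ∀ t ∈ spectrum ℝ w, t ≤ 1 := fun t ht =>
    (le_algebraMap_iff_spectrum_le (r := (1 : ℝ)) (a := w)).mp (by simpa using hw1) t ht
  -- commutators of `w`
  have hwcomm : ∀ z : E, ‖e₁ * z - z * e₁‖ ≤ η' → ‖e₂ * z - z * e₂‖ ≤ η' →
      ‖w * z - z * w‖ ≤ η' := by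
    intro z h1 h2
    have : w * z - z * w = l • (e₁ * z - z * e₁) + (1 - l) • (e₂ * z - z * e₂) := by
      rw [hw, add_mul, mul_add, smul_mul_assoc, smul_mul_assoc, mul_smul_comm, mul_smul_comm,
        smul_sub, smul_sub]
      abel
    rw [this]
    calc ‖l • (e₁ * z - z * e₁) + (1 - l) • (e₂ * z - z * e₂)‖
        ≤ ‖l • (e₁ * z - z * e₁)‖ + ‖(1 - l) • (e₂ * z - z * e₂)‖ := norm_add_le _ _
      _ = l * ‖e₁ * z - z * e₁‖ + (1 - l) * ‖e₂ * z - z * e₂‖ := by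
          rw [norm_smul, norm_smul, Real.norm_eq_abs, Real.norm_eq_abs, abs_of_nonneg hl0.le,
            abs_of_nonneg hl1']
      _ ≤ l * η' + (1 - l) * η' := by gcongr
      _ = η' := by ring
  have hwx : ‖w * x - x * w‖ ≤ η' := hwcomm x (he₁X x (by simp)) (he₂X x (by simp))
  have hwy : ‖w * y - y * w‖ ≤ η' := hwcomm y (he₁X y (by simp)) (he₂X y (by simp))
  have hfix : ∀ j : E, ‖j * e₁ - j‖ ≤ η' → ‖j * e₂ - j‖ ≤ η' → ‖j - j * w‖ ≤ η' := by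
    intro j h1 h2
    have : j - j * w = l • (j - j * e₁) + (1 - l) • (j - j * e₂) := by
      rw [hw, mul_add, mul_smul_comm, mul_smul_comm]
      module
    rw [this]
    calc ‖l • (j - j * e₁) + (1 - l) • (j - j * e₂)‖
        ≤ ‖l • (j - j * e₁)‖ + ‖(1 - l) • (j - j * e₂)‖ := norm_add_le _ _
      _ = l * ‖j - j * e₁‖ + (1 - l) * ‖j - j * e₂‖ := by
          rw [norm_smul, norm_smul, Real.norm_eq_abs, Real.norm_eq_abs, abs_of_nonneg hl0.le,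
            abs_of_nonneg hl1']
      _ ≤ l * η' + (1 - l) * η' := by
          rw [norm_sub_rev j, norm_sub_rev j]; gcongr
      _ = η' := by ring
  have hwj₁ : ‖j₁ - j₁ * w‖ ≤ η' := hfix j₁ (he₁G j₁ (by simp)).2 (he₂G j₁ (by simp)).2
  have hwj₂ : ‖j₂ - j₂ * w‖ ≤ η' := hfix j₂ (he₁G j₂ (by simp)).2 (he₂G j₂ (by simp)).2
  set p : E := cfc (fun t : ℝ => Real.sqrt t) w with hp
  set q : E := cfc (fun t : ℝ => Real.sqrt (1 - t)) w with hq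
  have hpp : p * p = w := by
    rw [hp, ← cfc_mul _ _ w (by fun_prop) (by fun_prop)]
    conv_rhs => rw [← cfc_id' ℝ w]
    exact cfc_congr fun t ht => Real.mul_self_sqrt (hspec0 t ht)
  have hqq : q * q = 1 - w := by
    rw [hq, ← cfc_mul _ _ w (by fun_prop) (by fun_prop)]
    have : (1 : E) - w = cfc (fun t : ℝ => 1 - t) w := by
      rw [cfc_sub (fun _ : ℝ => (1 : ℝ)) (fun t => t) w (by fun_prop) (by fun_prop), cfc_id' ℝ w,
        cfc_const_one ℝ w]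
    rw [this]
    exact cfc_congr fun t ht => Real.mul_self_sqrt (by linarith [hspec1 t ht])
  have hpsa : IsSelfAdjoint p := cfc_predicate _ _
  have hqsa : IsSelfAdjoint q := cfc_predicate _ _
  have hp1 : ‖p‖ ≤ 1 := norm_cfc_le (by norm_num) fun t ht => by
    rw [Real.norm_eq_abs, abs_of_nonneg (Real.sqrt_nonneg _)]
    exact Real.sqrt_le_one.mpr (hspec1 t ht)
  have hq1 : ‖q‖ ≤ 1 := norm_cfc_le (by norm_num) fun t ht => by
    rw [Real.norm_eq_abs, abs_of_nonneg (Real.sqrt_nonneg _)]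
    exact Real.sqrt_le_one.mpr (by linarith [hspec0 t ht])
  have hjq : ∀ j : E, ‖j‖ ≤ ‖j₁‖ + ‖j₂‖ → ‖j - j * w‖ ≤ η' → ‖j * q‖ ≤ η := by
    intro j hjn hj
    have h1 := norm_mul_sqrt_sq j q w hqsa hqq
    have h2 : ‖j - j * w‖ * ‖j‖ ≤ η ^ 2 := by
      calc ‖j - j * w‖ * ‖j‖ ≤ (η ^ 2 / (‖j₁‖ + ‖j₂‖ + 1)) * (‖j₁‖ + ‖j₂‖ + 1) := by
            refine mul_le_mul (hj.trans a4) (hjn.trans (by linarith)) (norm_nonneg _)
              (by positivity)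
        _ = η ^ 2 := by field_simp
    exact le_of_sq_le_sq (h1.trans h2) hη.le
  refine ⟨p, q, w, e₁, hpsa, hqsa, hpp, hqq, hp1, hq1,
    hjq j₁ (by linarith [norm_nonneg j₂]) hwj₁, hjq j₂ (by linarith [norm_nonneg j₁]) hwj₂,
    ?_, ?_, ?_, ?_, ?_, ?_⟩
  · rw [norm_sub_rev]
    exact H₁ E w x hw0 hw1 (le_max_left _ _) (hwx.trans a1)
  · rw [norm_sub_rev]
    exact H₂ E w x hw0 hw1 (le_max_left _ _) (hwx.trans a2)
  · rw [norm_sub_rev]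
    exact H₂ E w y hw0 hw1 (le_max_right _ _) (hwy.trans a2)
  · rw [hw]; exact le_add_of_nonneg_right (smul_nonneg hl1' he₂0)
  · rw [norm_sub_rev]; exact ((he₁G s (by simp)).2).trans a3
  · intro Q _ ρ hle
    have hsm : ∀ (c : ℝ) (z : E), ρ (c • z) = c • ρ z := by
      intro c z
      rw [← Complex.coe_smul c z, map_smul, Complex.coe_smul]
    rw [hw, map_add, hsm, hsm, he₂k Q ρ hle, smul_zero, add_zero, norm_smul,
      Real.norm_eq_abs, abs_of_nonneg hl0.le]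
    have : ‖ρ e₁‖ ≤ 1 :=
      (NonUnitalStarAlgHom.norm_apply_le ρ e₁).trans (norm_le_one_of_nonneg_of_le_one he₁0 he₁1)
    nlinarith

end construct

/-- The choice of the input error `δ`. -/
theorem exists_delta {l θ₁ θa θb θ' : ℝ}
    (hθb : 0 < θb) (h1 : Real.sqrt l + θ₁ < θa) (h2 : Real.sqrt (1 - l) < θa) (h3 : θb < θ') :
    ∃ δ : ℝ, 0 < δ ∧ δ < 1 / 10 ∧
      δ * (1 / Real.sqrt (1 / 6)) + δ + (1 + δ) * Real.sqrt (1 - l + l * δ) < θa ∧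
      θ₁ < (θa - Real.sqrt l * (1 + δ)) * (1 - δ) ∧
      θb ^ 2 * (1 + δ) < θ' ^ 2 * (1 - 10 * δ) := by
  have e1 : ∀ᶠ δ : ℝ in 𝓝 0,
      δ * (1 / Real.sqrt (1 / 6)) + δ + (1 + δ) * Real.sqrt (1 - l + l * δ) < θa := by
    have hc : Continuous fun δ : ℝ =>
      δ * (1 / Real.sqrt (1 / 6)) + δ + (1 + δ) * Real.sqrt (1 - l + l * δ) := by fun_prop
    refine (hc.tendsto 0).eventually_lt_const ?_
    simpa using h2
  have e2 : ∀ᶠ δ : ℝ in 𝓝 0, θ₁ < (θa - Real.sqrt l * (1 + δ)) * (1 - δ) := by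
    have hc : Continuous fun δ : ℝ => (θa - Real.sqrt l * (1 + δ)) * (1 - δ) := by fun_prop
    refine (hc.tendsto 0).eventually_const_lt ?_
    simp only [add_zero, mul_one, sub_zero]; linarith
  have e3 : ∀ᶠ δ : ℝ in 𝓝 0, 0 < θ' ^ 2 * (1 - 10 * δ) - θb ^ 2 * (1 + δ) := by
    have hc : Continuous fun δ : ℝ => θ' ^ 2 * (1 - 10 * δ) - θb ^ 2 * (1 + δ) := by fun_prop
    refine (hc.tendsto 0).eventually_const_lt ?_
    simp only [mul_zero, sub_zero, mul_one, add_zero]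
    nlinarith
  have e4 : ∀ᶠ δ : ℝ in 𝓝 0, δ < 1 / 10 := eventually_lt_nhds (by norm_num)
  have e5 : ∀ᶠ δ : ℝ in 𝓝[>] 0, (_ ∧ _) ∧ 0 < δ :=
    ((e1.and (e2.and (e3.and e4))).filter_mono nhdsWithin_le_nhds).and self_mem_nhdsWithin
  obtain ⟨δ, ⟨g1, g2, g3, g4⟩, g5⟩ := e5.exists
  exact ⟨δ, g5, g4, g1, g2, by linarith⟩

theorem real1 {n δ : ℝ} (hn : 0 ≤ n) (hδ : 0 < δ) (h : n * n ≤ 1 + δ) : n ≤ 1 + δ := by
  nlinarith

theorem real2 {a n : ℝ} (ha : 0 < a) (hn : 1 ≤ n) : a ≤ a * n := by nlinarith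

theorem real3 {r n δ : ℝ} (hn : 0 ≤ n) (hδ : 0 < δ) (h1 : 1 ≤ r)
    (h2 : r ≤ n * n + δ) : 1 - δ ≤ n := by
  by_contra hlt
  push Not at hlt
  nlinarith

theorem real4 {a b n θ δ : ℝ} (hδ : 0 < δ) (hδ1 : δ < 1 / 10) (hθ : 0 ≤ θ) (hn : 1 - δ ≤ n)
    (h : θ < (a - b * (1 + δ)) * (1 - δ)) : b * (1 + δ) * n + θ < a * n := by
  have hc : 0 < a - b * (1 + δ) := by
    by_contra hneg
    push Not at hneg
    nlinarith
  have h9 : θ < (a - b * (1 + δ)) * n := h.trans_le (by gcongr)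
  linarith [h9]

theorem real5 {θb θ' δ m n : ℝ} (hδ1 : δ < 1 / 10) (hθ' : 0 < θ')
    (hm : m ≤ δ) (h : n ^ 2 ≤ (1 + m) / (1 - 10 * δ))
    (h3 : θb ^ 2 * (1 + δ) < θ' ^ 2 * (1 - 10 * δ)) : θb * n ≤ θ' := by
  have hκ : 0 < 1 - 10 * δ := by linarith
  have h' : n ^ 2 ≤ (1 + δ) / (1 - 10 * δ) := by
    refine h.trans ?_
    gcongr
  have hfin : (θb * n) ^ 2 ≤ θ' ^ 2 := by
    rw [mul_pow]
    calc θb ^ 2 * n ^ 2 ≤ θb ^ 2 * ((1 + δ) / (1 - 10 * δ)) := by gcongr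
      _ = (θb ^ 2 * (1 + δ)) / (1 - 10 * δ) := by ring
      _ ≤ θ' ^ 2 := by rw [div_le_iff₀ hκ]; exact h3.le
  exact le_of_sq_le_sq hfin hθ'.le

end SLAux

end Crest.Agent.R110
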