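import Crest.Agent.R110.Compare
import Crest.Agent.R110.SuperPQ

/-!
# R110.Super (helper646) : the superposition lemma (SL)
-/

set_option autoImplicit false

universe u

namespace Crest.Agent.R110

set_option maxHeartbeats 2000000 in
/-- SL (superposition). -/
theorem superposition {lam θ₁ θ' : ℝ} (h0 : 0 < lam) (h1 : lam < 1) (hθ₁ : 0 ≤ θ₁)
    (hA : Real.sqrt lam + θ₁ < θ') (hB : 1 - lam < θ' ^ 2) :
    ∃ δ : ℝ, 0 < δ ∧ ∀ (E : Type u) [CStarAlgebra E] [PartialOrder E] [StarOrderedRing E]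
      (I : Set E) (_ : PIIdeal I) (α β d v v' w w' S₁ T₁ : E),
      IsSelfAdjoint α → α ∈ I → IsSelfAdjoint β → β ∈ I → ‖d‖ ≤ 1 →
      ‖v‖ ≤ 1 → 0 ≤ v' → ‖v'‖ ≤ 1 →
      (∀ (Q : Type u) [CStarAlgebra Q] (ρ : E →⋆ₐ[ℂ] Q), ρ v' ≠ 0 → 1 ≤ ‖ρ v‖) →
      ‖w‖ ≤ 1 → 0 ≤ w' → ‖w'‖ ≤ 1 →
      (∀ (Q : Type u) [CStarAlgebra Q] (ρ : E →⋆ₐ[ℂ] Q), ρ w' ≠ 0 → 1 ≤ ‖ρ w‖) →
      ‖S₁‖ ≤ 1 → α * S₁ = S₁ → β * T₁ = T₁ → ‖star S₁ * d * T₁‖ ≤ δ → ‖star T₁ * T₁ - w‖ ≤ δ →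
      (∀ (B : Type u) [CStarAlgebra B] [PartialOrder B] [StarOrderedRing B] (π : E →⋆ₐ[ℂ] B),
        Function.Surjective π → ‖π (star S₁ * S₁)‖ ≤ 1 / 2 →
        ∃ S₂ T₂ : B, π α * S₂ = S₂ ∧ π β * T₂ = T₂ ∧ ‖star S₂ * S₂ - π v‖ ≤ δ ∧
          ‖star T₂ * T₂ - π w‖ ≤ δ ∧ ‖star (π T₁) * T₂‖ ≤ δ ∧ ‖star S₂ * π d * T₂‖ ≤ θ₁) →
      ∀ ε : ℝ, 0 < ε → ∃ S T : E, (∃ y, S = α * y) ∧ (∃ y, T = β * y) ∧
        ‖star S * S - v'‖ < ε ∧ ‖star T * T - w'‖ < ε ∧ ‖star S * d * T‖ ≤ θ' := by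
  have hsl : 0 < Real.sqrt lam := Real.sqrt_pos.2 h0
  have hθ'pos : 0 < θ' := by linarith
  have hsl1 : Real.sqrt (1 - lam) < θ' := by
    rw [Real.sqrt_lt' hθ'pos]; exact hB
  set M : ℝ := max (Real.sqrt lam + θ₁) (Real.sqrt (1 - lam)) with hMdef
  have hM : M < θ' := max_lt hA hsl1
  have hM0 : 0 < M := lt_max_of_lt_left (by linarith)
  have hMa : Real.sqrt lam + θ₁ ≤ M := le_max_left _ _
  have hMb : Real.sqrt (1 - lam) ≤ M := le_max_right _ _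
  set θa : ℝ := (2 * M + θ') / 3 with hθa
  set θb : ℝ := (M + 2 * θ') / 3 with hθb
  have hθa0 : 0 < θa := by rw [hθa]; linarith
  have hθab : θa < θb := by rw [hθa, hθb]; linarith
  have hθb' : θb < θ' := by rw [hθb]; linarith
  obtain ⟨δ, hδ0, hδ1, g1, g2, g3⟩ := SLAux.exists_delta (l := lam) (θ₁ := θ₁) (θa := θa)
    (θb := θb) (θ' := θ') (hθa0.trans hθab) (by rw [hθa]; linarith) (by rw [hθa]; linarith) hθb'
  refine ⟨δ, hδ0, ?_⟩
  intro E _ _ _ I hI α β d v v' w w' S₁ T₁ hα hαI hβ hβI hd hv hv'0 hv'1 hvv' hw hw'0 hw'1 hww'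
    hS1 hαS hβT hST hTT hsup ε hε
  set s₁ : E := star S₁ * S₁ with hs₁
  have hs₁0 : 0 ≤ s₁ := star_mul_self_nonneg S₁
  obtain ⟨B, _, π, hπ, hπs, -, hfac, hlift⟩ := exists_quot hs₁0 (k := 1 / 2) (by norm_num)
  let _ : PartialOrder B := CStarAlgebra.spectralOrder B
  let _ : StarOrderedRing B := CStarAlgebra.spectralOrderedRing B
  have hπT : ∀ z : E, π z = 0 → Thr s₁ (1 / 2) z := by
    intro z hz Q _ ρ hle
    obtain ⟨σ, hσ⟩ := hfac Q ρ hle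
    rw [← hσ, hz, map_zero]
  obtain ⟨S₂, T₂, hαS2, hβT2, hS2, hT2, hT12, hθ⟩ := hsup B π hπ hπs
  -- the lift of `T₂`
  obtain ⟨t, ht, -⟩ := hlift T₂
  obtain ⟨y₀, -, hy1, hy2⟩ := exists_mul_norm_le π (β * t)
  set T₂' : E := β * t * y₀ with hT₂'
  have hT2' : π T₂' = T₂ := by rw [hy1, map_mul, ht, hβT2]
  have hT2n : ‖T₂'‖ ≤ ‖T₂‖ := by
    refine hy2.trans (le_of_eq ?_)
    rw [map_mul, ht, hβT2]
  have hgram_le : ∀ (A : Type u) [CStarAlgebra A] (X z : A), ‖star X * X - z‖ ≤ δ → ‖z‖ ≤ 1 →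
      ‖X‖ ≤ 1 + δ := by
    intro A _ X z hX hz
    have h2 : ‖X‖ * ‖X‖ ≤ 1 + δ := by
      rw [← CStarRing.norm_star_mul_self]
      calc ‖star X * X‖ = ‖(star X * X - z) + z‖ := by rw [sub_add_cancel]
        _ ≤ ‖star X * X - z‖ + ‖z‖ := norm_add_le _ _
        _ ≤ 1 + δ := by linarith
    exact SLAux.real1 (norm_nonneg X) hδ0 h2
  have hT2le : ‖T₂'‖ ≤ 1 + δ :=
    hT2n.trans (hgram_le B T₂ (π w) hT2 ((norm_hom_le π w).trans hw))
  have hT1le : ‖T₁‖ ≤ 1 + δ := hgram_le E T₁ w hTT hw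
  -- the elements of the kernel
  obtain ⟨x₁, hx1, hx1n⟩ := hlift (star T₂ * T₂ - π w)
  obtain ⟨x₂, hx2, hx2n⟩ := hlift (star (π T₁) * T₂)
  set j₁ : E := star T₂' * T₂' - w - x₁ with hj₁
  set j₂ : E := star T₁ * T₂' - x₂ with hj₂
  have hj1 : Thr s₁ (1 / 3) j₁ := by
    intro Q _ ρ hle
    refine hπT j₁ ?_ Q ρ (hle.trans (by norm_num))
    rw [hj₁, map_sub, map_sub, map_mul, map_star, hT2', hx1, sub_self]
  have hj2 : Thr s₁ (1 / 3) j₂ := by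
    intro Q _ ρ hle
    refine hπT j₂ ?_ Q ρ (hle.trans (by norm_num))
    rw [hj₂, map_sub, map_mul, map_star, hT2', hx2, sub_self]
  -- the cut vector
  obtain ⟨g, hgsa, hgn, hSg, hgQ⟩ := SLAux.exists_cut_vec.{u, u} S₁ (k1 := 1 / 6) (k2 := 1 / 3)
    (by norm_num) (by norm_num)
  set s' : E := S₁ * g with hs'
  have hs'Thr : Thr s₁ (1 / 6) s' := fun Q _ ρ hle => (hgQ Q ρ).1 hle
  obtain ⟨p, q, ww, e₁, hp, hq, hpw, hqw, hp1, hq1, hj1q, hj2q, hxp, hxq, hyq, hle₁, hse, hwQ⟩ :=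
    SLAux.exists_pq s₁ (k1 := 1 / 6) (k2 := 1 / 3) (by norm_num) h0 h1
      s' w (star T₂' * star d * s') j₁ j₂ hSg hs'Thr hj1 hj2 hδ0
  set T₀ : E := T₁ * p + T₂' * q with hT₀
  have gram : ‖star T₀ * T₀ - w‖ ≤ 4 * δ + 5 * δ := by
    refine SLAux.gram_est T₁ T₂' w p q j₁ j₂ hp hq (by rw [hpw, hqw]; abel) hp1 hq1 hTT ?_ ?_
      hj1q hj2q hxp hxq
    · rw [hj₁, sub_sub_cancel]; exact hx1n.trans hT2
    · rw [hj₂, sub_sub_cancel]; exact hx2n.trans hT12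
  have hT0β : T₀ = β * (T₁ * p + t * y₀ * q) := by
    rw [mul_add, ← mul_assoc, hβT, hT₀, hT₂']; simp only [mul_assoc]
  have hT0I : T₀ ∈ I := by rw [hT0β]; exact hI.mul_right _ hβI
  have hST' : ‖star T₁ * star d * S₁‖ ≤ δ := by
    have : star T₁ * star d * S₁ = star (star S₁ * d * T₁) := by
      simp only [star_mul, star_star, mul_assoc]
    rw [this, norm_star]; exact hST
  have h1g : ‖star T₁ * star d * s'‖ ≤ δ * (1 / Real.sqrt (1 / 6)) := by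
    have : star T₁ * star d * s' = (star T₁ * star d * S₁) * g := by
      rw [hs']; simp only [mul_assoc]
    rw [this]
    calc ‖(star T₁ * star d * S₁) * g‖ ≤ ‖star T₁ * star d * S₁‖ * ‖g‖ := norm_mul_le _ _
      _ ≤ δ * (1 / Real.sqrt (1 / 6)) := by gcongr
  have caseI : ‖star T₀ * star d * s'‖ < θa := by
    refine lt_of_le_of_lt ?_ g1
    exact SLAux.caseI_est T₁ T₂' d s' p q e₁ ww hp hq hqw hp1 h0.le h1.le hle₁ hSg hse hd hT2le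
      hyq h1g
  -- the harm condition
  have harm : ∀ (Q : Type u) [CStarAlgebra Q] (ρ : E →⋆ₐ[ℂ] Q), ρ v' ≠ 0 →
      ∃ s : Q, ρ α * s = s ∧ ‖star (ρ T₀) * star (ρ d) * s‖ < θa * ‖s‖ := by
    intro Q _ ρ hρ
    by_cases hcase : 1 / 3 < ‖ρ s₁‖
    · refine ⟨ρ s', ?_, ?_⟩
      · rw [← map_mul, hs', ← mul_assoc, hαS]
      · have h3 : ‖star (ρ T₀) * star (ρ d) * ρ s'‖ = ‖ρ (star T₀ * star d * s')‖ := by
          simp only [map_mul, map_star]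
        rw [h3]
        have h4 : 1 ≤ ‖ρ s'‖ := (hgQ Q ρ).2 hcase
        calc ‖ρ (star T₀ * star d * s')‖ ≤ ‖star T₀ * star d * s'‖ := norm_hom_le _ _
          _ < θa := caseI
          _ ≤ θa * ‖ρ s'‖ := SLAux.real2 hθa0 h4
    · push Not at hcase
      obtain ⟨ρ', hρ'⟩ := hfac Q ρ (hcase.trans (by norm_num))
      refine ⟨ρ' S₂, ?_, ?_⟩
      · rw [← hρ' α, ← map_mul, hαS2]
      · set s : Q := ρ' S₂ with hsdef
        have hρT2 : ρ T₂' = ρ' T₂ := by rw [← hρ', hT2']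
        have hsT : ‖star (ρ T₂') * star (ρ d) * s‖ ≤ θ₁ := by
          have h5 : star (ρ T₂') * star (ρ d) * s = star (ρ' (star S₂ * π d * T₂)) := by
            rw [hρT2, ← hρ' d, hsdef]
            simp only [map_mul, map_star, star_mul, star_star, mul_assoc]
          rw [h5, norm_star]
          exact (norm_hom_le _ _).trans hθ
        have hT0Q : ρ T₀ = ρ T₁ * ρ p + ρ T₂' * ρ q := by
          rw [hT₀, map_add, map_mul, map_mul]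
        have hest := SLAux.caseII_est (ρ T₁) (ρ T₂') (ρ d) s (ρ p) (ρ q) (ρ ww)
          (hp.map ρ) (hq.map ρ) (by rw [← map_mul, hpw]) ((norm_hom_le _ _).trans hq1)
          (hwQ Q ρ hcase) (le_refl ‖s‖) ((norm_hom_le _ _).trans hd)
          ((norm_hom_le _ _).trans hT1le) hsT
        rw [← hT0Q] at hest
        have hs_ge : 1 - δ ≤ ‖s‖ := by
          have h6 : ‖star s * s - ρ v‖ ≤ δ := by
            have : star s * s - ρ v = ρ' (star S₂ * S₂ - π v) := by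
              rw [map_sub, hρ', hsdef, map_mul, map_star]
            rw [this]; exact (norm_hom_le _ _).trans hS2
          have h7 : ‖ρ v‖ ≤ ‖star s * s‖ + δ := by
            calc ‖ρ v‖ = ‖star s * s - (star s * s - ρ v)‖ := by rw [sub_sub_cancel]
              _ ≤ ‖star s * s‖ + ‖star s * s - ρ v‖ := norm_sub_le _ _
              _ ≤ _ := by linarith
          rw [CStarRing.norm_star_mul_self] at h7
          exact SLAux.real3 (norm_nonneg s) hδ0 (hvv' Q ρ hρ) h7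
        exact lt_of_le_of_lt hest (SLAux.real4 hδ0 hδ1 hθ₁ hs_ge g2)
  -- extraction
  obtain ⟨yS, hyS1, hyS2⟩ := extraction hI (α := α) (d := d) (T := T₀) (v := v') hα hαI hv'0 hv'1
    hθa0 hθab harm hε
  -- renormalisation
  have hκ : 0 < 1 - 10 * δ := by linarith
  have hthr : Thr (star T₀ * T₀) (1 - 10 * δ) w' := by
    intro Q _ ρ hle
    by_contra hne
    have h3 := hww' Q ρ hne
    have h4 : ‖ρ w‖ ≤ ‖ρ (star T₀ * T₀)‖ + 9 * δ := by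
      calc ‖ρ w‖ = ‖ρ (star T₀ * T₀) - ρ (star T₀ * T₀ - w)‖ := by
            rw [map_sub, sub_sub_cancel]
        _ ≤ ‖ρ (star T₀ * T₀)‖ + ‖ρ (star T₀ * T₀ - w)‖ := norm_sub_le _ _
        _ ≤ _ := by
            have := (norm_hom_le ρ (star T₀ * T₀ - w)).trans gram
            linarith
    linarith
  obtain ⟨yT, hyT1, hyT2⟩ := renorm hI hT0I hκ hw'0 hthr (ε := min ε δ) (lt_min hε hδ0)
  refine ⟨α * yS, T₀ * yT, ⟨yS, rfl⟩, ⟨(T₁ * p + t * y₀ * q) * yT, by rw [← mul_assoc, ← hT0β]⟩,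
    hyS1, hyT1.trans_le (min_le_left _ _), ?_⟩
  have hyTn : θb * ‖yT‖ ≤ θ' := by
    refine SLAux.real5 hδ1 hθ'pos (min_le_right ε δ) (hyT2.trans ?_) g3
    gcongr
  calc ‖star (α * yS) * d * (T₀ * yT)‖ = ‖(star (α * yS) * d * T₀) * yT‖ := by
        simp only [mul_assoc]
    _ ≤ ‖star (α * yS) * d * T₀‖ * ‖yT‖ := norm_mul_le _ _
    _ ≤ θb * ‖yT‖ := mul_le_mul_of_nonneg_right hyS2 (norm_nonneg _)
    _ ≤ θ' := hyTn

end Crest.Agent.R110
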