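import Crest.Agent.R110.Defs
import Crest.Agent.R110.CutRp
import Crest.Agent.R110.Compare
import Crest.Agent.R110.Split
import Crest.Agent.R110.OneProj
import Crest.Agent.R110.Dip
import Crest.Agent.R110.GapProj2
import Crest.Agent.R110.Super

/-!
# R110.Step2 (helper793)

`step2` : the second step of the main estimate of row 110 (S0145).  Under the gap
`‖ρ b‖ ≤ 3/4 ⟹ ‖ρ a‖ ≤ r` a pair `(S, T)` with `S⋆S ≈ f_{r₂,r₃}(a)`, `T⋆T ≈ w` and
`‖S⋆ d T‖ ≤ 4/5`.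
-/

set_option autoImplicit false

universe u

namespace Crest.Agent.R110

/-- a projection whose image has norm `≤ 1/2` is killed. -/
theorem map_proj_eq_zero {B Q : Type u} [CStarAlgebra B] [CStarAlgebra Q] (ρ : B →⋆ₐ[ℂ] Q)
    {P : B} (hP : P * P = P) (hPs : star P = P) (h : ‖ρ P‖ ≤ 1 / 2) : ρ P = 0 := by
  have h1 : ‖ρ P‖ = ‖ρ P‖ * ‖ρ P‖ := by
    calc ‖ρ P‖ = ‖star (ρ P) * ρ P‖ := by rw [← map_star, hPs, ← map_mul, hP]
      _ = ‖ρ P‖ * ‖ρ P‖ := CStarRing.norm_star_mul_self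
  have h2 := norm_nonneg (ρ P)
  have h3 : ‖ρ P‖ = 0 := by nlinarith
  exact norm_eq_zero.mp h3

section Step2

variable {E : Type u} [CStarAlgebra E] [PartialOrder E] [StarOrderedRing E]

/-- the pair `(S₂, T₂)` in a quotient in which the element `c` of the splitting has a gap. -/
theorem quot_pair {I : Set E} (hI : PIIdeal I) {a b d T₁ c : E} (ha : 0 ≤ a)
    (hb : 0 ≤ b) (hbI : b ∈ I) (hd : ‖d‖ ≤ 1) {r r₁ r₂ δ : ℝ} (h0 : 0 < r)
    (h1 : r < r₁) (h2 : r₁ < r₂) (hδ : 0 < δ) (hδ1 : δ ≤ 1) (hc : 0 ≤ c) (hcI : c ∈ I)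
    (hcT : ‖c * T₁‖ ≤ δ / 64) (hac : rp (r / 2) r a * c = c) (hdom : Dom c (1 / 2) a r₁)
    (gap : Thr c (1 / 2) c) :
    ∃ S₂ T₂ : E, rp (1 / 8) (1 / 4) b * S₂ = S₂ ∧ rp (r / 2) r a * T₂ = T₂ ∧
      ‖star S₂ * S₂ - rp (1 / 2) (3 / 4) b‖ ≤ δ ∧ ‖star T₂ * T₂ - rp r₁ r₂ a‖ ≤ δ ∧
      ‖star T₁ * T₂‖ ≤ δ ∧ ‖star S₂ * star d * T₂‖ ≤ 1 / 100 := by
  obtain ⟨P, hPP, hPs, hPI, hgP, hkP⟩ := gap_proj hI hc hcI (by norm_num : (0 : ℝ) < 1 / 2) gap
  obtain ⟨SP, Top, hPS, hSS, hbT, hTT, hST⟩ := one_proj hI hPP hPs hPI hb hbI hd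
    (by norm_num : (0 : ℝ) < 1 / 4) (by norm_num : (1 / 4 : ℝ) < 1 / 2)
    (by norm_num : (1 / 2 : ℝ) < 3 / 4) (by norm_num : (0 : ℝ) < 1 / 200)
    (by positivity : (0 : ℝ) < δ / 8)
  have hz0 : 0 ≤ rp r₁ r₂ a := rp_nonneg _ _ _
  have hz1 : ‖rp r₁ r₂ a‖ ≤ 1 := norm_rp_le_one _ _ _
  have hP0 : 0 ≤ P := by
    have h : 0 ≤ star P * P := star_mul_self_nonneg P
    rwa [hPs, hPP] at h
  have hthr : Thr P (1 / 2) (rp r₁ r₂ a) := by
    intro Q _ ρ hρ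
    have h3 : ρ P = 0 := map_proj_eq_zero ρ hPP hPs hρ
    have h4 : ρ c = 0 := hkP Q ρ h3
    have h5 : ‖ρ a‖ ≤ r₁ := hdom Q ρ (by rw [h4, norm_zero]; norm_num)
    exact (map_rp_eq_zero_iff ρ ha (by linarith) h2).mpr h5
  have hkill : Kill (ct (1 / 2) P) (rp r₁ r₂ a) :=
    (Cmp.kill_ct_iff_thr_aux hP0 (by norm_num) _).mpr hthr
  obtain ⟨y, -, hy1, -, -, -, -, hy2, -, -⟩ := comparison hI (show IsSelfAdjoint P from hPs) hPI
    (by norm_num : (0 : ℝ) < 1 / 2) hz0 hkill (by positivity : (0 : ℝ) < δ / 2)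
  have hy3 : ‖y‖ ^ 2 ≤ 4 := by
    refine hy2.trans ?_
    rw [div_le_iff₀ (by norm_num)]
    linarith
  have hy4 : ‖y‖ ≤ 2 := by
    nlinarith [norm_nonneg y]
  have hexp : star (SP * y) * (SP * y) - rp r₁ r₂ a
      = star y * (star SP * SP - P) * y + (star y * P * y - rp r₁ r₂ a) := by
    rw [star_mul]; noncomm_ring
  have hT2 : ‖star (SP * y) * (SP * y) - rp r₁ r₂ a‖ ≤ δ := by
    rw [hexp]
    refine (norm_add_le _ _).trans ?_
    have h3 : ‖star y * (star SP * SP - P) * y‖ ≤ ‖y‖ * (δ / 8) * ‖y‖ := by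
      refine (norm_mul_le _ _).trans ?_
      refine mul_le_mul_of_nonneg_right ?_ (norm_nonneg _)
      refine (norm_mul_le _ _).trans ?_
      rw [norm_star]
      exact mul_le_mul_of_nonneg_left hSS.le (norm_nonneg _)
    have h4 : ‖y‖ * (δ / 8) * ‖y‖ = (δ / 8) * ‖y‖ ^ 2 := by ring
    have h5 : (δ / 8) * ‖y‖ ^ 2 ≤ (δ / 8) * 4 := by gcongr
    linarith
  have hT2n : ‖SP * y‖ ≤ 2 := by
    have h3 : ‖SP * y‖ * ‖SP * y‖ = ‖star (SP * y) * (SP * y)‖ :=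
      CStarRing.norm_star_mul_self.symm
    have h4 : ‖star (SP * y) * (SP * y)‖ ≤ δ + 1 := by
      calc ‖star (SP * y) * (SP * y)‖
          = ‖(star (SP * y) * (SP * y) - rp r₁ r₂ a) + rp r₁ r₂ a‖ := by rw [sub_add_cancel]
        _ ≤ _ := (norm_add_le _ _).trans (add_le_add hT2 hz1)
    nlinarith [norm_nonneg (SP * y)]
  -- the cut-off of `c` absorbs `SP * y`
  have hgSP : rp (1 / 2 / 16) (1 / 2 / 8) c * SP = SP := absorb_trans hgP hPS
  have hag : rp (r / 2) r a * rp (1 / 2 / 16) (1 / 2 / 8) c = rp (1 / 2 / 16) (1 / 2 / 8) c :=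
    mul_rp_of_mul hc hac (by norm_num) (by norm_num)
  have haSP : rp (r / 2) r a * SP = SP := absorb_trans hag hgSP
  refine ⟨Top, SP * y, ?_, ?_, hTT.le.trans (by linarith), hT2, ?_, ?_⟩
  · have h3 : (1 / 4 : ℝ) / 2 = 1 / 8 := by norm_num
    rw [h3] at hbT
    exact hbT
  · rw [← mul_assoc, haSP]
  · have h3 : star T₁ * (SP * y) = star (rp (1 / 2 / 16) (1 / 2 / 8) c * T₁) * (SP * y) := by
      rw [star_mul, star_rp, mul_assoc, ← mul_assoc (rp _ _ c), hgSP]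
    rw [h3]
    refine (norm_mul_le _ _).trans ?_
    rw [norm_star]
    have h4 : ‖rp (1 / 2 / 16) (1 / 2 / 8) c * T₁‖ ≤ (1 / 2 / 16 : ℝ)⁻¹ * ‖c * T₁‖ :=
      norm_rp_mul_le hc (by norm_num) (by norm_num) T₁
    have h5 : (1 / 2 / 16 : ℝ)⁻¹ = 32 := by norm_num
    rw [h5] at h4
    have h6 : ‖rp (1 / 2 / 16) (1 / 2 / 8) c * T₁‖ ≤ δ / 2 := by linarith
    calc ‖rp (1 / 2 / 16) (1 / 2 / 8) c * T₁‖ * ‖SP * y‖ ≤ (δ / 2) * 2 := by
          gcongr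
      _ = δ := by ring
  · have h3 : star Top * star d * (SP * y) = star (star SP * d * Top) * y := by
      simp only [star_mul, star_star, mul_assoc]
    rw [h3]
    refine (norm_mul_le _ _).trans ?_
    rw [norm_star]
    calc ‖star SP * d * Top‖ * ‖y‖ ≤ (1 / 200) * 2 := by gcongr
      _ = 1 / 100 := by norm_num

theorem step2 {I : Set E} (hI : PIIdeal I) {a b d w : E} (ha : 0 ≤ a) (haI : a ∈ I) (hb : 0 ≤ b)
    (hbI : b ∈ I) (hd : ‖d‖ ≤ 1) (hw : 0 ≤ w) (hw1 : ‖w‖ ≤ 1) {r r₁ r₂ r₃ : ℝ} (h0 : 0 < r)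
    (h1 : r < r₁) (h2 : r₁ < r₂) (h3 : r₂ < r₃) (gap : Dom b (3 / 4) a r)
    (hwb : Thr b (3 / 4) w) {ε : ℝ} (hε : 0 < ε) :
    ∃ S T : E, rp (r / 4) (r / 2) a * S = S ∧ rp (1 / 16) (1 / 8) b * T = T ∧
      ‖star S * S - rp r₂ r₃ a‖ < ε ∧ ‖star T * T - w‖ < ε ∧ ‖star S * d * T‖ ≤ 4 / 5 := by
  have has : IsSelfAdjoint a := ha.isSelfAdjoint
  have hbs : IsSelfAdjoint b := hb.isSelfAdjoint
  -- the constants of the superposition lemma
  have hA : Real.sqrt (1 / 2) + 1 / 100 < 4 / 5 := by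
    have h4 : Real.sqrt (1 / 2) < 3 / 4 := by
      rw [Real.sqrt_lt' (by norm_num)]
      norm_num
    linarith
  obtain ⟨δ, hδ, hsp⟩ := superposition.{u} (lam := 1 / 2) (θ₁ := 1 / 100) (θ' := 4 / 5)
    (by norm_num) (by norm_num) (by norm_num) hA (by norm_num)
  obtain ⟨δ₀, hδ₀, hδ₀δ, hδ₀1⟩ : ∃ δ₀ : ℝ, 0 < δ₀ ∧ δ₀ ≤ δ ∧ δ₀ ≤ 1 :=
    ⟨min δ 1, lt_min hδ one_pos, min_le_left _ _, min_le_right _ _⟩
  -- the splitting of `a`
  obtain ⟨T₁, c, hc, hcI, hT₁I, hcT, hTT, haT, hac, hTa, hdom, hca⟩ :=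
    splitting hI ha haI h0 h1 h2 (by norm_num : (0 : ℝ) ≤ 1 / 2) (by norm_num)
      (by positivity : (0 : ℝ) < δ₀ / 64)
  -- the square root of the cut-off of `b`
  obtain ⟨q, hq0, hq1, hqI, hqq, hbq, -⟩ := exists_sqrt_rp hI hbs hbI
    (by norm_num : (0 : ℝ) < 1 / 4) (by norm_num : (1 / 4 : ℝ) < 1 / 2)
  have hqs : star q = q := hq0.isSelfAdjoint.star_eq
  obtain ⟨k, hk0, -, hks, hk1, hkj, hkQ⟩ := exists_dip.{u, u} (q * star d * T₁) hδ₀
  have hks' : star k = k := hks.star_eq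
  have hβT : rp (r / 2) r a * T₁ = T₁ :=
    absorb_trans (rp_mul_rp has (by linarith) le_rfl h1) haT
  have hSS : star (q * k) * (q * k) = k * rp (1 / 4) (1 / 2) b * k := by
    rw [star_mul, hqs, hks', mul_assoc, ← mul_assoc q q k, hqq, mul_assoc]
  obtain ⟨S, T, ⟨yS, hyS⟩, ⟨yT, hyT⟩, hSw, hTw, hfin⟩ := hsp E I hI
    (rp (1 / 8) (1 / 4) b) (rp (r / 2) r a) (star d) (rp (1 / 2) (3 / 4) b) w
    (rp r₁ r₂ a) (rp r₂ r₃ a) (q * k) T₁
    (rp_isSelfAdjoint _ _ _) (rp_mem hI hbs hbI (by norm_num) (by norm_num))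
    (rp_isSelfAdjoint _ _ _) (rp_mem hI has haI (by linarith) (by linarith))
    (by rw [norm_star]; exact hd) (norm_rp_le_one _ _ _) hw hw1
    (by
      intro Q _ ρ hρ
      by_contra hcon
      apply hρ
      refine hwb Q ρ ?_
      by_contra h4
      push Not at h4
      exact hcon (norm_map_rp_eq_one ρ hb (by norm_num) (by norm_num) h4.le).ge)
    (norm_rp_le_one _ _ _) (rp_nonneg _ _ _) (norm_rp_le_one _ _ _)
    (by
      intro Q _ ρ hρ
      by_contra hcon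
      apply hρ
      refine (map_rp_eq_zero_iff ρ ha (by linarith) h3).mpr ?_
      by_contra h4
      push Not at h4
      exact hcon (norm_map_rp_eq_one ρ ha (by linarith) h2 h4.le).ge)
    (by
      refine (norm_mul_le _ _).trans ?_
      calc ‖q‖ * ‖k‖ ≤ 1 * 1 := by gcongr
        _ = 1 := one_mul 1)
    (by rw [← mul_assoc, hbq (1 / 8) (by norm_num)])
    hβT
    (by
      have h4 : star (q * k) * star d * T₁ = k * (q * star d * T₁) := by
        rw [star_mul, hqs, hks']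
        simp only [mul_assoc]
      rw [h4]
      exact hkj.trans hδ₀δ)
    (hTT.le.trans (by linarith))
    (by
      intro B _ _ _ π hπ hπS
      have hgapB : Thr (π c) (1 / 2) (π c) := by
        intro Q _ ρ hρ
        have e : ∀ x, (ρ.comp π) x = ρ (π x) := fun x => rfl
        have g1 : ‖(ρ.comp π) a‖ ≤ r₁ := hdom Q (ρ.comp π) (by rw [e]; exact hρ)
        have g2 : (ρ.comp π) T₁ = 0 := hTa Q (ρ.comp π) g1
        have g3 : (ρ.comp π) k = 1 := hkQ Q (ρ.comp π) (by rw [map_mul, g2, mul_zero])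
        have g4 : (ρ.comp π) (star (q * k) * (q * k)) = (ρ.comp π) (rp (1 / 4) (1 / 2) b) := by
          rw [hSS, map_mul, map_mul, g3, one_mul, mul_one]
        have g5 : ‖(ρ.comp π) (rp (1 / 4) (1 / 2) b)‖ ≤ 1 / 2 := by
          rw [← g4, e]
          exact (norm_hom_le ρ _).trans hπS
        have g6 : ‖(ρ.comp π) b‖ < 1 / 2 :=
          norm_lt_of_norm_map_rp_lt_one (ρ.comp π) hb (by norm_num)
            (by norm_num : (1 / 4 : ℝ) < 1 / 2) (by linarith)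
        have g7 : ‖(ρ.comp π) a‖ ≤ r := gap Q (ρ.comp π) (by linarith)
        have g8 : (ρ.comp π) c = 0 := hca Q (ρ.comp π) g7
        rw [e] at g8
        exact g8
      have hdomB : Dom (π c) (1 / 2) (π a) r₁ := by
        intro Q _ ρ hρ
        exact hdom Q (ρ.comp π) hρ
      obtain ⟨S₂, T₂, e1, e2, e3, e4, e5, e6⟩ := quot_pair (hI.map π hπ)
        (a := π a) (b := π b) (d := π d) (T₁ := π T₁) (c := π c) (δ := δ₀)
        (map_nonneg' π ha) (map_nonneg' π hb) ⟨b, hbI, rfl⟩ ((norm_hom_le π d).trans hd)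
        h0 h1 h2 hδ₀ hδ₀1 (map_nonneg' π hc) ⟨c, hcI, rfl⟩
        (by rw [← map_mul]; exact (norm_hom_le π _).trans hcT.le)
        (by rw [← map_rp π has, ← map_mul, hac]) hdomB hgapB
      refine ⟨S₂, T₂, ?_, ?_, ?_, ?_, e5.trans hδ₀δ, ?_⟩
      · rw [map_rp π hbs]; exact e1
      · rw [map_rp π has]; exact e2
      · rw [map_rp π hbs]; exact e3.trans hδ₀δ
      · rw [map_rp π has]; exact e4.trans hδ₀δ
      · rw [map_star]; exact e6)
    ε hε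
  refine ⟨T, S, ?_, ?_, hTw, hSw, ?_⟩
  · rw [hyT, ← mul_assoc, rp_mul_rp has (by linarith) le_rfl (by linarith)]
  · rw [hyS, ← mul_assoc, rp_mul_rp hbs (by norm_num) le_rfl (by norm_num)]
  · have h4 : star T * d * S = star (star S * star d * T) := by
      simp only [star_mul, star_star, mul_assoc]
    rw [h4, norm_star]
    exact hfin

end Step2

end Crest.Agent.R110
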