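import Crest.Agent.R110.CutRp
import Crest.Agent.R110.Split
import Crest.Agent.R110.Super
import Crest.Agent.R110.Step2
import Crest.Agent.R110.Dip

/-!
# R110.Step1 (helper741) : Step 1 of the blueprint (note 6347).
-/

set_option autoImplicit false

universe u

namespace Crest.Agent.R110

open scoped CStarAlgebra

section Step1

variable {E : Type u} [CStarAlgebra E] [PartialOrder E] [StarOrderedRing E]

/-- `ρ (f_{s,t}(a)) ≠ 0` forces `‖ρ (f_{s',s}(a))‖ = 1`. -/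
theorem one_le_norm_of_rp_ne {a : E} (ha : 0 ≤ a) {s' s t : ℝ} (h0 : 0 ≤ s') (h1 : s' < s)
    (h2 : s < t) (Q : Type u) [CStarAlgebra Q] (ρ : E →⋆ₐ[ℂ] Q) (h : ρ (rp s t a) ≠ 0) :
    1 ≤ ‖ρ (rp s' s a)‖ := by
  have h3 : ¬ ‖ρ a‖ ≤ s := fun hle => h ((map_rp_eq_zero_iff ρ ha (h0.trans h1.le) h2).mpr hle)
  exact (norm_map_rp_eq_one ρ ha h0 h1 (not_le.mp h3).le).ge

theorem step1 {I : Set E} (hI : PIIdeal I) {a b d : E} (ha : 0 ≤ a) (haI : a ∈ I) (hb : 0 ≤ b)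
    (hbI : b ∈ I) (hd : ‖d‖ ≤ 1) {r r' t t' : ℝ} (hr : 0 < r) (hr' : r < r') (ht : 0 < t)
    (ht' : t < t') {ε : ℝ} (hε : 0 < ε) :
    ∃ S T : E, rp (r / 64) (r / 32) a * S = S ∧ rp (t / 64) (t / 32) b * T = T ∧
      ‖star S * S - rp r r' a‖ < ε ∧ ‖star T * T - rp t t' b‖ < ε ∧
      ‖star S * d * T‖ ≤ 999 / 1000 := by
  have hsa : IsSelfAdjoint a := IsSelfAdjoint.of_nonneg ha
  have hsb : IsSelfAdjoint b := IsSelfAdjoint.of_nonneg hb
  obtain ⟨δ, hδ, key⟩ := superposition.{u} (lam := 1 / 100) (θ₁ := 4 / 5) (θ' := 999 / 1000)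
    (by norm_num) (by norm_num) (by norm_num)
    (by
      have : Real.sqrt (1 / 100) = 1 / 10 := by
        rw [show (1 / 100 : ℝ) = (1 / 10) ^ 2 by norm_num]
        exact Real.sqrt_sq (by norm_num)
      rw [this]; norm_num)
    (by norm_num)
  -- L4 on the b-side
  set δ' : ℝ := min δ 1 / 32 with hδ'
  have hδ'pos : 0 < δ' := by positivity
  have hδ'le : δ' ≤ δ := by
    have : min δ 1 ≤ δ := min_le_left _ _
    have h2 : 0 < min δ 1 := by positivity
    rw [hδ']; linarith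
  obtain ⟨T₁, c, hc, hcI, hT₁I, hcT, hT₁, hrT₁, hrc, hThrT, hDomc, -⟩ :=
    splitting hI hb hbI (t₀ := t / 4) (t := t / 2) (t' := t) (by linarith) (by linarith)
      (by linarith) (κ := 3 / 4) (by norm_num) (by norm_num) hδ'pos
  have hsc : IsSelfAdjoint c := IsSelfAdjoint.of_nonneg hc
  -- the element S₁
  obtain ⟨q, hq0, hq1, hqI, hqq, hqabs, -⟩ :=
    exists_sqrt_rp hI hsa haI (s := r / 8) (t := r / 4) (by linarith) (by linarith)
  have hqsa : IsSelfAdjoint q := IsSelfAdjoint.of_nonneg hq0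
  obtain ⟨k, hk0, hk1, hksa, hkn, hkj, hkρ⟩ := exists_dip.{u, u} (q * d * T₁) hδ
  set S₁ : E := q * k with hS₁
  have hS₁star : star S₁ = k * q := by rw [hS₁, star_mul, hksa.star_eq, hqsa.star_eq]
  have hα1 : rp (r / 16) (r / 8) a * q = q := hqabs _ (by linarith)
  have hα2 : rp (r / 32) (r / 16) a * q = q := by
    conv_lhs => rw [← hα1, ← mul_assoc, rp_mul_rp hsa (by linarith) le_rfl (by linarith)]
    exact hα1
  have hβ1 : rp (t / 8) (t / 4) b * T₁ = T₁ := by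
    conv_lhs => rw [← hrT₁, ← mul_assoc, rp_mul_rp hsb (by linarith) le_rfl (by linarith)]
    exact hrT₁
  have key2 := key E I hI (rp (r / 32) (r / 16) a) (rp (t / 8) (t / 4) b) d
    (rp (3 * r / 4) r a) (rp r r' a) (rp (t / 2) t b) (rp t t' b) S₁ T₁
    (rp_isSelfAdjoint _ _ _) (rp_mem hI hsa haI (by linarith) (by linarith))
    (rp_isSelfAdjoint _ _ _) (rp_mem hI hsb hbI (by linarith) (by linarith)) hd
    (norm_rp_le_one _ _ _) (rp_nonneg _ _ _) (norm_rp_le_one _ _ _)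
    (fun Q _ ρ h => one_le_norm_of_rp_ne ha (by linarith) (by linarith) hr' Q ρ h)
    (norm_rp_le_one _ _ _) (rp_nonneg _ _ _) (norm_rp_le_one _ _ _)
    (fun Q _ ρ h => one_le_norm_of_rp_ne hb (by linarith) (by linarith) ht' Q ρ h)
    ?_ ?_ hβ1 ?_ (hT₁.le.trans hδ'le) ?_ ε hε
  · obtain ⟨S, T, ⟨y, rfl⟩, ⟨y', rfl⟩, h1, h2, h3⟩ := key2
    refine ⟨_, _, ?_, ?_, h1, h2, h3⟩
    · rw [← mul_assoc, rp_mul_rp hsa (by linarith) (by linarith) (by linarith)]
    · rw [← mul_assoc, rp_mul_rp hsb (by linarith) (by linarith) (by linarith)]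
  · -- ‖S₁‖ ≤ 1
    calc ‖q * k‖ ≤ ‖q‖ * ‖k‖ := norm_mul_le _ _
      _ ≤ 1 * 1 := by gcongr
      _ = 1 := one_mul 1
  · -- α S₁ = S₁
    rw [hS₁, ← mul_assoc, hα2]
  · -- ‖S₁⋆ d T₁‖ ≤ δ
    rw [hS₁star]
    have : k * q * d * T₁ = k * (q * d * T₁) := by simp only [mul_assoc]
    rw [this]; exact hkj
  · -- the pair in the quotient
    intro B _ _ _ π hπ hπS
    have hπsa : IsSelfAdjoint (π a) := hsa.map π
    have hπsb : IsSelfAdjoint (π b) := hsb.map π
    have hπa : 0 ≤ π a := map_nonneg' π ha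
    have hπb : 0 ≤ π b := map_nonneg' π hb
    have hπc : 0 ≤ π c := map_nonneg' π hc
    have hgapaux : ∀ (Q : Type u) [CStarAlgebra Q] (ρ : B →⋆ₐ[ℂ] Q), ‖ρ (π c)‖ ≤ 3 / 4 →
        ‖ρ (π b)‖ ≤ t / 2 := by
      intro Q _ ρ h
      exact hDomc Q (ρ.comp π) h
    have hgap : Dom (π c) (3 / 4) (π a) (r / 4) := by
      intro Q _ ρ h
      have hb2 := hgapaux Q ρ h
      have hT0 : ρ (π T₁) = 0 := hThrT Q (ρ.comp π) hb2
      have hj0 : (ρ.comp π) (q * d * T₁) = 0 := by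
        rw [map_mul]
        change (ρ.comp π) (q * d) * ρ (π T₁) = 0
        rw [hT0, mul_zero]
      have hk1' : ρ (π k) = 1 := hkρ Q (ρ.comp π) hj0
      have hS : ρ (π (star S₁ * S₁)) = ρ (rp (r / 8) (r / 4) (π a)) := by
        have e1 : star S₁ * S₁ = k * rp (r / 8) (r / 4) a * k := by
          rw [hS₁star, hS₁, ← hqq]; simp only [mul_assoc]
        rw [e1, map_mul, map_mul, map_mul, map_mul, hk1', one_mul, mul_one, map_rp π hsa]
      have hn : ‖ρ (rp (r / 8) (r / 4) (π a))‖ < 1 := by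
        rw [← hS]
        calc ‖ρ (π (star S₁ * S₁))‖ ≤ ‖π (star S₁ * S₁)‖ := norm_hom_le ρ _
          _ ≤ 1 / 2 := hπS
          _ < 1 := by norm_num
      exact (norm_lt_of_norm_map_rp_lt_one ρ hπa (by linarith) (by linarith) hn).le
    have hwb : Thr (π c) (3 / 4) (rp (t / 2) t (π b)) := by
      intro Q _ ρ h
      exact (map_rp_eq_zero_iff ρ hπb (by linarith) (by linarith)).mpr (hgapaux Q ρ h)
    obtain ⟨S₂, T₂, h1, h2, h3, h4, h5⟩ := step2 (hI.map π hπ) (a := π a) (b := π c) (d := π d)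
      (w := rp (t / 2) t (π b)) hπa ⟨a, haI, rfl⟩ hπc ⟨c, hcI, rfl⟩
      ((norm_hom_le π d).trans hd) (rp_nonneg _ _ _) (norm_rp_le_one _ _ _)
      (r := r / 4) (r₁ := r / 2) (r₂ := 3 * r / 4) (r₃ := r) (by linarith) (by linarith)
      (by linarith) (by linarith) hgap hwb hδ'pos
    refine ⟨S₂, T₂, ?_, ?_, ?_, ?_, ?_, h5⟩
    · -- π α S₂ = S₂
      rw [map_rp π hsa]
      have h1' : rp (r / 4 / 4) (r / 4 / 2) (π a) * S₂ = S₂ := h1
      conv_lhs => rw [← h1', ← mul_assoc, rp_mul_rp hπsa (by linarith) (by linarith) (by linarith)]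
      exact h1'
    · -- π β T₂ = T₂
      rw [map_rp π hsb]
      have e1 : rp (t / 8) (t / 4) (π b) * π c = π c := by
        rw [← map_rp π hsb, ← map_mul]
        have : rp (t / 8) (t / 4) b * c = c := by
          have : t / 8 = t / 4 / 2 := by ring
          rw [this]; exact hrc
        rw [this]
      have e2 := mul_rp_of_mul hπc e1 (s := 1 / 16) (t := 1 / 8) (by norm_num) (by norm_num)
      conv_lhs => rw [← h2, ← mul_assoc, e2]
      exact h2
    · exact (by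
        rw [map_rp π hsa]
        exact h3.le.trans hδ'le)
    · exact (by
        rw [map_rp π hsb]
        exact h4.le.trans hδ'le)
    · -- ‖(π T₁)⋆ T₂‖ ≤ δ
      have e1 : star (π T₁) * T₂ = star (rp (1 / 16) (1 / 8) (π c) * π T₁) * T₂ := by
        conv_lhs => rw [← h2]
        rw [star_mul, (rp_isSelfAdjoint _ _ _).star_eq, mul_assoc]
      have e2 : ‖rp (1 / 16) (1 / 8) (π c) * π T₁‖ ≤ 16 * δ' := by
        calc ‖rp (1 / 16) (1 / 8) (π c) * π T₁‖
            ≤ (1 / 16 : ℝ)⁻¹ * ‖π c * π T₁‖ := norm_rp_mul_le hπc (by norm_num) (by norm_num) _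
          _ = 16 * ‖π (c * T₁)‖ := by rw [map_mul]; norm_num
          _ ≤ 16 * ‖c * T₁‖ := by gcongr; exact norm_hom_le π _
          _ ≤ 16 * δ' := by gcongr
      have e3 : ‖T₂‖ ^ 2 ≤ 2 ^ 2 := by
        have : ‖T₂‖ ^ 2 = ‖star T₂ * T₂‖ := by rw [CStarRing.norm_star_mul_self, sq]
        rw [this]
        calc ‖star T₂ * T₂‖ = ‖(star T₂ * T₂ - rp (t / 2) t (π b)) + rp (t / 2) t (π b)‖ := by
              rw [sub_add_cancel]
          _ ≤ ‖star T₂ * T₂ - rp (t / 2) t (π b)‖ + ‖rp (t / 2) t (π b)‖ := norm_add_le _ _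
          _ ≤ δ' + 1 := by
              gcongr
              exact norm_rp_le_one _ _ _
          _ ≤ 2 ^ 2 := by
              have : min δ 1 ≤ 1 := min_le_right _ _
              rw [hδ']; linarith
      have e4 : ‖T₂‖ ≤ 2 := le_of_sq_le_sq e3 (by norm_num)
      rw [e1]
      calc ‖star (rp (1 / 16) (1 / 8) (π c) * π T₁) * T₂‖
          ≤ ‖star (rp (1 / 16) (1 / 8) (π c) * π T₁)‖ * ‖T₂‖ := norm_mul_le _ _
        _ = ‖rp (1 / 16) (1 / 8) (π c) * π T₁‖ * ‖T₂‖ := by rw [norm_star]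
        _ ≤ (16 * δ') * 2 := by gcongr
        _ ≤ δ := by
            have : min δ 1 ≤ δ := min_le_left _ _
            rw [hδ']; linarith

end Step1

end Crest.Agent.R110
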