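import Mathlib

/-!
# R110.T1Core : the two abstract norm computations behind T1 (one projection side)
-/

set_option autoImplicit false

namespace Crest.Agent.R110

universe u v

variable {E : Type u} [CStarAlgebra E] [PartialOrder E] [StarOrderedRing E]

/-- Unital star homs are positive for the spectral order of the target. -/
theorem t1_map_le {Q : Type v} [CStarAlgebra Q] [PartialOrder Q] [StarOrderedRing Q]
    (ρ : E →⋆ₐ[ℂ] Q) {x y : E} (h : x ≤ y) : ρ x ≤ ρ y := by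
  rw [← sub_nonneg] at h ⊢
  obtain ⟨z, hz⟩ := CStarAlgebra.nonneg_iff_eq_star_mul_self.mp h
  rw [← map_sub, hz, map_mul, map_star]
  exact star_mul_self_nonneg _

/-- Norm version of `star`-conjugation. -/
theorem t1_norm_sq {Q : Type v} [CStarAlgebra Q] (x : Q) : ‖x‖ ^ 2 = ‖star x * x‖ := by
  rw [CStarRing.norm_star_mul_self, sq]

theorem t1_norm_sq' {Q : Type v} [CStarAlgebra Q] (x : Q) : ‖x‖ ^ 2 = ‖x * star x‖ := by
  rw [CStarRing.norm_self_mul_star, sq]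

/-- Coverage: if the row `(TA, TB)` is small under `ρ` then so is `e`. -/
theorem t1_cover {Q : Type v} [CStarAlgebra Q] (ρ : E →⋆ₐ[ℂ] Q)
    {e H r TA TB : E} {ε : ℝ} (hε : ε ≤ 1 / 8)
    (hTA : TA = e * (1 - H))
    (hr : ‖star r * H * r - H‖ ≤ ε) (hle : star r * H * r ≤ star TB * TB)
    (hH : 0 ≤ H)
    (hM : ‖ρ (TA * star TA + TB * star TB)‖ ≤ 1 / 4) : ‖ρ (e * e)‖ < 1 := by
  letI : PartialOrder Q := CStarAlgebra.spectralOrder Q
  haveI : StarOrderedRing Q := CStarAlgebra.spectralOrderedRing Q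
  have hA : ‖ρ TA‖ ^ 2 ≤ 1 / 4 := by
    rw [t1_norm_sq', ← map_star, ← map_mul]
    refine le_trans (CStarAlgebra.norm_le_norm_of_nonneg_of_le ?_ ?_) hM
    · rw [map_mul, map_star]; exact mul_star_self_nonneg _
    · apply t1_map_le
      exact le_add_of_nonneg_right (mul_star_self_nonneg _)
  have hB : ‖ρ TB‖ ^ 2 ≤ 1 / 4 := by
    rw [t1_norm_sq', ← map_star, ← map_mul]
    refine le_trans (CStarAlgebra.norm_le_norm_of_nonneg_of_le ?_ ?_) hM
    · rw [map_mul, map_star]; exact mul_star_self_nonneg _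
    · apply t1_map_le
      exact le_add_of_nonneg_left (mul_star_self_nonneg _)
  have hB' : ‖ρ (star r * H * r)‖ ≤ 1 / 4 := by
    have h0 : (0 : Q) ≤ ρ (star r * H * r) := by
      have h00 : (0 : E) ≤ star r * H * r := star_left_conjugate_nonneg hH r
      have := t1_map_le ρ h00
      rwa [map_zero] at this
    refine le_trans (CStarAlgebra.norm_le_norm_of_nonneg_of_le h0 (t1_map_le ρ hle)) ?_
    rw [map_mul, map_star, ← t1_norm_sq]
    exact hB
  have hHn : ‖ρ H‖ ≤ 3 / 8 := by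
    have h1 : ρ H = ρ (star r * H * r) - ρ (star r * H * r - H) := by rw [map_sub]; abel
    have h2 : ‖ρ (star r * H * r - H)‖ ≤ ε := le_trans (NonUnitalStarAlgHom.norm_apply_le ρ _) hr
    rw [h1]
    refine le_trans (norm_sub_le _ _) ?_
    linarith
  have hA' : ‖ρ TA‖ ≤ 1 / 2 := by
    have := abs_le_of_sq_le_sq (a := ‖ρ TA‖) (b := 1 / 2) (by linarith) (by norm_num)
    exact le_trans (le_abs_self _) this
  have he : ‖ρ e‖ ≤ 4 / 5 := by
    have h1 : ρ e = ρ TA + ρ e * ρ H := by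
      rw [hTA, map_mul, map_sub, map_one]; noncomm_ring
    have h2 : ‖ρ e‖ ≤ 1 / 2 + ‖ρ e‖ * (3 / 8) := by
      calc ‖ρ e‖ = ‖ρ TA + ρ e * ρ H‖ := by rw [← h1]
        _ ≤ ‖ρ TA‖ + ‖ρ e * ρ H‖ := norm_add_le _ _
        _ ≤ ‖ρ TA‖ + ‖ρ e‖ * ‖ρ H‖ := by gcongr; exact norm_mul_le _ _
        _ ≤ 1 / 2 + ‖ρ e‖ * (3 / 8) := by gcongr
    linarith
  rw [map_mul]
  calc ‖ρ e * ρ e‖ ≤ ‖ρ e‖ * ‖ρ e‖ := norm_mul_le _ _
    _ ≤ (4 / 5) * (4 / 5) := by gcongr
    _ < 1 := by norm_num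

/-- A projection of norm `< 1` is zero. -/
theorem t1_proj_zero {Q : Type v} [CStarAlgebra Q] {p : Q} (hsa : star p = p) (hp : p * p = p)
    (h : ‖p‖ < 1) : p = 0 := by
  have h1 : ‖p‖ = ‖p‖ * ‖p‖ := by
    conv_lhs => rw [← hp]
    conv_lhs => rw [← hsa]
    rw [hsa]
    have := CStarRing.norm_star_mul_self (x := p)
    rwa [hsa] at this
  have h2 : ‖p‖ = 0 := by
    by_contra h0
    have hpos : 0 < ‖p‖ := lt_of_le_of_ne (norm_nonneg _) (Ne.symm h0)
    nlinarith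
  exact norm_eq_zero.mp h2

/-- A row inequality `T T* ≤ 5 (TA TA* + TB TB*)` gives the vector inequality. -/
theorem t1_row {Q : Type v} [CStarAlgebra Q] (ρ : E →⋆ₐ[ℂ] Q) {T TA TB : E}
    (hT : T * star T ≤ (5 : ℝ) • (TA * star TA + TB * star TB)) (v : Q) :
    ‖star (ρ T) * v‖ ^ 2 ≤ 5 * (‖star (ρ TA) * v‖ ^ 2 + ‖star (ρ TB) * v‖ ^ 2) := by
  letI : PartialOrder Q := CStarAlgebra.spectralOrder Q
  haveI : StarOrderedRing Q := CStarAlgebra.spectralOrderedRing Q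
  have h1 := t1_map_le ρ hT
  have h2 := star_left_conjugate_le_conjugate h1 v
  have h3 : star v * ρ (T * star T) * v = star (star (ρ T) * v) * (star (ρ T) * v) := by
    rw [map_mul, map_star, star_mul, star_star]; noncomm_ring
  have h4 : star v * ρ ((5 : ℝ) • (TA * star TA + TB * star TB)) * v
      = (5 : ℝ) • (star (star (ρ TA) * v) * (star (ρ TA) * v)
        + star (star (ρ TB) * v) * (star (ρ TB) * v)) := by
    have : ρ ((5 : ℝ) • (TA * star TA + TB * star TB))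
        = (5 : ℝ) • (ρ TA * star (ρ TA) + ρ TB * star (ρ TB)) := by
      have h5 : ((5 : ℝ) • (TA * star TA + TB * star TB))
          = ((5 : ℂ) • (TA * star TA + TB * star TB)) := by
        rw [← Complex.coe_smul]; norm_num
      have h6 : ((5 : ℝ) • (ρ TA * star (ρ TA) + ρ TB * star (ρ TB)))
          = ((5 : ℂ) • (ρ TA * star (ρ TA) + ρ TB * star (ρ TB))) := by
        rw [← Complex.coe_smul]; norm_num
      rw [h5, h6, map_smul]
      simp only [map_add, map_mul, map_star]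
    rw [this, mul_smul_comm, smul_mul_assoc, star_mul, star_mul, star_star, star_star]
    congr 1
    noncomm_ring
  rw [h3, h4] at h2
  have h7 := CStarAlgebra.norm_le_norm_of_nonneg_of_le (star_mul_self_nonneg _) h2
  rw [← t1_norm_sq] at h7
  refine le_trans h7 ?_
  rw [norm_smul]
  have h8 : ‖(5 : ℝ)‖ = 5 := by norm_num
  rw [h8]
  gcongr
  refine le_trans (norm_add_le _ _) ?_
  rw [← t1_norm_sq, ← t1_norm_sq]

/-- Harmlessness: the norm test forces `ρ P = 0`. -/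
theorem t1_harmless {Q : Type v} [CStarAlgebra Q] (ρ : E →⋆ₐ[ℂ] Q)
    {P d T TA TB V V2 H : E} {C τ ε : ℝ}
    (hP : star P = P) (hPP : P * P = P)
    (hT : T * star T ≤ (5 : ℝ) • (TA * star TA + TB * star TB))
    (hC : 0 < C) (_hε : 0 ≤ ε) (hτ : 5 * C * τ ≤ 1 / 4)
    (hA : ‖P * d * TA‖ ^ 2 ≤ τ) (hV : V = P * d * TB)
    (hPV2 : P * V2 = V2) (hcross : ‖star V * V2‖ ≤ ε)
    (hVH : ‖star V * V - H‖ ≤ ε) (hV2H : ‖star V2 * V2 - H‖ ≤ ε)
    (hsmall : 20 * C * (20 * C * ε ^ 2 + 2 * ε) < 1)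
    (test : ∀ s : E, P * s = s →
      1 / 2 * ‖ρ s‖ ^ 2 ≤ C * ‖star (ρ T) * star (ρ d) * ρ s‖ ^ 2) : ρ P = 0 := by
  have key : ∀ s : E, P * s = s →
      1 / 4 * ‖ρ s‖ ^ 2 ≤ 5 * C * ‖ρ (star V * s)‖ ^ 2 := by
    intro s hs
    have h1 := test s hs
    have h2 := t1_row ρ hT (star (ρ d) * ρ s)
    have hτ0 : 0 ≤ τ := le_trans (by positivity) hA
    have h3 : star (ρ TA) * (star (ρ d) * ρ s) = ρ (star (P * d * TA) * s) := by
      have : star (P * d * TA) * s = star TA * (star d * (P * s)) := by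
        rw [star_mul, star_mul, hP]; noncomm_ring
      rw [this, hs]; simp only [map_mul, map_star]
    have h4 : star (ρ TB) * (star (ρ d) * ρ s) = ρ (star V * s) := by
      have : star V * s = star TB * (star d * (P * s)) := by
        rw [hV, star_mul, star_mul, hP]; noncomm_ring
      rw [this, hs]; simp only [map_mul, map_star]
    have h5 : ‖star (ρ TA) * (star (ρ d) * ρ s)‖ ^ 2 ≤ τ * ‖ρ s‖ ^ 2 := by
      rw [h3, map_mul]
      calc ‖ρ (star (P * d * TA)) * ρ s‖ ^ 2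
          ≤ (‖ρ (star (P * d * TA))‖ * ‖ρ s‖) ^ 2 := by
            gcongr; exact norm_mul_le _ _
        _ = ‖ρ (star (P * d * TA))‖ ^ 2 * ‖ρ s‖ ^ 2 := by ring
        _ ≤ ‖star (P * d * TA)‖ ^ 2 * ‖ρ s‖ ^ 2 := by
            gcongr; exact NonUnitalStarAlgHom.norm_apply_le ρ _
        _ ≤ τ * ‖ρ s‖ ^ 2 := by
            rw [norm_star]; gcongr
    rw [mul_assoc] at h1
    rw [h4] at h2
    have h6 : C * ‖star (ρ T) * (star (ρ d) * ρ s)‖ ^ 2
        ≤ C * (5 * (τ * ‖ρ s‖ ^ 2 + ‖ρ (star V * s)‖ ^ 2)) := by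
      gcongr
      linarith
    have h7 : C * (5 * (τ * ‖ρ s‖ ^ 2 + ‖ρ (star V * s)‖ ^ 2))
        = (5 * C * τ) * ‖ρ s‖ ^ 2 + 5 * C * ‖ρ (star V * s)‖ ^ 2 := by ring
    have h8 : (5 * C * τ) * ‖ρ s‖ ^ 2 ≤ 1 / 4 * ‖ρ s‖ ^ 2 := by gcongr
    linarith
  -- first test vector
  have k1 := key V2 hPV2
  have k2 : ‖ρ (star V * V2)‖ ≤ ε := le_trans (NonUnitalStarAlgHom.norm_apply_le ρ _) hcross
  have k3 : ‖ρ V2‖ ^ 2 ≤ 20 * C * ε ^ 2 := by
    have : 5 * C * ‖ρ (star V * V2)‖ ^ 2 ≤ 5 * C * ε ^ 2 := by gcongr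
    linarith
  have k4 : ‖ρ H‖ ≤ 20 * C * ε ^ 2 + ε := by
    have h1 : ρ H = ρ (star V2 * V2) - ρ (star V2 * V2 - H) := by rw [map_sub]; abel
    rw [h1]
    refine le_trans (norm_sub_le _ _) ?_
    have h2 : ‖ρ (star V2 * V2)‖ = ‖ρ V2‖ ^ 2 := by rw [map_mul, map_star, ← t1_norm_sq]
    have h3 : ‖ρ (star V2 * V2 - H)‖ ≤ ε := le_trans (NonUnitalStarAlgHom.norm_apply_le ρ _) hV2H
    linarith
  have k5 : ‖ρ V‖ ^ 2 ≤ 20 * C * ε ^ 2 + 2 * ε := by
    have h1 : ρ (star V * V) = ρ H + ρ (star V * V - H) := by rw [map_sub]; abel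
    have h2 : ‖ρ (star V * V)‖ = ‖ρ V‖ ^ 2 := by rw [map_mul, map_star, ← t1_norm_sq]
    rw [← h2, h1]
    refine le_trans (norm_add_le _ _) ?_
    have h3 : ‖ρ (star V * V - H)‖ ≤ ε := le_trans (NonUnitalStarAlgHom.norm_apply_le ρ _) hVH
    linarith
  -- second test vector
  have k6 := key P hPP
  have hPV : star V * P = star V := by
    rw [hV, star_mul, star_mul, hP, mul_assoc, mul_assoc, hPP]
  rw [hPV, map_star, norm_star] at k6
  have k7 : ‖ρ P‖ ^ 2 < 1 := by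
    have : 5 * C * ‖ρ V‖ ^ 2 ≤ 5 * C * (20 * C * ε ^ 2 + 2 * ε) := by gcongr
    nlinarith
  apply t1_proj_zero
  · rw [← map_star, hP]
  · rw [← map_mul, hPP]
  · by_contra h
    push Not at h
    have : 1 ≤ ‖ρ P‖ ^ 2 := one_le_pow₀ h
    linarith

end Crest.Agent.R110
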